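import Crest.Agent.R171.Coc

/-!
Row 171: from Mathlib's group homology to cocycles.
-/

set_option autoImplicit false

namespace Crest.Agent.R171

open Crest.AlgebraR.Steinberg CategoryTheory groupHomology

/-- a cycle whose image is a boundary is a boundary, if the map on homology is injective -/
theorem boundary_of_injective {K L : ChainComplex (ModuleCat ℤ) ℕ} (ψ : K ⟶ L) (n : ℕ)
    (hψ : Function.Injective (HomologicalComplex.homologyMap ψ (n + 1)).hom)
    (z : K.X (n + 1)) (hz : K.d (n + 1) n z = 0) (y' : L.X (n + 2))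
    (hy : L.d (n + 2) (n + 1) y' = ψ.f (n + 1) z) : ∃ y : K.X (n + 2), K.d (n + 2) (n + 1) y = z := by
  have hn : (ComplexShape.down ℕ).next (n + 1) = n := by simp
  have hp : (ComplexShape.down ℕ).prev (n + 1) = n + 2 := by simp
  let x : K.cycles (n + 1) := K.cyclesMk z n hn hz
  have hx : K.iCycles (n + 1) x = z := K.i_cyclesMk z n hn hz
  have h1 : HomologicalComplex.cyclesMap ψ (n + 1) x = L.toCycles (n + 2) (n + 1) y' := by
    apply (ModuleCat.mono_iff_injective (L.iCycles (n + 1))).1 inferInstance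
    rw [← ModuleCat.comp_apply, ← ModuleCat.comp_apply, HomologicalComplex.cyclesMap_i,
      HomologicalComplex.toCycles_i, ModuleCat.comp_apply, hx, hy]
  have h2 : K.homologyπ (n + 1) x = 0 := by
    apply hψ
    rw [map_zero, ← ModuleCat.comp_apply, HomologicalComplex.homologyπ_naturality,
      ModuleCat.comp_apply, h1, ← ModuleCat.comp_apply, HomologicalComplex.toCycles_comp_homologyπ]
    rfl
  have h3 := ShortComplex.exact_of_g_is_cokernel
    (ShortComplex.mk _ _ (K.toCycles_comp_homologyπ (n + 2) (n + 1)))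
    (K.homologyIsCokernel (n + 2) (n + 1) hp)
  obtain ⟨y, hy⟩ := (ShortComplex.moduleCat_exact_iff _).1 h3 x h2
  refine ⟨y, ?_⟩
  rw [← hx, ← hy, ← HomologicalComplex.toCycles_i, ModuleCat.comp_apply]

section
variable {G : Type} [Group G]

/-- the differential of the inhomogeneous chains with trivial coefficients -/
noncomputable def dd (G : Type) [Group G] (n : ℕ) :
    ((Fin (n + 1) → G) →₀ ℤ) →ₗ[ℤ] ((Fin n → G) →₀ ℤ) :=
  (inhomogeneousChains.d (Rep.trivial ℤ G ℤ) n).hom

theorem dd_single (n : ℕ) (g : Fin (n + 1) → G) (a : ℤ) :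
    dd G n (Finsupp.single g a) = Finsupp.single (fun i => g i.succ) a +
      ∑ j : Fin (n + 1), (-1 : ℤ) ^ ((j : ℕ) + 1) • Finsupp.single (Fin.contractNth j (· * ·) g) a :=
  inhomogeneousChains.d_single (A := Rep.trivial ℤ G ℤ) n g a

/-- basis 2-chains -/
noncomputable def s2 (a b : G) : (Fin 2 → G) →₀ ℤ := Finsupp.single ![a, b] 1

/-- basis 3-chains -/
noncomputable def s3 (a b c : G) : (Fin 3 → G) →₀ ℤ := Finsupp.single ![a, b, c] 1

theorem dd_two (g h k : G) : dd G 2 (s3 g h k) = dl2 s2 g h k := by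
  have e0 : (fun i : Fin 2 => (![g, h, k] : Fin 3 → G) i.succ) = ![h, k] := by
    funext i; fin_cases i <;> rfl
  have e1 : Fin.contractNth (0 : Fin 3) (· * ·) ![g, h, k] = ![g * h, k] := by
    funext i; fin_cases i <;> rfl
  have e2 : Fin.contractNth (1 : Fin 3) (· * ·) ![g, h, k] = ![g, h * k] := by
    funext i; fin_cases i <;> rfl
  have e3 : Fin.contractNth (2 : Fin 3) (· * ·) ![g, h, k] = ![g, h] := by
    funext i; fin_cases i <;> rfl
  rw [s3, dd_single, Fin.sum_univ_three, e0, e1, e2, e3]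
  simp only [dl2, s2, Fin.val_zero, Fin.val_one, Fin.val_two]
  norm_num
  abel

theorem dd_three (t : Fin 4 → G) :
    dd G 3 (Finsupp.single t 1) = dl3 s3 (t 0) (t 1) (t 2) (t 3) := by
  have e0 : (fun i : Fin 3 => t i.succ) = ![t 1, t 2, t 3] := by
    funext i; fin_cases i <;> rfl
  have e1 : Fin.contractNth (0 : Fin 4) (· * ·) t = ![t 0 * t 1, t 2, t 3] := by
    funext i; fin_cases i <;> rfl
  have e2 : Fin.contractNth (1 : Fin 4) (· * ·) t = ![t 0, t 1 * t 2, t 3] := by
    funext i; fin_cases i <;> rfl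
  have e3 : Fin.contractNth (2 : Fin 4) (· * ·) t = ![t 0, t 1, t 2 * t 3] := by
    funext i; fin_cases i <;> rfl
  have e4 : Fin.contractNth (3 : Fin 4) (· * ·) t = ![t 0, t 1, t 2] := by
    funext i; fin_cases i <;> rfl
  rw [dd_single, Fin.sum_univ_four, e0, e1, e2, e3, e4]
  simp only [dl3, s3, Fin.val_zero, Fin.val_one, Fin.val_two, show ((3 : Fin 4) : ℕ) = 3 from rfl]
  norm_num
  abel

omit [Group G] in
theorem map_tor {M M' : Type} [AddCommGroup M] [AddCommGroup M'] (L : M →+ M')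
    (φ : G → G → G → M) (a b c : G) :
    L (tor φ a b c) = tor (fun a b c => L (φ a b c)) a b c := by
  simp only [tor, map_add, map_sub]

theorem map_dl3 {M M' : Type} [AddCommGroup M] [AddCommGroup M'] (L : M →+ M')
    (φ : G → G → G → M) (g h k l : G) :
    L (dl3 φ g h k l) = dl3 (fun a b c => L (φ a b c)) g h k l := by
  simp only [dl3, map_add, map_sub]

theorem dd_tor {a b c : G} (hab : Commute a b) (hac : Commute a c) (hbc : Commute b c) :
    dd G 2 (tor s3 a b c) = 0 := by
  refine (map_tor (dd G 2).toAddMonoidHom s3 a b c).trans ?_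
  rw [← tor_dl2 s2 hab hac hbc]
  congr 1
  funext g h k
  exact dd_two g h k

end

theorem bridge_gen {G G' : Type} [Group G] [Group G'] (f : G →* G')
    (ι : Rep.trivial ℤ G ℤ ⟶ Rep.res f (Rep.trivial ℤ G' ℤ)) (hι : ι.hom (1 : ℤ) = (1 : ℤ))
    (hf : Function.Injective (groupHomology.map f ι 3).hom) (n : ℤ) {a b c : G}
    (hab : Commute a b) (hac : Commute a c) (hbc : Commute b c)
    (h : ∀ (M : Type) [AddCommGroup M] (φ : G' → G' → G' → M), IsCoc3 φ →
      n • tor φ (f a) (f b) (f c) = 0) :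
    ∃ y : (Fin 4 → G) →₀ ℤ, dd G 3 y = n • tor s3 a b c := by
  let q := (LinearMap.range (dd G' 3)).mkQ
  have h1 := h _ (fun g h k => q (s3 g h k)) fun g h k l => by
    refine (map_dl3 q.toAddMonoidHom s3 g h k l).symm.trans ?_
    exact (Submodule.Quotient.mk_eq_zero _).2 ⟨_, dd_three ![g, h, k, l]⟩
  have h2 : q (n • tor s3 (f a) (f b) (f c)) = 0 := by
    rw [map_zsmul]
    exact (congrArg (n • ·) (map_tor q.toAddMonoidHom s3 _ _ _)).trans h1
  obtain ⟨y', hy'⟩ := (Submodule.Quotient.mk_eq_zero _).1 h2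
  let ψ : ((Fin 3 → G) →₀ ℤ) →ₗ[ℤ] ((Fin 3 → G') →₀ ℤ) := ((chainsMap f ι).f 3).hom
  have h3 : ∀ g h k, ψ (s3 g h k) = s3 (f g) (f h) (f k) := by
    intro g h k
    refine (chainsMap_f_single f ι 3 ![g, h, k] (1 : ℤ)).trans ?_
    rw [hι]
    unfold s3
    congr 1
    funext i; fin_cases i <;> rfl
  have h4 : ψ (n • tor s3 a b c) = n • tor s3 (f a) (f b) (f c) := by
    rw [map_zsmul]
    congr 1
    simp only [tor, map_add, map_sub, h3]
  have h5 : dd G 2 (n • tor s3 a b c) = 0 := by rw [map_zsmul, dd_tor hab hac hbc, smul_zero]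
  have h6 := boundary_of_injective (chainsMap f ι) 2 hf (n • tor s3 a b c)
    (by rw [inhomogeneousChains.d_def]; exact h5) y'
    (by rw [inhomogeneousChains.d_def]; exact hy'.trans h4.symm)
  rw [inhomogeneousChains.d_def] at h6
  exact h6

theorem claimBridge : ClaimBridge := by
  classical
  intro R F _ _ f hf n a b c hab hac hbc h
  obtain ⟨y, hy⟩ := bridge_gen (stMap f) (trivialHom f) rfl hf n hab hac hbc h
  refine ⟨y.support.biUnion fun t => Finset.univ.image t, fun φ hφ => ?_⟩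
  let L : ((Fin 3 → St R) →₀ ℤ) →ₗ[ℤ] ZMod 5 :=
    Finsupp.linearCombination ℤ fun t => φ (t 0) (t 1) (t 2)
  have hL : (fun g h k => L.toAddMonoidHom (s3 g h k)) = φ := by
    funext g h k
    simp [L, s3]
  have h1 : L (n • tor s3 a b c) = n • tor φ a b c := by
    rw [map_zsmul]
    congr 1
    exact (map_tor L.toAddMonoidHom s3 a b c).trans (by rw [hL])
  rw [← h1, ← hy, ← Finsupp.sum_single y, Finsupp.sum, map_sum, map_sum]
  refine Finset.sum_eq_zero fun t ht => ?_
  have hm : ∀ i, t i ∈ y.support.biUnion fun t => Finset.univ.image t := fun i =>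
    Finset.mem_biUnion.2 ⟨t, ht, Finset.mem_image_of_mem _ (Finset.mem_univ i)⟩
  have h2 : L (dl3 s3 (t 0) (t 1) (t 2) (t 3)) = 0 :=
    (map_dl3 L.toAddMonoidHom s3 _ _ _ _).trans
      (by rw [hL]; exact hφ _ (hm 0) _ (hm 1) _ (hm 2) _ (hm 3))
  rw [← mul_one (y t), ← smul_eq_mul, ← Finsupp.smul_single, map_smul, map_smul, dd_three, h2,
    smul_zero]

end Crest.Agent.R171
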