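import Crest.Agent.R171.Defs

/-!
Row 171: lifting Steinberg systems to central extensions (Milnor 5.10), and the central extension
defined by a 2-cocycle.
-/

set_option autoImplicit false

namespace Crest.Agent.R171

namespace CentralAux

/-- commutator -/
def cm {E : Type} [Group E] (a b : E) : E := a * b * a⁻¹ * b⁻¹

section
variable {E G : Type} [Group E] [Group G]

theorem cm_eq_one {a b : E} : cm a b = 1 ↔ Commute a b := by
  unfold cm
  rw [mul_inv_eq_one, mul_inv_eq_iff_eq_mul]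
  rfl

theorem map_cm (π : E →* G) (a b : E) : π (cm a b) = cm (π a) (π b) := by simp [cm]

theorem cm_congr {π : E →* G} (hc : ∀ e, π e = 1 → ∀ e', Commute e e') {y y1 z z1 : E}
    (hy : π y = π y1) (hz : π z = π z1) : cm y z = cm y1 z1 := by
  obtain ⟨c, rfl⟩ : ∃ c, y = y1 * c := ⟨y1⁻¹ * y, by simp⟩
  obtain ⟨d, rfl⟩ : ∃ d, z = z1 * d := ⟨z1⁻¹ * z, by simp⟩
  have h1 := hc c (by simpa using hy)
  have h2 := hc d (by simpa using hz)
  have e1 : c * (z1 * d) * c⁻¹ = z1 * d := by rw [(h1 _).eq, mul_inv_cancel_right]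
  have e2 : d * y1⁻¹ * d⁻¹ = y1⁻¹ := by rw [(h2 _).eq, mul_inv_cancel_right]
  calc cm (y1 * c) (z1 * d) = y1 * (c * (z1 * d) * c⁻¹) * y1⁻¹ * (z1 * d)⁻¹ := by
        unfold cm; group
    _ = y1 * z1 * (d * y1⁻¹ * d⁻¹) * z1⁻¹ := by rw [e1]; group
    _ = cm y1 z1 := by rw [e2]; rfl

theorem conj_cm (g a b : E) : g * cm a b * g⁻¹ = cm (g * a * g⁻¹) (g * b * g⁻¹) := by
  unfold cm; group

theorem hall {u v w : E} (h1 : Commute u w) (h2 : Commute (cm u v) (cm v w))
    (h3 : Commute (cm (cm u v) w) (cm v w)) : cm u (cm v w) = cm (cm u v) w := by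
  have e1 : u * cm v w * u⁻¹ = cm u v * cm v w * (w * (cm u v)⁻¹ * w⁻¹) := by
    rw [conj_cm, h1.eq, mul_inv_cancel_right]
    unfold cm; group
  have e2 : u * cm v w * u⁻¹ = cm v w * cm (cm u v) w := by
    rw [e1, h2.eq]
    generalize cm u v = p
    generalize cm v w = q
    unfold cm; group
  calc cm u (cm v w) = u * cm v w * u⁻¹ * (cm v w)⁻¹ := rfl
    _ = _ := by rw [e2, ← h3.eq, mul_inv_cancel_right]

theorem cm_mul_right (u v w : E) : cm u (v * w) = cm u v * (v * cm u w * v⁻¹) := by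
  unfold cm; group

end

/-- The extension attached to a 2-cochain. -/
@[ext] structure Ext {G M : Type} (ψ : G → G → M) where
  m : M
  g : G

end CentralAux

open CentralAux

theorem claimCentral : ClaimCentral := by
  intro I R G E _ _ _ S h5 π hs hc
  choose L0 hL0 using hs
  let L : I → I → R → E := fun i j a => L0 (S.x i j a)
  have hL : ∀ i j a, π (L i j a) = S.x i j a := fun i j a => hL0 _
  have hbrk : ∀ {i j l : I} {a b : R} {y z : E}, i ≠ j → j ≠ l → i ≠ l → π y = S.x i j a →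
      π z = S.x j l b → π (cm y z) = S.x i l (a * b) := by
    intro i j l a b y z h1 h2 h3 hy hz
    rw [map_cm, hy, hz]
    exact S.brk i j l h1 h2 h3 a b
  have step1 : ∀ {i j k l : I} {a b : R} {y z : E}, i ≠ j → k ≠ l → j ≠ k → i ≠ l →
      π y = S.x i j a → π z = S.x k l b → Commute y z := by
    intro i j k l a b y z hij hkl hjk hil hy hz
    obtain ⟨h, h1, h2, h3, h4⟩ := h5 i j k l
    have e1 : z * cm (L i h 1) (L h j a) * z⁻¹ = cm (L i h 1) (L h j a) := by
      rw [conj_cm]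
      refine cm_congr hc ?_ ?_
      · rw [map_mul, map_mul, map_inv, hz, hL,
          (S.comm k l i h hkl h1.symm hil.symm h3.symm b 1).eq, mul_inv_cancel_right]
      · rw [map_mul, map_mul, map_inv, hz, hL,
          (S.comm k l h j hkl h2 h4.symm hjk.symm b a).eq, mul_inv_cancel_right]
    have e2 : Commute (cm (L i h 1) (L h j a)) z := (mul_inv_eq_iff_eq_mul.1 e1).symm
    rw [← cm_eq_one] at e2 ⊢
    rw [← e2]
    refine cm_congr hc ?_ rfl
    rw [hy, hbrk h1.symm h2 hij (hL _ _ _) (hL _ _ _), one_mul]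
  have step2 : ∀ {h i j k : I} (a b : R), h ≠ i → h ≠ j → h ≠ k → i ≠ j → i ≠ k → j ≠ k →
      cm (L h i 1) (L i k (a * b)) = cm (L h j a) (L j k b) := by
    intro h i j k a b hi hj hk ij ik jk
    have p1 := hbrk hi ij hj (hL h i 1) (hL i j a)
    have p2 := hbrk ij jk ik (hL i j a) (hL j k b)
    have p3 := hbrk hj jk hk p1 (hL j k b)
    have := hall (step1 hi jk ij hk (hL h i 1) (hL j k b)) (step1 hj ik ij.symm hk p1 p2)
      (step1 hk ik ik.symm hk p3 p2)
    rw [one_mul] at p1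
    rw [cm_congr hc rfl ((hL _ _ _).trans p2.symm), this]
    exact cm_congr hc (p1.trans (hL _ _ _).symm) rfl
  choose m hm using h5
  let s : I → I → R → E := fun h k b => cm (L h (m h k h k) 1) (L (m h k h k) k b)
  have hs : ∀ {h k i : I} (b : R), h ≠ k → h ≠ i → i ≠ k → s h k b = cm (L h i 1) (L i k b) := by
    intro h k i b hk hi ik
    by_cases e : m h k h k = i
    · simp only [s, e]
    · have := step2 (h := h) (i := m h k h k) (j := i) (k := k) 1 b (hm h k h k).1.symm hi hk e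
        (hm h k h k).2.1 ik
      rwa [one_mul] at this
  have hπ : ∀ h k, h ≠ k → ∀ b, π (s h k b) = S.x h k b := by
    intro h k hk b
    rw [hbrk (hm h k h k).1.symm (hm h k h k).2.1 hk (hL _ _ _) (hL _ _ _), one_mul]
  refine ⟨⟨s, fun h k hk a b => ?_, fun i j k l hij hkl hjk hil a b =>
    step1 hij hkl hjk hil (hπ _ _ hij a) (hπ _ _ hkl b), fun h j k hj jk hk a b => ?_⟩, hπ⟩
  · have hi := (hm h k h k).1.symm
    have ik := (hm h k h k).2.1
    have e1 : s h k (a + b) = cm (L h (m h k h k) 1) (L (m h k h k) k a * L (m h k h k) k b) :=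
      cm_congr hc rfl (by rw [map_mul, hL, hL, hL, S.add _ _ ik])
    rw [e1, cm_mul_right, (step1 ik hk hk.symm ik (hL _ _ a) (hπ h k hk b)).eq,
      mul_inv_cancel_right]
  · obtain ⟨h1, h2, h3, -⟩ := hm h j k k
    rw [hs (a * b) hk h1.symm h3, step2 a b h1.symm hj hk h2 h3 jk]
    exact cm_congr hc ((hπ _ _ hj a).trans (hL _ _ _).symm) ((hπ _ _ jk b).trans (hL _ _ _).symm)

theorem claimExt : ClaimExt := by
  intro G M _ _ ψ hψ
  have h1 : ∀ h, ψ 1 h = ψ 1 1 := fun h => by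
    have := hψ 1 1 h
    simp only [dl2, one_mul] at this
    rw [← sub_eq_zero, ← this]
    abel
  have h2 : ∀ h, ψ h 1 = ψ 1 1 := fun h => by
    have := hψ h 1 1
    simp only [dl2, mul_one] at this
    rw [eq_comm, ← sub_eq_zero, ← this]
    abel
  let _ : Mul (Ext ψ) := ⟨fun a b => ⟨a.m + b.m + ψ a.g b.g, a.g * b.g⟩⟩
  let _ : One (Ext ψ) := ⟨⟨-ψ 1 1, 1⟩⟩
  let _ : Inv (Ext ψ) := ⟨fun a => ⟨-a.m - ψ a.g⁻¹ a.g - ψ 1 1, a.g⁻¹⟩⟩
  have mul_def : ∀ a b : Ext ψ, a * b = ⟨a.m + b.m + ψ a.g b.g, a.g * b.g⟩ := fun _ _ => rfl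
  have one_def : (1 : Ext ψ) = ⟨-ψ 1 1, 1⟩ := rfl
  have inv_def : ∀ a : Ext ψ, a⁻¹ = ⟨-a.m - ψ a.g⁻¹ a.g - ψ 1 1, a.g⁻¹⟩ := fun _ => rfl
  let _ : Group (Ext ψ) := Group.ofLeftAxioms
    (fun a b c => by
      have := hψ a.g b.g c.g
      simp only [dl2] at this
      refine Ext.ext ?_ (mul_assoc _ _ _)
      simp only [mul_def]
      rw [eq_comm, ← sub_eq_zero, ← this]
      abel)
    (fun a => by
      refine Ext.ext ?_ (one_mul _)
      simp only [mul_def, one_def, h1]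
      abel)
    (fun a => by
      refine Ext.ext ?_ (inv_mul_cancel _)
      simp only [mul_def, one_def, inv_def]
      abel)
  refine ⟨Ext ψ, inferInstance, ⟨⟨Ext.g, rfl⟩, fun _ _ => rfl⟩, fun g => ⟨⟨0, g⟩, rfl⟩,
    fun e he e' => ?_, fun e e' h => ?_⟩
  · have he' : e.g = 1 := he
    refine Ext.ext ?_ ?_
    · change e.m + e'.m + ψ e.g e'.g = e'.m + e.m + ψ e'.g e.g
      rw [he', h1 e'.g, h2 e'.g, add_comm e.m]
    · change e.g * e'.g = e'.g * e.g
      rw [he', one_mul, mul_one]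
  · have : e.m + e'.m + ψ e.g e'.g = e'.m + e.m + ψ e'.g e.g := congrArg Ext.m h
    rw [add_comm e.m] at this
    exact add_left_cancel this

end Crest.Agent.R171
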