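import Crest.Agent.R171.Defs

/-!
Row 171: calculus of torus values of 3-cocycles.
-/

set_option autoImplicit false
set_option linter.unusedSectionVars false

namespace Crest.Agent.R171

variable {G M : Type} [Group G] [AddCommGroup M]

theorem tor_swap12 (φ : G → G → G → M) (a b c : G) : tor φ b a c = - tor φ a b c := by
  unfold tor; abel

theorem tor_swap23 (φ : G → G → G → M) (a b c : G) : tor φ a c b = - tor φ a b c := by
  unfold tor; abel

theorem tor_rot (φ : G → G → G → M) (a b c : G) : tor φ b c a = tor φ a b c := by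
  unfold tor; abel

/-- the slant product of a 3-cochain with a group element -/
def sl (φ : G → G → G → M) (c g h : G) : M := φ c g h - φ g c h + φ g h c

theorem tor_eq_sl (φ : G → G → G → M) (c a b : G) : tor φ c a b = sl φ c a b - sl φ c b a := by
  unfold tor sl; abel

theorem dl2_sl {φ : G → G → G → M} (hφ : IsCoc3 φ) {c g h k : G} (hg : Commute c g)
    (hh : Commute c h) (hk : Commute c k) : dl2 (sl φ c) g h k = 0 := by
  have h1 := hφ c g h k
  have h2 := hφ g c h k
  have h3 := hφ g h c k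
  have h4 := hφ g h k c
  unfold dl3 at h1 h2 h3 h4
  unfold dl2 sl
  rw [hg.eq] at h1
  rw [hh.eq] at h2
  rw [hk.eq] at h3
  linear_combination (norm := abel) - h1 + h2 - h3 + h4

theorem coc2_mul {ψ : G → G → M} {a a' b : G} (h1 : dl2 ψ a a' b = 0) (h2 : dl2 ψ a b a' = 0)
    (h3 : dl2 ψ b a a' = 0) (hab : Commute a b) (ha'b : Commute a' b) :
    ψ (a * a') b - ψ b (a * a') = (ψ a b - ψ b a) + (ψ a' b - ψ b a') := by
  unfold dl2 at h1 h2 h3
  rw [ha'b.eq] at h1
  rw [hab.eq] at h2
  linear_combination (norm := abel) - h1 + h2 - h3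

theorem tor_mul1 {φ : G → G → G → M} (hφ : IsCoc3 φ) {a a' b c : G} (hab : Commute a b)
    (hac : Commute a c) (ha'b : Commute a' b) (ha'c : Commute a' c) (hbc : Commute b c) :
    tor φ (a * a') b c = tor φ a b c + tor φ a' b c := by
  rw [tor_rot φ c (a * a') b, tor_rot φ c a b, tor_rot φ c a' b, tor_eq_sl, tor_eq_sl, tor_eq_sl]
  exact coc2_mul (dl2_sl hφ hac.symm ha'c.symm hbc.symm) (dl2_sl hφ hac.symm hbc.symm ha'c.symm)
    (dl2_sl hφ hbc.symm hac.symm ha'c.symm) hab ha'b

theorem tor_mul2 {φ : G → G → G → M} (hφ : IsCoc3 φ) {a b b' c : G} (hab : Commute a b)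
    (hab' : Commute a b') (hac : Commute a c) (hbc : Commute b c) (hb'c : Commute b' c) :
    tor φ a (b * b') c = tor φ a b c + tor φ a b' c := by
  rw [tor_swap12 φ (b * b'), tor_swap12 φ b, tor_swap12 φ b',
    tor_mul1 hφ hab.symm hbc hab'.symm hb'c hac]
  abel

theorem tor_mul3 {φ : G → G → G → M} (hφ : IsCoc3 φ) {a b c c' : G} (hab : Commute a b)
    (hac : Commute a c) (hac' : Commute a c') (hbc : Commute b c) (hbc' : Commute b c') :
    tor φ a b (c * c') = tor φ a b c + tor φ a b c' := by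
  rw [tor_rot φ (c * c'), tor_rot φ c, tor_rot φ c']
  exact tor_mul1 hφ hac.symm hbc.symm hac'.symm hbc'.symm hab

theorem tor_one1 {φ : G → G → G → M} (hφ : IsCoc3 φ) {b c : G} (hbc : Commute b c) :
    tor φ 1 b c = 0 := by
  have := tor_mul1 hφ (Commute.one_left b) (Commute.one_left c) (Commute.one_left b)
    (Commute.one_left c) hbc
  simpa using this

theorem tor_inv1 {φ : G → G → G → M} (hφ : IsCoc3 φ) {a b c : G} (hab : Commute a b)
    (hac : Commute a c) (hbc : Commute b c) : tor φ a⁻¹ b c = - tor φ a b c := by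
  have := tor_mul1 hφ hab hac hab.inv_left hac.inv_left hbc
  rw [mul_inv_cancel, tor_one1 hφ hbc] at this
  exact eq_neg_of_add_eq_zero_right this.symm

/-- torus values of a coboundary vanish -/
theorem tor_dl2 (ψ : G → G → M) {a b c : G} (hab : Commute a b) (hac : Commute a c)
    (hbc : Commute b c) : tor (dl2 ψ) a b c = 0 := by
  unfold tor dl2
  rw [hab.eq, hac.eq, hbc.eq]
  abel

theorem tor_conj {φ : G → G → G → M} (hφ : IsCoc3 φ) (g : G) {a b c : G} (hab : Commute a b)
    (hac : Commute a c) (hbc : Commute b c) :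
    tor φ (g * a * g⁻¹) (g * b * g⁻¹) (g * c * g⁻¹) = tor φ a b c := by
  let ψ : G → G → M := fun a b =>
    φ g a b - φ (g * a * g⁻¹) g b + φ (g * a * g⁻¹) (g * b * g⁻¹) g
  have key : ∀ a b c : G, φ (g * a * g⁻¹) (g * b * g⁻¹) (g * c * g⁻¹) = φ a b c - dl2 ψ a b c := by
    intro a b c
    have h1 := hφ g a b c
    have h2 := hφ (g * a * g⁻¹) g b c
    have h3 := hφ (g * a * g⁻¹) (g * b * g⁻¹) g c
    have h4 := hφ (g * a * g⁻¹) (g * b * g⁻¹) (g * c * g⁻¹) g
    unfold dl3 at h1 h2 h3 h4
    unfold dl2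
    simp only [ψ]
    have e1 : ∀ a : G, g * a * g⁻¹ * g = g * a := fun a => by group
    have e2 : ∀ a b : G, g * a * g⁻¹ * (g * b * g⁻¹) = g * (a * b) * g⁻¹ := fun a b => by group
    simp only [e1, e2] at h2 h3 h4
    linear_combination (norm := abel) - h1 + h2 - h3 + h4
  have h0 := tor_dl2 ψ hab hac hbc
  unfold tor at h0 ⊢
  simp only [key]
  linear_combination (norm := abel) - h0

/-- pull-back of a cocycle along a homomorphism -/
theorem IsCoc3.comp {H : Type} [Group H] {φ : G → G → G → M} (hφ : IsCoc3 φ) (f : H →* G) :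
    IsCoc3 (fun a b c => φ (f a) (f b) (f c)) := by
  intro g h k l
  have := hφ (f g) (f h) (f k) (f l)
  simpa [dl3] using this

end Crest.Agent.R171
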