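import Crest.Agent.R171.Five

/-!
Row 171: the complex of lists of flags in general position.
-/

set_option autoImplicit false
set_option linter.unusedSimpArgs false

namespace Crest.Agent.R171

/-! ### The complex of lists -/

section Lists

variable {L : Type}

abbrev Ch (L : Type) : Type := FreeAbelianGroup (List L)

def cons (F : L) : Ch L →+ Ch L := FreeAbelianGroup.map (List.cons F)

@[simp] theorem cons_of (F : L) (l : List L) :
    cons F (FreeAbelianGroup.of l) = FreeAbelianGroup.of (F :: l) := by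
  simp [cons]

def bdL : List L → Ch L
  | [] => 0
  | F :: l => FreeAbelianGroup.of l - cons F (bdL l)

def bd : Ch L →+ Ch L := FreeAbelianGroup.lift bdL

@[simp] theorem bd_of (l : List L) : bd (FreeAbelianGroup.of l) = bdL l := by simp [bd]

theorem bd_cons (F : L) (z : Ch L) : bd (cons F z) = z - cons F (bd z) := by
  have : (bd.comp (cons F) : Ch L →+ Ch L) = AddMonoidHom.id _ - (cons F).comp bd := by
    ext l
    simp [bdL]
  exact DFunLike.congr_fun this z

theorem bd_bdL (l : List L) : bd (bdL l) = 0 := by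
  induction l with
  | nil => simp [bdL]
  | cons F l ih => simp [bdL, bd_cons, ih]

theorem bd_bd (z : Ch L) : bd (bd z) = 0 := by
  have : (bd.comp bd : Ch L →+ Ch L) = 0 := by
    ext l
    simp [bd_bdL]
  exact DFunLike.congr_fun this z

def mapCh (g : L → L) : Ch L →+ Ch L := FreeAbelianGroup.map (List.map g)

@[simp] theorem mapCh_of (g : L → L) (l : List L) :
    mapCh g (FreeAbelianGroup.of l) = FreeAbelianGroup.of (l.map g) := by
  simp [mapCh]

theorem mapCh_cons (g : L → L) (F : L) (z : Ch L) : mapCh g (cons F z) = cons (g F) (mapCh g z) := by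
  have : ((mapCh g).comp (cons F) : Ch L →+ Ch L) = (cons (g F)).comp (mapCh g) := by
    ext l
    simp
  exact DFunLike.congr_fun this z

theorem bd_mapCh (g : L → L) (z : Ch L) : bd (mapCh g z) = mapCh g (bd z) := by
  have key : ∀ l : List L, bdL (l.map g) = mapCh g (bdL l) := by
    intro l
    induction l with
    | nil => simp [bdL]
    | cons F l ih => simp [bdL, ih, mapCh_cons]
  have : (bd.comp (mapCh g) : Ch L →+ Ch L) = (mapCh g).comp bd := by
    ext l
    simp [key]
  exact DFunLike.congr_fun this z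

theorem lift_bdL_eq_zero {M : Type} [AddCommGroup M] (l : List L) (φ : List L → M)
    (h : ∀ l' : List L, l'.length + 1 = l.length → φ l' = 0) :
    FreeAbelianGroup.lift φ (bdL l) = 0 := by
  induction l generalizing φ with
  | nil => simp [bdL]
  | cons F l ih =>
    have e : ∀ z : Ch L, FreeAbelianGroup.lift φ (cons F z) =
        FreeAbelianGroup.lift (fun l' => φ (F :: l')) z := by
      intro z
      have : ((FreeAbelianGroup.lift φ).comp (cons F) : Ch L →+ M) =
          FreeAbelianGroup.lift (fun l' => φ (F :: l')) := by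
        ext l
        simp
      exact DFunLike.congr_fun this z
    rw [bdL, map_sub, e, ih _ (fun l' hl' => h _ (by simp [hl'])), FreeAbelianGroup.lift_apply_of,
      h l (by simp), sub_zero]

/-- the chains spanned by the lists with property `p` -/
def spanL (p : List L → Prop) : AddSubgroup (Ch L) :=
  AddSubgroup.closure (FreeAbelianGroup.of '' {l | p l})

theorem of_mem_spanL {p : List L → Prop} {l : List L} (h : p l) :
    FreeAbelianGroup.of l ∈ spanL p :=
  AddSubgroup.subset_closure ⟨l, h, rfl⟩

theorem spanL_mono {p q : List L → Prop} (h : ∀ l, p l → q l) : spanL p ≤ spanL q :=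
  AddSubgroup.closure_mono (Set.image_mono h)

theorem eq_on_spanL {M : Type} [AddCommGroup M] {p : List L → Prop} {f g : Ch L →+ M}
    (h : ∀ l, p l → f (FreeAbelianGroup.of l) = g (FreeAbelianGroup.of l)) :
    ∀ z ∈ spanL p, f z = g z := by
  intro z hz
  refine AddMonoidHom.eqOn_closure (f := f) (g := g) ?_ hz
  rintro _ ⟨l, hl, rfl⟩
  exact h l hl

theorem map_mem_spanL {p q : List L → Prop} {f : Ch L →+ Ch L}
    (h : ∀ l, p l → f (FreeAbelianGroup.of l) ∈ spanL q) : ∀ z ∈ spanL p, f z ∈ spanL q := by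
  intro z hz
  have : spanL p ≤ (spanL q).comap f := by
    rw [spanL, AddSubgroup.closure_le]
    rintro _ ⟨l, hl, rfl⟩
    exact h l hl
  exact this hz

theorem acyc_spanL {p : List L → Prop}
    (h : ∀ s : Set (List L), s.Finite → (∀ l ∈ s, p l) → ∃ F, ∀ l ∈ s, p (F :: l)) :
    Acyc bd (spanL p) := by
  intro z hz hz0
  have key : ∃ s : Set (List L), s.Finite ∧ (∀ l ∈ s, p l) ∧ z ∈ spanL (fun l => l ∈ s) := by
    clear hz0
    induction hz using AddSubgroup.closure_induction with
    | mem x hx =>
      obtain ⟨l, hl, rfl⟩ := hx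
      exact ⟨{l}, Set.finite_singleton l, by simpa using hl, of_mem_spanL (by simp)⟩
    | zero => exact ⟨∅, Set.finite_empty, by simp, zero_mem _⟩
    | add x y _ _ hx hy =>
      obtain ⟨s, hs, hs', hx⟩ := hx
      obtain ⟨t, ht, ht', hy⟩ := hy
      refine ⟨s ∪ t, hs.union ht, ?_, add_mem (spanL_mono (fun l hl => Or.inl hl) hx)
        (spanL_mono (fun l hl => Or.inr hl) hy)⟩
      rintro l (hl | hl)
      exacts [hs' l hl, ht' l hl]
    | neg x _ hx =>
      obtain ⟨s, hs, hs', hx⟩ := hx
      exact ⟨s, hs, hs', neg_mem hx⟩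
  obtain ⟨s, hs, hs', hzs⟩ := key
  obtain ⟨F, hF⟩ := h s hs hs'
  refine ⟨cons F z, map_mem_spanL (p := fun l => l ∈ s) (fun l hl => ?_) z hzs, ?_⟩
  · rw [cons_of]
    exact of_mem_spanL (hF l hl)
  · rw [bd_cons, hz0, map_zero, sub_zero]

end Lists

/-! ### General position -/

namespace DetData

variable {A : Type} [CommRing A] {N : ℕ} {Φ : Aˣ → Aˣ → Aˣ → ZMod 5} (D : DetData A N Φ)

def Good (Q : Multiset (Fin N → A)) : Prop :=
  Multiset.card Q ≤ N → ∃ Q', D.UD (Q + Q')

theorem Good.ud {D : DetData A N Φ} {Q : Multiset (Fin N → A)} (h : D.Good Q)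
    (hc : Multiset.card Q = N) : D.UD Q := by
  obtain ⟨Q', hQ'⟩ := h hc.le
  have := D.card _ hQ'
  rw [Multiset.card_add, hc] at this
  have h0 : Q' = 0 := Multiset.card_eq_zero.mp (by omega)
  simpa [h0] using hQ'

theorem good_of_le {Q B : Multiset (Fin N → A)} (hB : D.UD B) (h : Q ≤ B) : D.Good Q := by
  obtain ⟨Q', rfl⟩ := Multiset.le_iff_exists_add.mp h
  exact fun _ => ⟨Q', hB⟩

theorem Good.eventually {D : DetData A N Φ} {Q : Multiset (Fin N → A)} (h : D.Good Q) :
    ∀ᶠ v in D.gen, D.Good (v ::ₘ Q) := by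
  by_cases hc : Multiset.card Q + 1 ≤ N
  · obtain ⟨Q', hQ'⟩ := h (by omega)
    have hc' := D.card _ hQ'
    rw [Multiset.card_add] at hc'
    obtain ⟨w, hw⟩ := Multiset.card_pos_iff_exists_mem.mp (show 0 < Multiset.card Q' by omega)
    obtain ⟨Q'', rfl⟩ := Multiset.exists_cons_of_mem hw
    rw [Multiset.add_cons] at hQ'
    filter_upwards [D.generic _ _ hQ'] with v hv
    exact fun _ => ⟨Q'', by rwa [Multiset.cons_add]⟩
  · exact Filter.Eventually.of_forall fun v hv => absurd (by simpa using hv) hc

theorem Good.map {D : DetData A N Φ} {Q : Multiset (Fin N → A)} (h : D.Good Q) (g : GLN A N) :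
    D.Good (Q.map (g : Module.End A (Fin N → A))) := by
  intro hc
  obtain ⟨Q', hQ'⟩ := h (by simpa using hc)
  obtain ⟨κ, hκ⟩ := D.map g
  exact ⟨Q'.map (g : Module.End A (Fin N → A)), by rw [← Multiset.map_add]; exact (hκ _ hQ').1⟩

/-- the flags of the list are in general position up to depth `r` modulo `P` -/
def Gen (r : ℕ) : List (ℕ → Fin N → A) → Multiset (Fin N → A) → Prop
  | [], P => D.Good P
  | F :: l, P => ∀ t ≤ r, Gen r l (P + pre F t)

theorem Gen.eventually {D : DetData A N Φ} {r : ℕ} {l : List (ℕ → Fin N → A)}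
    {P : Multiset (Fin N → A)} (h : D.Gen r l P) : ∀ᶠ v in D.gen, D.Gen r l (v ::ₘ P) := by
  induction l generalizing P with
  | nil => exact Good.eventually h
  | cons F l ih =>
    have : ∀ᶠ v in D.gen, ∀ t ∈ {t | t ≤ r}, D.Gen r l (v ::ₘ (P + pre F t)) :=
      (Filter.eventually_all_finite (Set.finite_le_nat r)).mpr fun t ht => ih (h t ht)
    filter_upwards [this] with v hv t ht
    rw [Multiset.cons_add]
    exact hv t ht

theorem Gen.mono {D : DetData A N Φ} {r r' : ℕ} (hr : r' ≤ r) {l : List (ℕ → Fin N → A)}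
    {P : Multiset (Fin N → A)} (h : D.Gen r l P) : D.Gen r' l P := by
  induction l generalizing P with
  | nil => exact h
  | cons F l ih => exact fun t ht => ih (h t (ht.trans hr))

/-- the action of `GL_N` on flags -/
def act (g : GLN A N) (F : ℕ → Fin N → A) : ℕ → Fin N → A := (g : Module.End A (Fin N → A)) ∘ F

theorem Gen.map {D : DetData A N Φ} {r : ℕ} {l : List (ℕ → Fin N → A)}
    {P : Multiset (Fin N → A)} (h : D.Gen r l P) (g : GLN A N) :
    D.Gen r (l.map (act g)) (P.map (g : Module.End A (Fin N → A))) := by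
  induction l generalizing P with
  | nil => exact Good.map h g
  | cons F l ih =>
    intro t ht
    have := ih (h t ht)
    rwa [Multiset.map_add, ← pre_map] at this

theorem exists_flag (r : ℕ) (s : Set (List (ℕ → Fin N → A) × Multiset (Fin N → A)))
    (hs : s.Finite) (h : ∀ x ∈ s, D.Gen r x.1 x.2) :
    ∃ F, ∀ x ∈ s, D.Gen r (F :: x.1) x.2 := by
  have key : ∀ n : ℕ, ∃ F : ℕ → Fin N → A, ∀ x ∈ s, ∀ t ≤ n, D.Gen r x.1 (x.2 + pre F t) := by
    intro n
    induction n with
    | zero => exact ⟨0, fun x hx t ht => by simpa [Nat.le_zero.mp ht] using h x hx⟩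
    | succ n ih =>
      obtain ⟨F, hF⟩ := ih
      have := D.neBot
      obtain ⟨v, hv⟩ := ((Filter.eventually_all_finite hs).mpr
        fun x hx => (hF x hx n le_rfl).eventually).exists
      have e : ∀ t ≤ n, pre (Function.update F n v) t = pre F t := by
        intro t ht
        refine Multiset.map_congr rfl fun m hm => ?_
        rw [Multiset.mem_range] at hm
        rw [Function.update_of_ne (by omega)]
      refine ⟨Function.update F n v, fun x hx t ht => ?_⟩
      rcases Nat.of_le_succ ht with ht | rfl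
      · rw [e t ht]
        exact hF x hx t ht
      · rw [pre_succ, e n le_rfl, Function.update_self, Multiset.add_cons]
        exact hv x hx
  obtain ⟨F, hF⟩ := key r
  exact ⟨F, hF⟩

/-- the complex of lists of flags in general position modulo every member of `W` -/
def Cx (r : ℕ) (W : Set (Multiset (Fin N → A))) : AddSubgroup (Ch (ℕ → Fin N → A)) :=
  spanL fun l => ∀ P ∈ W, D.Gen r l P

theorem acyc_Cx (r : ℕ) {W : Set (Multiset (Fin N → A))} (h : W.Finite) :
    Acyc bd (D.Cx r W) := by
  refine acyc_spanL fun s hs hs' => ?_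
  obtain ⟨F, hF⟩ := D.exists_flag r (s ×ˢ W) (hs.prod h) fun x hx => hs' _ hx.1 _ hx.2
  exact ⟨F, fun l hl P hP => hF (l, P) ⟨hl, hP⟩⟩

end DetData

/-- the action of `GL_N` on chains -/
def rho (A : Type) [CommRing A] (N : ℕ) : GLN A N →* AddMonoid.End (Ch (ℕ → Fin N → A)) where
  toFun g := mapCh (DetData.act g)
  map_one' := by
    refine FreeAbelianGroup.lift_ext _ _ fun l => ?_
    have : DetData.act (1 : GLN A N) = id := by funext F; rfl
    rw [this, mapCh_of, List.map_id]
    rfl
  map_mul' g h := by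
    refine FreeAbelianGroup.lift_ext _ _ fun l => ?_
    have : DetData.act (g * h) = DetData.act g ∘ DetData.act h := by funext F; rfl
    change _ = mapCh (DetData.act g) (mapCh (DetData.act h) (FreeAbelianGroup.of l))
    simp [this]

theorem rho_of {A : Type} [CommRing A] {N : ℕ} (g : GLN A N) (l : List (ℕ → Fin N → A)) :
    rho A N g (FreeAbelianGroup.of l) = FreeAbelianGroup.of (l.map (DetData.act g)) :=
  mapCh_of _ _

theorem bd_rho {A : Type} [CommRing A] {N : ℕ} (g : GLN A N) (z : Ch (ℕ → Fin N → A)) :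
    bd (rho A N g z) = rho A N g (bd z) :=
  bd_mapCh _ _

end Crest.Agent.R171
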