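import Mathlib
import Crest.Prelude.Def_Steinberg

/-!
Row 171 (S0259): definitions and claims.  The claims are proved in parallel in the other files
of this folder and assembled in `Crest/Agent/S0259.lean`.
-/

set_option autoImplicit false

namespace Crest.Agent.R171

open Crest.AlgebraR.Steinberg

/-! ### Symbols and cocycles -/

/-- An antisymmetric trilinear Steinberg symbol on the units of `A`. -/
structure IsSymbol {A : Type} [CommRing A] {M : Type} [AddCommGroup M]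
    (τ : Aˣ → Aˣ → Aˣ → M) : Prop where
  mul1 : ∀ a a' b c, τ (a * a') b c = τ a b c + τ a' b c
  swap12 : ∀ a b c, τ b a c = - τ a b c
  swap23 : ∀ a b c, τ a c b = - τ a b c
  stein : ∀ a b c : Aˣ, (a : A) + (b : A) = 1 → τ a b c = 0

/-- Coboundary of an inhomogeneous 2-cochain (trivial coefficients). -/
def dl2 {G M : Type} [Mul G] [AddCommGroup M] (ψ : G → G → M) (g h k : G) : M :=
  ψ h k - ψ (g * h) k + ψ g (h * k) - ψ g h

/-- Coboundary of an inhomogeneous 3-cochain (trivial coefficients). -/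
def dl3 {G M : Type} [Mul G] [AddCommGroup M] (φ : G → G → G → M) (g h k l : G) : M :=
  φ h k l - φ (g * h) k l + φ g (h * k) l - φ g h (k * l) + φ g h k

def IsCoc2 {G M : Type} [Mul G] [AddCommGroup M] (ψ : G → G → M) : Prop :=
  ∀ g h k, dl2 ψ g h k = 0

def IsCoc3 {G M : Type} [Mul G] [AddCommGroup M] (φ : G → G → G → M) : Prop :=
  ∀ g h k l, dl3 φ g h k l = 0

/-- Value of a 3-cochain on the torus cycle of three (commuting) elements. -/
def tor {G M : Type} [AddCommGroup M] (φ : G → G → G → M) (a b c : G) : M :=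
  φ a b c - φ a c b - φ b a c + φ b c a + φ c a b - φ c b a

/-! ### Steinberg systems -/

/-- A family of elements of `G` satisfying the Steinberg relations (`x i i` is junk). -/
structure SteinSys (I R G : Type) [CommRing R] [Group G] where
  x : I → I → R → G
  add : ∀ i j, i ≠ j → ∀ a b, x i j a * x i j b = x i j (a + b)
  comm : ∀ i j k l, i ≠ j → k ≠ l → j ≠ k → i ≠ l → ∀ a b, Commute (x i j a) (x k l b)
  brk : ∀ i j l, i ≠ j → j ≠ l → i ≠ l → ∀ a b,
    x i j a * x j l b * (x i j a)⁻¹ * (x j l b)⁻¹ = x i l (a * b)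

namespace SteinSys

variable {I R G : Type} [CommRing R] [Group G] (S : SteinSys I R G)

def w (i j : I) (u : Rˣ) : G := S.x i j u * S.x j i (-((u⁻¹ : Rˣ) : R)) * S.x i j u

def h (i j : I) (u : Rˣ) : G := S.w i j u * S.w i j (-1)

/-- Conjugation by `g` acts on the generators like conjugation by the monomial matrix
`e_k ↦ d k • e_(π k)`. -/
def Mono (g : G) (π : Equiv.Perm I) (d : I → Rˣ) : Prop :=
  ∀ k l, k ≠ l → ∀ r : R,
    g * S.x k l r * g⁻¹ = S.x (π k) (π l) ((d k : R) * r * (((d l)⁻¹ : Rˣ) : R))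

end SteinSys

/-- the index set has at least three elements -/
def Has3 (I : Type) : Prop := ∀ i j : I, ∃ m, m ≠ i ∧ m ≠ j

/-- the index set has at least five elements -/
def Has5 (I : Type) : Prop := ∀ i j k l : I, ∃ m, m ≠ i ∧ m ≠ j ∧ m ≠ k ∧ m ≠ l

/-- The generator `x_ij(a)` of `St R` (junk value `1` on the diagonal). -/
def stx (R : Type) [CommRing R] (i j : ℕ) (a : R) : St R :=
  if h : i ≠ j then PresentedGroup.mk (rels R) (x i j h a) else 1

theorem stx_of_ne (R : Type) [CommRing R] {i j : ℕ} (h : i ≠ j) (a : R) :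
    stx R i j a = PresentedGroup.mk (rels R) (x i j h a) := by
  simp [stx, h]

/-- The tautological Steinberg system in `St R`. -/
def stSys (R : Type) [CommRing R] : SteinSys ℕ R (St R) where
  x := stx R
  add i j h a b := by
    rw [stx_of_ne R h, stx_of_ne R h, stx_of_ne R h, ← mul_inv_eq_one, ← map_mul, ← map_inv,
      ← map_mul]
    exact PresentedGroup.one_of_mem (Or.inl (Or.inl ⟨i, j, h, a, b, rfl⟩))
  comm i j k l hij hkl hjk hil a b := by
    rw [stx_of_ne R hij, stx_of_ne R hkl, Commute, SemiconjBy, ← mul_inv_eq_one, mul_inv_rev,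
      ← mul_assoc, ← map_mul, ← map_inv, ← map_inv, ← map_mul, ← map_mul]
    exact PresentedGroup.one_of_mem (Or.inl (Or.inr ⟨i, j, k, l, hij, hkl, a, b, hjk, hil, rfl⟩))
  brk i j l hij hjl hil a b := by
    rw [stx_of_ne R hij, stx_of_ne R hjl, stx_of_ne R hil, ← mul_inv_eq_one, ← map_mul, ← map_inv,
      ← map_inv, ← map_inv, ← map_mul, ← map_mul, ← map_mul]
    exact PresentedGroup.one_of_mem (Or.inr ⟨i, j, l, hij, hjl, hil, a, b, rfl⟩)

/-- lift of `diag(u, u, u⁻¹, u⁻¹)` -/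
def ta {R : Type} [CommRing R] (u : Rˣ) : St R := (stSys R).h 0 2 u * (stSys R).h 1 3 u
/-- lift of `diag(v, v⁻¹, v, v⁻¹)` -/
def tb {R : Type} [CommRing R] (v : Rˣ) : St R := (stSys R).h 0 1 v * (stSys R).h 2 3 v
/-- lift of `diag(w, w⁻¹, w⁻¹, w)` -/
def tc {R : Type} [CommRing R] (w : Rˣ) : St R := (stSys R).h 0 1 w * (stSys R).h 3 2 w

/-- Milnor, Introduction to algebraic K-theory, 9.2-9.4 and 9.8. -/
def ClaimStein : Prop :=
  ∀ (I R G : Type) [DecidableEq I] [CommRing R] [Group G] (S : SteinSys I R G), Has3 I →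
    ∀ i j : I, i ≠ j →
      (∀ u : Rˣ, S.Mono (S.w i j u) (Equiv.swap i j)
        (fun k => if k = j then u else if k = i then -u⁻¹ else 1)) ∧
      (∀ u : Rˣ, S.Mono (S.h i j u) 1 (fun k => if k = i then u else if k = j then u⁻¹ else 1)) ∧
      (∀ u v : Rˣ, (u : R) + (v : R) = 1 → Commute (S.h i j u) (S.h i j v))

/-- Milnor 5.10: Steinberg systems on at least five indices lift to central extensions. -/
def ClaimCentral : Prop :=
  ∀ (I R G E : Type) [CommRing R] [Group G] [Group E] (S : SteinSys I R G), Has5 I →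
    ∀ π : E →* G, Function.Surjective π → (∀ e, π e = 1 → ∀ e', Commute e e') →
      ∃ S' : SteinSys I R E, ∀ i j, i ≠ j → ∀ a, π (S'.x i j a) = S.x i j a

/-- The central extension defined by a 2-cocycle. -/
def ClaimExt : Prop :=
  ∀ (G M : Type) [Group G] [AddCommGroup M] (ψ : G → G → M), IsCoc2 ψ →
    ∃ (E : Type) (_ : Group E) (π : E →* G), Function.Surjective π ∧
      (∀ e, π e = 1 → ∀ e', Commute e e') ∧
      ∀ e e', Commute e e' → ψ (π e) (π e') = ψ (π e') (π e)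

/-- The torus classes in `H_3(St R)` form a Steinberg symbol. -/
def ClaimTau : Prop :=
  ∀ (R : Type) [CommRing R],
    (∀ u v : Rˣ, Commute (ta u) (tb v) ∧ Commute (ta u) (tc v) ∧ Commute (tb u) (tc v)) ∧
    ∀ (M : Type) [AddCommGroup M] (φ : St R → St R → St R → M), IsCoc3 φ →
      IsSymbol (fun u v w : Rˣ => tor φ (ta u) (tb v) (tc w))

/-- From Mathlib's group homology to cocycles. -/
def ClaimBridge : Prop :=
  ∀ (R F : Type) [CommRing R] [CommRing F] (f : R →+* F),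
    Function.Injective (H3map f).hom →
    ∀ (n : ℤ) (a b c : St R), Commute a b → Commute a c → Commute b c →
      (∀ (M : Type) [AddCommGroup M] (φ : St F → St F → St F → M), IsCoc3 φ →
        n • tor φ (stMap f a) (stMap f b) (stMap f c) = 0) →
      ∃ T : Finset (St R), ∀ φ : St R → St R → St R → ZMod 5,
        (∀ g ∈ T, ∀ h ∈ T, ∀ k ∈ T, ∀ l ∈ T, dl3 φ g h k l = 0) → n • tor φ a b c = 0

/-! ### The cocycle on `GL_N(A)` -/

/-- `A` is local with infinite residue field `k`. -/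
structure IsRes {A k : Type} [CommRing A] [Field k] (π : A →+* k) : Prop where
  inf : Infinite k
  surj : Function.Surjective π
  unit : ∀ a, π a ≠ 0 → IsUnit a

abbrev GLN (A : Type) [CommRing A] (N : ℕ) : Type := (Module.End A (Fin N → A))ˣ

def IsDiag {A : Type} [CommRing A] {N : ℕ} (g : GLN A N) (α : Fin N → Aˣ) : Prop :=
  ∀ (x : Fin N → A) (m : Fin N), (g : Module.End A (Fin N → A)) x m = (α m : A) * x m

/-- The Suslin-Goncharov cocycle, evaluated on elementary diagonal matrices. -/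
def ClaimFlags : Prop :=
  ∀ (A k : Type) [CommRing A] [Field k] (π : A →+* k), IsRes π →
    ∀ Φ : Aˣ → Aˣ → Aˣ → ZMod 5, IsSymbol Φ → ∀ N : ℕ,
      ∃ φ : GLN A N → GLN A N → GLN A N → ZMod 5, IsCoc3 φ ∧
        ∀ (a b c : GLN A N) (i j l : Fin N) (u v w : Aˣ),
          IsDiag a (Pi.mulSingle i u) → IsDiag b (Pi.mulSingle j v) →
          IsDiag c (Pi.mulSingle l w) →
          tor φ a b c = if i ≠ j ∧ i ≠ l ∧ j ≠ l then - Φ u v w else 0

/-- The cocycle pulled back to finite parts of the Steinberg group. -/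
def ClaimTransfer : Prop :=
  ∀ (R A k : Type) [CommRing R] [CommRing A] [Field k] (θ : R →+* A) (π : A →+* k), IsRes π →
    ∀ Φ : Aˣ → Aˣ → Aˣ → ZMod 5, IsSymbol Φ → ∀ T : Finset (St R),
      ∃ φ : St R → St R → St R → ZMod 5,
        (∀ g ∈ T, ∀ h ∈ T, ∀ k ∈ T, ∀ l ∈ T, dl3 φ g h k l = 0) ∧
        ∀ u v w : Rˣ, tor φ (ta u) (tb v) (tc w) =
          - 8 * Φ (Units.map (θ : R →* A) u) (Units.map (θ : R →* A) v) (Units.map (θ : R →* A) w)

/-! ### The ring and the symbol -/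

/-- The equation of the ring. -/
def Eqn {A : Type} [CommRing A] (x y : A) : A :=
  5 - 10 * x ^ 2 + 10 * x ^ 4 - 5 * x ^ 6 + x ^ 8 + x ^ 4 * y ^ 4 + x ^ 3 * y ^ 5

/-- `R = ℤ[x,y]_(5,x,y) / (Eqn x y)`. -/
def ClaimRing : Prop :=
  ∃ (R : Type) (_ : CommRing R) (_ : IsDomain R) (_ : IsRegularLocalRing R) (x y : R),
    ringKrullDim R = 2 ∧ CharZero R ∧ (5 : R) ∈ IsLocalRing.maximalIdeal R ^ 2 ∧
    x ∈ IsLocalRing.maximalIdeal R ∧ y ∈ IsLocalRing.maximalIdeal R ∧ x ≠ 0 ∧ y ≠ 0 ∧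
    Eqn x y = 0 ∧
    ∀ (A k : Type) [CommRing A] [Field k] [CharP k 5] (π : A →+* k),
      (∀ a, π a ≠ 0 → IsUnit a) → ∀ X Y : A, π X = 0 → π Y = 0 → Eqn X Y = 0 →
      ∃ θ : R →+* A, θ x = X ∧ θ y = Y

/-- The truncated polynomial ring `k[x,y]/(x^5,y^5)` over `k = F_5(t)` with its derivations and
the functional `c = c₀ ∘ coeff_(x^4 y^4)`. -/
structure QData where
  k : Type
  Q : Type
  [fk : Field k]
  [ck : CharP k 5]
  [ik : Infinite k]
  [rQ : CommRing Q]
  [aQ : Algebra k Q]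
  x : Q
  y : Q
  d1 : Derivation k Q Q
  d2 : Derivation k Q Q
  d_comm : ∀ q, d1 (d2 q) = d2 (d1 q)
  d1x : d1 x = 1
  d1y : d1 y = 0
  d2x : d2 x = 0
  d2y : d2 y = 1
  x5 : x ^ 5 = 0
  y5 : y ^ 5 = 0
  ε : Q →ₐ[k] k
  εx : ε x = 0
  εy : ε y = 0
  gen : ∀ q, ∃ q₁ q₂, q = algebraMap k Q (ε q) + x * q₁ + y * q₂
  c : Q →+ ZMod 5
  c_d1 : ∀ q, c (d1 q) = 0
  c_d2 : ∀ q, c (d2 q) = 0
  c_e : ∀ b : k, c (x ^ 4 * y ^ 4 * algebraMap k Q (b ^ 5)) = c (x ^ 4 * y ^ 4 * algebraMap k Q b)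
  c_e1 : c (x ^ 4 * y ^ 4) ≠ 0

def ClaimQ : Prop := Nonempty QData

/-- The wild symbol. -/
def ClaimSymbol : Prop :=
  ∃ (A k : Type) (_ : CommRing A) (_ : Field k) (_ : CharP k 5) (π : A →+* k) (X Y : A)
    (Φ : Aˣ → Aˣ → Aˣ → ZMod 5), IsRes π ∧ π X = 0 ∧ π Y = 0 ∧ X ^ 5 = 0 ∧ Y ^ 5 = 0 ∧
    Eqn X Y = 0 ∧ IsSymbol Φ ∧
    ∀ U₁ U₂ U₃ : Aˣ, (U₁ : A) = 1 - X → (U₂ : A) = 1 - Y → (U₃ : A) = 1 + X ^ 4 * Y ^ 4 →
      Φ U₁ U₂ U₃ ≠ 0

end Crest.Agent.R171
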