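import Crest.Agent.R171.FlagDefs

/-!
Row 171: logarithms of determinants.
-/

set_option autoImplicit false

noncomputable section

namespace Crest.Agent.R171

namespace Det

open ExteriorAlgebra

variable {A : Type} [CommRing A] {N : ℕ}

/-- the exterior product of a list of vectors -/
def W (l : List (Fin N → A)) : ExteriorAlgebra A (Fin N → A) := (l.map (ι A)).prod

/-- the top-degree coefficient -/
def T (A : Type) [CommRing A] (N : ℕ) : ExteriorAlgebra A (Fin N → A) →ₗ[A] A :=
  liftAlternating (R := A) (M := Fin N → A) (N := A) (Pi.single N (Pi.basisFun A (Fin N)).det)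

/-- the determinant of a list of vectors (`0` if the length is wrong) -/
def Dl (l : List (Fin N → A)) : A := T A N (W l)

theorem W_cons (v : Fin N → A) (l : List (Fin N → A)) : W (v :: l) = ι A v * W l := rfl

theorem W_swap (v w : Fin N → A) (l : List (Fin N → A)) : W (v :: w :: l) = - W (w :: v :: l) := by
  rw [W_cons, W_cons, W_cons, W_cons, ← mul_assoc, ← mul_assoc, ← neg_mul,
    eq_neg_of_add_eq_zero_left (ι_add_mul_swap v w)]

theorem W_perm {l l' : List (Fin N → A)} (h : l.Perm l') : W l = W l' ∨ W l = - W l' := by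
  induction h with
  | nil => exact Or.inl rfl
  | cons v _ ih =>
    rw [W_cons, W_cons]
    exact ih.imp (fun h => by rw [h]) fun h => by rw [h, mul_neg]
  | swap v w l => exact Or.inr (W_swap _ _ _)
  | trans _ _ ih1 ih2 =>
    rcases ih1 with h1 | h1 <;> rcases ih2 with h2 | h2 <;> rw [h1, h2] <;> simp

theorem W_mem {v : Fin N → A} {l : List (Fin N → A)} (h : v ∈ l) : W (v :: l) = 0 := by
  induction l with
  | nil => cases h
  | cons w l ih =>
    rcases List.mem_cons.1 h with rfl | h
    · rw [W_cons, W_cons, ← mul_assoc, ι_sq_zero, zero_mul]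
    · rw [W_swap, W_cons, ih h, mul_zero, neg_zero]

theorem Dl_ofFn' {n : ℕ} (v : Fin n → Fin N → A) : Dl (List.ofFn v) =
    (Pi.single N (Pi.basisFun A (Fin N)).det : ∀ i, (Fin N → A) [⋀^Fin i]→ₗ[A] A) n v := by
  refine Eq.trans ?_ (liftAlternating_apply_ιMulti _ v)
  rw [ιMulti_apply]
  exact congrArg (T A N) (congrArg List.prod (List.map_ofFn (f := v) (g := ι A)))

theorem Dl_ofFn (v : Fin N → Fin N → A) : Dl (List.ofFn v) = (Pi.basisFun A (Fin N)).det v := by
  rw [Dl_ofFn', Pi.single_eq_same]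

theorem Dl_ne {l : List (Fin N → A)} (h : l.length ≠ N) : Dl l = 0 := by
  rw [← List.ofFn_get l, Dl_ofFn', Pi.single_eq_of_ne h]; rfl

omit [CommRing A] in
theorem exists_ofFn {l : List (Fin N → A)} (h : l.length = N) :
    ∃ v : Fin N → Fin N → A, l = List.ofFn v :=
  ⟨fun i => l.get (i.cast h.symm), by
    apply List.ext_get (by simp [h])
    intro i h1 h2
    simp⟩

theorem Dl_map (g : Module.End A (Fin N → A)) (l : List (Fin N → A)) :
    Dl (l.map g) = LinearMap.det g * Dl l := by
  by_cases h : l.length = N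
  · obtain ⟨v, rfl⟩ := exists_ofFn h
    rw [List.map_ofFn, Dl_ofFn, Dl_ofFn, Module.Basis.det_comp]
  · rw [Dl_ne h, Dl_ne (by simpa using h), mul_zero]

theorem length_eq [Nontrivial A] {l : List (Fin N → A)} (h : IsUnit (Dl l)) : l.length = N := by
  by_contra h'
  rw [Dl_ne h'] at h
  exact not_isUnit_zero h

theorem span_eq [Nontrivial A] {l : List (Fin N → A)} (h : IsUnit (Dl l)) :
    Submodule.span A {x | x ∈ l} = ⊤ := by
  obtain ⟨v, rfl⟩ := exists_ofFn (length_eq h)
  rw [Dl_ofFn] at h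
  rw [← ((Pi.basisFun A (Fin N)).is_basis_iff_det.2 h).2]
  congr 1
  ext x
  simp [List.mem_ofFn]

theorem Dl_perm {l l' : List (Fin N → A)} (h : l.Perm l') : Dl l = Dl l' ∨ Dl l = - Dl l' :=
  (W_perm h).imp (congrArg (T A N)) fun h => (congrArg (T A N) h).trans (map_neg _ _)

theorem Dl_swap (v w : Fin N → A) (l : List (Fin N → A)) : Dl (v :: w :: l) = - Dl (w :: v :: l) :=
  (congrArg _ (W_swap v w l)).trans (map_neg _ _)

theorem Dl_mem {v : Fin N → A} {l : List (Fin N → A)} (h : v ∈ l) : Dl (v :: l) = 0 :=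
  (congrArg _ (W_mem h)).trans (map_zero _)

/-- the determinant as a linear form in the first vector -/
def lam (l : List (Fin N → A)) : (Fin N → A) →ₗ[A] A :=
  T A N ∘ₗ LinearMap.mulRight A (W l) ∘ₗ ι A

theorem lam_apply (l : List (Fin N → A)) (v : Fin N → A) : lam l v = Dl (v :: l) := rfl

theorem pluecker [Nontrivial A] {s : List (Fin N → A)} {m n : Fin N → A}
    (h : IsUnit (Dl (m :: n :: s))) (j l : Fin N → A) :
    Dl (j :: l :: s) * Dl (m :: n :: s) - Dl (j :: m :: s) * Dl (l :: n :: s) +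
      Dl (j :: n :: s) * Dl (l :: m :: s) = 0 := by
  have hj : j ∈ Submodule.span A {x | x ∈ m :: n :: s} := by rw [span_eq h]; trivial
  induction hj using Submodule.span_induction with
  | mem x hx =>
    rcases List.mem_cons.1 hx with rfl | hx
    · rw [Dl_mem (l := x :: s) List.mem_cons_self, Dl_swap l x]; ring
    · rcases List.mem_cons.1 hx with rfl | hx
      · rw [Dl_mem (l := x :: s) List.mem_cons_self, Dl_swap l x, Dl_swap x m]; ring
      · rw [Dl_mem (List.mem_cons_of_mem l hx), Dl_mem (List.mem_cons_of_mem m hx),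
          Dl_mem (List.mem_cons_of_mem n hx)]; ring
  | zero => simp only [← lam_apply _ 0, map_zero]; ring
  | add x y _ _ hx hy =>
    simp only [← lam_apply _ (x + y), map_add, lam_apply]
    linear_combination hx + hy
  | smul a x _ hx =>
    simp only [← lam_apply _ (a • x), map_smul, lam_apply, smul_eq_mul]
    linear_combination a * hx

/-- logarithm modulo `±1` -/
def lg (u : Aˣ) : Additive Aˣ := (6 : ℕ) • Additive.ofMul u

theorem lg_mul (u v : Aˣ) : lg (u * v) = lg u + lg v := nsmul_add _ _ _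

theorem lg_one : lg (1 : Aˣ) = 0 := nsmul_zero _

theorem lg_inv (u : Aˣ) : lg u⁻¹ = - lg u :=
  eq_neg_of_add_eq_zero_left (by rw [← lg_mul, inv_mul_cancel, lg_one])

theorem lg_neg (u : Aˣ) : lg (-u) = lg u :=
  congrArg Additive.ofMul (Even.neg_pow (by decide) u : (-u) ^ 6 = u ^ 6)

/-- the multiset is a basis -/
def UD (s : Multiset (Fin N → A)) : Prop := IsUnit (Dl s.toList)

open Classical in
/-- the logarithm of the determinant -/
def ld (s : Multiset (Fin N → A)) : Additive Aˣ := if h : UD s then lg (IsUnit.unit h) else 0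

theorem of_unit {l : List (Fin N → A)} {u : Aˣ} (h : Dl l = u) :
    UD (l : Multiset (Fin N → A)) ∧ ld (l : Multiset (Fin N → A)) = lg u := by
  have hp : (l : Multiset (Fin N → A)).toList.Perm l := Multiset.coe_eq_coe.1 (Multiset.coe_toList _)
  rcases Dl_perm hp with h1 | h1
  · have h2 : UD (l : Multiset (Fin N → A)) := ⟨u, (h1.trans h).symm⟩
    exact ⟨h2, (dif_pos h2).trans (congrArg lg (Units.ext (h1.trans h)))⟩
  · rw [h] at h1
    have h2 : UD (l : Multiset (Fin N → A)) := ⟨-u, h1.symm⟩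
    exact ⟨h2, (dif_pos h2).trans ((congrArg lg (Units.ext h1)).trans (lg_neg u))⟩

theorem to_unit {l : List (Fin N → A)} (h : UD (l : Multiset (Fin N → A))) :
    ∃ u : Aˣ, Dl l = u ∧ ld (l : Multiset (Fin N → A)) = lg u := by
  have hp : l.Perm (l : Multiset (Fin N → A)).toList :=
    Multiset.coe_eq_coe.1 (Multiset.coe_toList _).symm
  obtain ⟨u, hu⟩ := h
  rcases Dl_perm hp with h1 | h1
  · exact ⟨u, h1.trans hu.symm, (of_unit (h1.trans hu.symm)).2⟩
  · rw [← hu] at h1
    exact ⟨-u, h1, (of_unit (u := -u) h1).2⟩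

/-- the symbol in additive notation -/
def Psi {M : Type} [AddCommGroup M] {Φ : Aˣ → Aˣ → Aˣ → M} (h : IsSymbol Φ) :
    Additive Aˣ →+ Additive Aˣ →+ Additive Aˣ →+ M :=
  AddMonoidHom.mk' (fun x => AddMonoidHom.mk' (fun y => AddMonoidHom.mk'
      (fun z => Φ x.toMul y.toMul z.toMul) fun z z' => by
        have e : ∀ a b c, Φ a b c = Φ c a b := fun a b c => by
          rw [h.swap12 a c b, h.swap23 a b c, neg_neg]
        rw [e, e _ _ z.toMul, e _ _ z'.toMul]
        exact h.mul1 _ _ _ _)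
    fun y y' => AddMonoidHom.ext fun z => by
      show Φ x.toMul (y.toMul * y'.toMul) z.toMul = Φ x.toMul y.toMul z.toMul + Φ x.toMul y'.toMul z.toMul
      rw [h.swap12 (y.toMul * y'.toMul), h.swap12 y.toMul, h.swap12 y'.toMul, h.mul1, neg_add])
    fun x x' => AddMonoidHom.ext fun y => AddMonoidHom.ext fun z => h.mul1 _ _ _ _

/-- the filter of generic vectors -/
def gen (A : Type) [CommRing A] (N : ℕ) : Filter (Fin N → A) where
  sets := {S | ∃ L : List ((Fin N → A) →ₗ[A] A), (∀ f ∈ L, ∃ w, IsUnit (f w)) ∧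
    ∀ v, (∀ f ∈ L, IsUnit (f v)) → v ∈ S}
  univ_sets := ⟨[], fun _ h => absurd h List.not_mem_nil, fun _ _ => trivial⟩
  sets_of_superset := fun ⟨L, h1, h2⟩ h => ⟨L, h1, fun v hv => h (h2 v hv)⟩
  inter_sets := fun ⟨L, h1, h2⟩ ⟨L', h1', h2'⟩ =>
    ⟨L ++ L', fun f hf => (List.mem_append.1 hf).elim (h1 f) (h1' f), fun v hv =>
      ⟨h2 v fun f hf => hv f (List.mem_append_left _ hf),
        h2' v fun f hf => hv f (List.mem_append_right _ hf)⟩⟩

theorem exists_generic {k : Type} [Field k] {π : A →+* k} (hπ : IsRes π)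
    (L : List ((Fin N → A) →ₗ[A] A)) (h : ∀ f ∈ L, ∃ w, IsUnit (f w)) :
    ∃ v, ∀ f ∈ L, π (f v) ≠ 0 := by
  classical
  induction L with
  | nil => exact ⟨0, fun _ h => by cases h⟩
  | cons g L ih =>
    obtain ⟨v, hv⟩ := ih fun f hf => h f (List.mem_cons_of_mem _ hf)
    obtain ⟨w, hw⟩ := h g List.mem_cons_self
    have hw' : π (g w) ≠ 0 := (hw.map π).ne_zero
    have := hπ.inf
    obtain ⟨t, ht⟩ := Infinite.exists_notMem_finset
      ((g :: L).map fun f => - π (f v) / π (f w)).toFinset
    obtain ⟨t, rfl⟩ := hπ.surj t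
    refine ⟨v + t • w, fun f hf h0 => ht ?_⟩
    rw [map_add, map_smul, smul_eq_mul, map_add, map_mul] at h0
    have h1 : π (f w) ≠ 0 := by
      rcases List.mem_cons.1 hf with rfl | hf'
      · exact hw'
      · intro h1
        rw [h1, mul_zero, add_zero] at h0
        exact hv f hf' h0
    refine List.mem_toFinset.2 (List.mem_map.2 ⟨f, hf, ?_⟩)
    rw [div_eq_iff h1]
    linear_combination -h0

end Det

open Det in
theorem claimDet : ClaimDet := by
  intro A k _ _ π hπ Φ hΦ N
  have : Nontrivial A := π.domain_nontrivial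
  have h2 : ∀ x : ZMod 5, x = -x → x = 0 := by decide
  have h216 : ∀ x : ZMod 5, (6 : ℕ) • (6 : ℕ) • (6 : ℕ) • x = x := by decide
  refine ⟨{ U := Additive Aˣ, lg := lg, Ψ := Psi hΦ
            alt12 := fun x z => h2 _ (hΦ.swap12 _ _ _)
            alt23 := fun x y => h2 _ (hΦ.swap23 _ _ _)
            val := fun u v w => ?_
            lg_one := lg_one, UD := UD, ld := ld
            card := fun s h => (Multiset.length_toList s).symm.trans (length_eq h)
            std := ?_, map := fun g => ?_, smul := fun s v u => ?_, shear := fun s v w c => ?_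
            pluecker := fun s j l m n => ?_
            gen := gen A N, neBot := ?_, generic := fun s w => ?_ }⟩
  · show Psi hΦ ((6 : ℕ) • _) ((6 : ℕ) • _) ((6 : ℕ) • _) = _
    rw [map_nsmul, map_nsmul (Psi hΦ), AddMonoidHom.nsmul_apply, map_nsmul,
      AddMonoidHom.nsmul_apply, AddMonoidHom.nsmul_apply]
    exact h216 _
  · rw [Fin.univ_val_map]
    refine (of_unit (u := 1) ?_).1
    exact (Dl_ofFn _).trans ((congrArg _ (funext fun i =>
      (Pi.basisFun_apply A (Fin N) i).symm)).trans (Pi.basisFun A (Fin N)).det_self)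
  · refine ⟨lg (Units.map LinearMap.det g), fun s => ?_⟩
    induction s using Quotient.inductionOn with
    | _ l =>
      intro h
      obtain ⟨u, hu, hl⟩ := to_unit h
      have := of_unit (l := l.map (g : Module.End A (Fin N → A)))
        (u := u * Units.map LinearMap.det g) (by rw [Dl_map, hu, mul_comm]; rfl)
      exact ⟨this.1, this.2.trans ((lg_mul _ _).trans (congrArg (· + _) hl.symm))⟩
  · induction s using Quotient.inductionOn with
    | _ l =>
      intro h
      obtain ⟨u', hu, hl⟩ := to_unit (l := v :: l) h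
      have := of_unit (l := ((u : A) • v) :: l) (u := u * u')
        (by rw [← lam_apply, map_smul, lam_apply, hu]; rfl)
      exact ⟨this.1, this.2.trans ((lg_mul _ _).trans (congrArg (_ + ·) hl.symm))⟩
  · induction s using Quotient.inductionOn with
    | _ l =>
      intro hw h
      obtain ⟨u', hu, hl⟩ := to_unit (l := v :: l) h
      have := of_unit (l := (v + c • w) :: l) (u := u')
        (by rw [← lam_apply, map_add, map_smul, lam_apply, lam_apply, hu, Dl_mem hw, smul_zero,
          add_zero])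
      exact ⟨this.1, this.2.trans hl.symm⟩
  · induction s using Quotient.inductionOn with
    | _ s =>
      intro h1 h2 h3 h4 h5 h6 z
      obtain ⟨u1, e1, f1⟩ := to_unit (l := j :: l :: s) h1
      obtain ⟨u2, e2, f2⟩ := to_unit (l := m :: n :: s) h2
      obtain ⟨u3, e3, f3⟩ := to_unit (l := j :: m :: s) h3
      obtain ⟨u4, e4, f4⟩ := to_unit (l := l :: n :: s) h4
      obtain ⟨u5, e5, f5⟩ := to_unit (l := j :: n :: s) h5
      obtain ⟨u6, e6, f6⟩ := to_unit (l := l :: m :: s) h6
      have hp := pluecker (e2 ▸ u2.isUnit) j l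
      rw [e1, e2, e3, e4, e5, e6] at hp
      have a1 : lg u1 + lg u2 - lg u5 - lg u6 = lg (-(u1 * u2 * u5⁻¹ * u6⁻¹)) := by
        rw [lg_neg, lg_mul, lg_mul, lg_mul, lg_inv, lg_inv, ← sub_eq_add_neg, ← sub_eq_add_neg]
      have a2 : lg u3 + lg u4 - lg u5 - lg u6 = lg (u3 * u4 * u5⁻¹ * u6⁻¹) := by
        rw [lg_mul, lg_mul, lg_mul, lg_inv, lg_inv, ← sub_eq_add_neg, ← sub_eq_add_neg]
      have a3 := hΦ.stein (-(u1 * u2 * u5⁻¹ * u6⁻¹)) (u3 * u4 * u5⁻¹ * u6⁻¹) z.toMul (by
        have b5 := u5.mul_inv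
        have b6 := u6.mul_inv
        simp only [Units.val_neg, Units.val_mul]
        linear_combination (-(↑u5⁻¹ * ↑u6⁻¹ : A)) * hp + (u6 * ↑u6⁻¹ : A) * b5 + b6)
      refine (congrArg₂ (fun x y => Psi hΦ x y z)
        ((congrArg₂ (· - ·) (congrArg₂ (· - ·) (congrArg₂ (· + ·) f1 f2) f5) f6).trans a1)
        ((congrArg₂ (· - ·) (congrArg₂ (· - ·) (congrArg₂ (· + ·) f3 f4) f5) f6).trans a2)).trans ?_
      show Psi hΦ ((6 : ℕ) • _) ((6 : ℕ) • _) z = _
      rw [map_nsmul, map_nsmul (Psi hΦ), AddMonoidHom.nsmul_apply, AddMonoidHom.nsmul_apply,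
        AddMonoidHom.nsmul_apply]
      exact (congrArg (fun x => (6 : ℕ) • (6 : ℕ) • x) a3).trans rfl
  · refine Filter.forall_mem_nonempty_iff_neBot.1 fun S ⟨L, h1, h2⟩ => ?_
    obtain ⟨v, hv⟩ := exists_generic hπ L h1
    exact ⟨v, h2 v fun f hf => hπ.unit _ (hv f hf)⟩
  · induction s using Quotient.inductionOn with
    | _ l =>
      intro h
      obtain ⟨u, hu, -⟩ := to_unit (l := w :: l) h
      refine ⟨[lam l], fun f hf => ?_, fun v hv => ?_⟩
      · rw [List.mem_singleton.1 hf]
        exact ⟨w, u, hu.symm⟩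
      · obtain ⟨u', hu'⟩ := hv _ List.mem_cons_self
        exact (of_unit (l := v :: l) hu'.symm).1

end Crest.Agent.R171

end
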