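import Crest.Agent.R171.FlagDefs

/-!
Row 171: Koszul systems in an acyclic complex.
-/

set_option autoImplicit false

namespace Crest.Agent.R171

namespace Koszul

variable {X M : Type} [AddCommGroup X] [AddCommGroup M]

theorem exists_sys {bd : X →+ X} {e : X} {C : AddSubgroup X} (he0 : bd e = 0) (he : e ∈ C)
    (hC : ∀ z ∈ C, bd z = 0 → ∃ y ∈ C, bd y = z) (a b c : AddMonoid.End X)
    (ha : ∀ x, bd (a x) = a (bd x)) (hb : ∀ x, bd (b x) = b (bd x)) (hc : ∀ x, bd (c x) = c (bd x))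
    (ae : a e = e) (be : b e = e) (ce : c e = e)
    (ab : ∀ x, a (b x) = b (a x)) (ac : ∀ x, a (c x) = c (a x)) (bc : ∀ x, b (c x) = c (b x))
    (aC : ∀ x ∈ C, a x ∈ C) (bC : ∀ x ∈ C, b x ∈ C) (cC : ∀ x ∈ C, c x ∈ C) :
    ∃ y, ∃ y₀ ∈ C, ∃ ya ∈ C, ∃ yb ∈ C, ∃ yc ∈ C, ∃ yab ∈ C, ∃ yac ∈ C, ∃ ybc ∈ C, y ∈ C ∧
      bd y₀ = e ∧ bd ya = a y₀ - y₀ ∧ bd yb = b y₀ - y₀ ∧ bd yc = c y₀ - y₀ ∧
      bd yab = (a yb - yb) - (b ya - ya) ∧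
      bd yac = (a yc - yc) - (c ya - ya) ∧
      bd ybc = (b yc - yc) - (c yb - yb) ∧
      bd y = (a ybc - ybc) - (b yac - yac) + (c yab - yab) := by
  obtain ⟨y₀, m₀, h₀⟩ := hC e he he0
  have s1 : ∀ a : AddMonoid.End X, (∀ x, bd (a x) = a (bd x)) → a e = e → (∀ x ∈ C, a x ∈ C) →
      ∃ y ∈ C, bd y = a y₀ - y₀ := fun a ha ae aC =>
    hC _ (C.sub_mem (aC _ m₀) m₀) (by rw [map_sub, ha, h₀, ae, sub_self])
  obtain ⟨ya, ma, h1⟩ := s1 a ha ae aC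
  obtain ⟨yb, mb, h2⟩ := s1 b hb be bC
  obtain ⟨yc, mc, h3⟩ := s1 c hc ce cC
  have s2 : ∀ (a b : AddMonoid.End X) (ya yb : X), (∀ x, bd (a x) = a (bd x)) → (∀ x, bd (b x) = b (bd x)) →
      (∀ x, a (b x) = b (a x)) → (∀ x ∈ C, a x ∈ C) → (∀ x ∈ C, b x ∈ C) → ya ∈ C → yb ∈ C →
      bd ya = a y₀ - y₀ → bd yb = b y₀ - y₀ → ∃ y ∈ C, bd y = (a yb - yb) - (b ya - ya) :=
    fun a b ya yb ha hb ab aC bC ma mb h1 h2 =>
      hC _ (C.sub_mem (C.sub_mem (aC _ mb) mb) (C.sub_mem (bC _ ma) ma)) (by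
        simp only [map_sub, ha, hb, h1, h2, ab]; abel)
  obtain ⟨yab, mab, h4⟩ := s2 a b ya yb ha hb ab aC bC ma mb h1 h2
  obtain ⟨yac, mac, h5⟩ := s2 a c ya yc ha hc ac aC cC ma mc h1 h3
  obtain ⟨ybc, mbc, h6⟩ := s2 b c yb yc hb hc bc bC cC mb mc h2 h3
  obtain ⟨y, m, h7⟩ := hC ((a ybc - ybc) - (b yac - yac) + (c yab - yab))
    (C.add_mem (C.sub_mem (C.sub_mem (aC _ mbc) mbc) (C.sub_mem (bC _ mac) mac))
      (C.sub_mem (cC _ mab) mab)) (by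
        simp only [map_add, map_sub, ha, hb, hc, h4, h5, h6, ab, ac, bc]; abel)
  exact ⟨y, y₀, m₀, ya, ma, yb, mb, yc, mc, yab, mab, yac, mac, ybc, mbc, m, h₀, h1, h2, h3, h4, h5,
    h6, h7⟩

theorem unique_sys {bd : X →+ X} {C : AddSubgroup X}
    (hC : ∀ z ∈ C, bd z = 0 → ∃ y ∈ C, bd y = z) (a b c : AddMonoid.End X)
    (ha : ∀ x, bd (a x) = a (bd x)) (hb : ∀ x, bd (b x) = b (bd x)) (hc : ∀ x, bd (c x) = c (bd x))
    (ab : ∀ x, a (b x) = b (a x)) (ac : ∀ x, a (c x) = c (a x)) (bc : ∀ x, b (c x) = c (b x))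
    (aC : ∀ x ∈ C, a x ∈ C) (bC : ∀ x ∈ C, b x ∈ C) (cC : ∀ x ∈ C, c x ∈ C)
    (f : X →+ M) (fa : ∀ x ∈ C, f (a x) = f x) (fb : ∀ x ∈ C, f (b x) = f x)
    (fc : ∀ x ∈ C, f (c x) = f x) (fd : ∀ x ∈ C, f (bd x) = 0)
    {y₀ ya yb yc yab yac ybc y : X} (m₀ : y₀ ∈ C) (ma : ya ∈ C) (mb : yb ∈ C) (mc : yc ∈ C)
    (mab : yab ∈ C) (mac : yac ∈ C) (mbc : ybc ∈ C) (m : y ∈ C)
    (h₀ : bd y₀ = 0) (h1 : bd ya = a y₀ - y₀) (h2 : bd yb = b y₀ - y₀) (h3 : bd yc = c y₀ - y₀)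
    (h4 : bd yab = (a yb - yb) - (b ya - ya)) (h5 : bd yac = (a yc - yc) - (c ya - ya))
    (h6 : bd ybc = (b yc - yc) - (c yb - yb))
    (h7 : bd y = (a ybc - ybc) - (b yac - yac) + (c yab - yab)) : f y = 0 := by
  obtain ⟨k₀, n₀, g₀⟩ := hC y₀ m₀ h₀
  have s1 : ∀ (a : AddMonoid.End X) (ya : X), (∀ x, bd (a x) = a (bd x)) → (∀ x ∈ C, a x ∈ C) → ya ∈ C →
      bd ya = a y₀ - y₀ → ∃ k ∈ C, bd k = ya - (a k₀ - k₀) := fun a ya ha aC ma h1 =>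
    hC _ (C.sub_mem ma (C.sub_mem (aC _ n₀) n₀)) (by simp only [map_sub, ha, g₀, h1, sub_self])
  obtain ⟨ka, na, g1⟩ := s1 a ya ha aC ma h1
  obtain ⟨kb, nb, g2⟩ := s1 b yb hb bC mb h2
  obtain ⟨kc, nc, g3⟩ := s1 c yc hc cC mc h3
  have s2 : ∀ (a b : AddMonoid.End X) (ya yb ka kb yab : X), (∀ x, bd (a x) = a (bd x)) →
      (∀ x, bd (b x) = b (bd x)) → (∀ x, a (b x) = b (a x)) → (∀ x ∈ C, a x ∈ C) →
      (∀ x ∈ C, b x ∈ C) → ka ∈ C → kb ∈ C → yab ∈ C → bd ka = ya - (a k₀ - k₀) →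
      bd kb = yb - (b k₀ - k₀) → bd yab = (a yb - yb) - (b ya - ya) →
      ∃ k ∈ C, bd k = yab - ((a kb - kb) - (b ka - ka)) :=
    fun a b ya yb ka kb yab ha hb ab aC bC na nb mab g1 g2 h4 =>
      hC _ (C.sub_mem mab (C.sub_mem (C.sub_mem (aC _ nb) nb) (C.sub_mem (bC _ na) na))) (by
        simp only [map_sub, ha, hb, g1, g2, h4, ab]; abel)
  obtain ⟨kab, nab, g4⟩ := s2 a b ya yb ka kb yab ha hb ab aC bC na nb mab g1 g2 h4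
  obtain ⟨kac, nac, g5⟩ := s2 a c ya yc ka kc yac ha hc ac aC cC na nc mac g1 g3 h5
  obtain ⟨kbc, nbc, g6⟩ := s2 b c yb yc kb kc ybc hb hc bc bC cC nb nc mbc g2 g3 h6
  obtain ⟨k, n, g7⟩ := hC (y - ((a kbc - kbc) - (b kac - kac) + (c kab - kab)))
    (C.sub_mem m (C.add_mem (C.sub_mem (C.sub_mem (aC _ nbc) nbc) (C.sub_mem (bC _ nac) nac))
      (C.sub_mem (cC _ nab) nab))) (by
        simp only [map_add, map_sub, ha, hb, hc, g4, g5, g6, h7, ab, ac, bc]; abel)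
  have := fd k n
  rw [g7] at this
  simpa only [map_add, map_sub, fa _ nbc, fb _ nac, fc _ nab, sub_self, add_zero, sub_zero]
    using this

end Koszul

open Koszul in
theorem claimKoszul : ClaimKoszul := by
  intro G X M _ _ _ ρ bd e hdd hρ he0 hρe C he hC
  have hmul : ∀ (g h : G) x, ρ (g * h) x = ρ g (ρ h x) := fun g h x => by
    rw [map_mul]; rfl
  have hcomm : ∀ {a b : G}, Commute a b → ∀ x, ρ a (ρ b x) = ρ b (ρ a x) := fun {a b} h x => by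
    rw [← hmul, ← hmul, h.eq]
  refine ⟨fun a b c ab ac bc aC bC cC => ⟨exists_sys he0 he hC (ρ a) (ρ b) (ρ c) (hρ a) (hρ b)
    (hρ c) (hρe a) (hρe b) (hρe c) (hcomm ab) (hcomm ac) (hcomm bc) aC bC cC, ?_⟩, ?_⟩
  · rintro f fa fb fc fd y y' ⟨y₀, m₀, ya, ma, yb, mb, yc, mc, yab, mab, yac, mac, ybc, mbc, m, h₀,
      h1, h2, h3, h4, h5, h6, h7⟩ ⟨y₀', m₀', ya', ma', yb', mb', yc', mc', yab', mab', yac', mac',
      ybc', mbc', m', h₀', h1', h2', h3', h4', h5', h6', h7'⟩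
    rw [← sub_eq_zero, ← map_sub]
    refine unique_sys hC (ρ a) (ρ b) (ρ c) (hρ a) (hρ b) (hρ c) (hcomm ab) (hcomm ac) (hcomm bc)
      aC bC cC f fa fb fc fd (C.sub_mem m₀ m₀') (C.sub_mem ma ma') (C.sub_mem mb mb')
      (C.sub_mem mc mc') (C.sub_mem mab mab') (C.sub_mem mac mac') (C.sub_mem mbc mbc')
      (C.sub_mem m m') (by rw [map_sub, h₀, h₀', sub_self]) ?_ ?_ ?_ ?_ ?_ ?_ ?_
    all_goals
      simp only [map_sub, h1, h2, h3, h4, h5, h6, h7, h1', h2', h3', h4', h5', h6', h7']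
      abel
  · intro hρC f fρ fd
    obtain ⟨s₀, m₀, h₀⟩ := hC e he he0
    choose s1 m1 h1 using fun g : G => hC (ρ g s₀ - s₀) (C.sub_mem (hρC _ _ m₀) m₀)
      (by rw [map_sub, hρ, h₀, hρe, sub_self])
    choose s2 m2 h2 using fun g h : G => hC (ρ g (s1 h) - s1 (g * h) + s1 g)
      (C.add_mem (C.sub_mem (hρC _ _ (m1 _)) (m1 _)) (m1 _))
      (by simp only [map_add, map_sub, hρ, h1, hmul]; abel)
    choose s3 m3 h3 using fun g h k : G =>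
      hC (ρ g (s2 h k) - s2 (g * h) k + s2 g (h * k) - s2 g h)
      (C.sub_mem (C.add_mem (C.sub_mem (hρC _ _ (m2 _ _)) (m2 _ _)) (m2 _ _)) (m2 _ _))
      (by simp only [map_add, map_sub, hρ, h2, hmul, mul_assoc]; abel)
    refine ⟨fun g h k => f (s3 g h k), fun g h k l => ?_, fun a b c ab ac bc => ?_⟩
    · obtain ⟨z, mz, hz⟩ := hC (ρ g (s3 h k l) - s3 (g * h) k l + s3 g (h * k) l - s3 g h (k * l)
        + s3 g h k) (C.add_mem (C.sub_mem (C.add_mem (C.sub_mem (hρC _ _ (m3 _ _ _)) (m3 _ _ _))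
        (m3 _ _ _)) (m3 _ _ _)) (m3 _ _ _))
        (by simp only [map_add, map_sub, hρ, h3, hmul, mul_assoc]; abel)
      have := fd z mz
      rw [hz, map_add, map_sub, map_add, map_sub, fρ _ _ (m3 _ _ _)] at this
      exact this
    · refine ⟨s3 a b c - s3 a c b - s3 b a c + s3 b c a + s3 c a b - s3 c b a,
        ⟨s₀, m₀, s1 a, m1 a, s1 b, m1 b, s1 c, m1 c, s2 a b - s2 b a, C.sub_mem (m2 _ _) (m2 _ _),
          s2 a c - s2 c a, C.sub_mem (m2 _ _) (m2 _ _), s2 b c - s2 c b,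
          C.sub_mem (m2 _ _) (m2 _ _), C.sub_mem (C.add_mem (C.add_mem (C.sub_mem (C.sub_mem
            (m3 _ _ _) (m3 _ _ _)) (m3 _ _ _)) (m3 _ _ _)) (m3 _ _ _)) (m3 _ _ _),
          h₀, h1 a, h1 b, h1 c, ?_, ?_, ?_, ?_⟩, ?_⟩
      · rw [map_sub, h2, h2, ab.eq]; abel
      · rw [map_sub, h2, h2, ac.eq]; abel
      · rw [map_sub, h2, h2, bc.eq]; abel
      · simp only [map_add, map_sub, h3, ab.eq, ac.eq, bc.eq]; abel
      · simp only [map_add, map_sub]; rfl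

end Crest.Agent.R171
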