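import Crest.Agent.R171.Defs

/-!
Row 171: the truncated polynomial ring `k[x,y]/(x^5,y^5)` over `k = F_5(t)`.
-/

set_option autoImplicit false

noncomputable section

namespace Crest.Agent.R171

open MvPolynomial

namespace QModel

instance : Fact (Nat.Prime 5) := ⟨by norm_num⟩

/-- The field `F_5(t)`. -/
abbrev K : Type := FractionRing (Polynomial (ZMod 5))

instance : CharP K 5 := IsFractionRing.charP_of_isFractionRing (Polynomial (ZMod 5)) 5

instance : Infinite K :=
  Infinite.of_injective _ (IsFractionRing.injective (Polynomial (ZMod 5)) K)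

theorem pow_sub_ne (b : K) : b ^ 5 - b ≠ 1 := by
  intro h
  have hb : IsIntegral (Polynomial (ZMod 5)) b := by
    refine ⟨Polynomial.X ^ 5 - (Polynomial.X + 1), by monicity!, ?_⟩
    simp only [Polynomial.eval₂_sub, Polynomial.eval₂_X_pow, Polynomial.eval₂_add,
      Polynomial.eval₂_X, Polynomial.eval₂_one]
    linear_combination h
  obtain ⟨f, rfl⟩ := IsIntegrallyClosed.isIntegral_iff.1 hb
  have h1 : f ^ 5 - f = 1 := IsFractionRing.injective (Polynomial (ZMod 5)) K (by simpa using h)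
  have h2 := congrArg (Polynomial.eval 0) h1
  simp only [Polynomial.eval_sub, Polynomial.eval_pow, Polynomial.eval_one] at h2
  revert h2
  generalize f.eval 0 = a
  revert a
  decide

theorem exists_c0 : ∃ c : K →+ ZMod 5, (∀ b, c (b ^ 5) = c b) ∧ c 1 ≠ 0 := by
  let φ : K →+ K := (frobenius K 5).toAddMonoidHom - AddMonoidHom.id K
  let _ : Module (ZMod 5) K := (ZMod.algebra K 5).toModule
  obtain ⟨c, h1, h2⟩ := Submodule.exists_le_ker_of_notMem
    (p := LinearMap.range (φ.toZModLinearMap 5)) (v := 1) fun ⟨b, hb⟩ => pow_sub_ne b hb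
  refine ⟨c.toAddMonoidHom, fun b => ?_, h1⟩
  have : c (b ^ 5 - b) = 0 := h2 ⟨b, rfl⟩
  rwa [map_sub, sub_eq_zero] at this

/-- The ideal `(x^5, y^5)`. -/
def J : Ideal (MvPolynomial (Fin 2) K) := Ideal.span {X 0 ^ 5, X 1 ^ 5}

/-- The quotient ring. -/
abbrev Q : Type := MvPolynomial (Fin 2) K ⧸ J

/-- The quotient map. -/
abbrev mk : MvPolynomial (Fin 2) K →ₐ[K] Q := Ideal.Quotient.mkₐ K J

theorem mk_surj : Function.Surjective mk := Ideal.Quotient.mkₐ_surjective K J

theorem mem_J {p : MvPolynomial (Fin 2) K} : p ∈ J ↔ ∃ a b, a * X 0 ^ 5 + b * X 1 ^ 5 = p :=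
  Ideal.mem_span_pair

theorem mk_eq_zero {p : MvPolynomial (Fin 2) K} : mk p = 0 ↔ p ∈ J :=
  Ideal.Quotient.eq_zero_iff_mem

theorem pderiv_pow_five (i : Fin 2) (p : MvPolynomial (Fin 2) K) : pderiv i (p ^ 5) = 0 := by
  rw [pderiv_pow, CharP.cast_eq_zero, zero_mul, zero_mul]

theorem pderiv_mem (i : Fin 2) (p : MvPolynomial (Fin 2) K) (h : mk p = 0) :
    mk (pderiv i p) = 0 := by
  obtain ⟨a, b, rfl⟩ := mem_J.1 (mk_eq_zero.1 h)
  refine mk_eq_zero.2 (mem_J.2 ⟨pderiv i a, pderiv i b, ?_⟩)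
  rw [map_add, pderiv_mul, pderiv_mul, pderiv_pow_five, pderiv_pow_five]
  simp

/-- The partial derivatives. -/
def d (i : Fin 2) : Derivation K Q Q := Derivation.liftOfSurjective mk_surj (pderiv_mem i)

theorem d_mk (i : Fin 2) (p : MvPolynomial (Fin 2) K) : d i (mk p) = mk (pderiv i p) :=
  Derivation.liftOfSurjective_apply _ _ _

theorem pderiv_comm (p : MvPolynomial (Fin 2) K) :
    pderiv 0 (pderiv 1 p) = pderiv 1 (pderiv 0 p) := by
  ext m
  simp only [coeff_pderiv, add_right_comm m]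
  simp
  ring

/-- The augmentation. -/
def ε : Q →ₐ[K] K := Ideal.Quotient.liftₐ J (aeval 0) fun p hp => by
  obtain ⟨a, b, rfl⟩ := mem_J.1 hp
  simp

theorem ε_mk (p : MvPolynomial (Fin 2) K) : ε (mk p) = aeval 0 p := rfl

theorem gen (p : MvPolynomial (Fin 2) K) :
    ∃ p₁ p₂, p = C (aeval (0 : Fin 2 → K) p) + X 0 * p₁ + X 1 * p₂ := by
  induction p using MvPolynomial.induction_on with
  | C a => exact ⟨0, 0, by simp⟩
  | add p q hp hq =>
    obtain ⟨a, b, h⟩ := hp
    obtain ⟨a', b', h'⟩ := hq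
    exact ⟨a + a', b + b', by rw [map_add, map_add]; linear_combination h + h'⟩
  | mul_X p i _ =>
    fin_cases i
    · exact ⟨p, 0, by simp [mul_comm]⟩
    · exact ⟨0, p, by simp [mul_comm]⟩

/-- The exponent of `x^4 y^4`. -/
def e : Fin 2 →₀ ℕ := Finsupp.single 0 4 + Finsupp.single 1 4

theorem e_apply (i : Fin 2) : e i = 4 := by fin_cases i <;> simp [e]

theorem coeff_e_mul (i : Fin 2) (a : MvPolynomial (Fin 2) K) : coeff e (a * X i ^ 5) = 0 := by
  rw [mul_comm, X_pow_eq_monomial, coeff_monomial_mul', if_neg]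
  rw [Finsupp.single_le_iff, e_apply]
  omega

/-- The top coefficient. -/
def top : Q →+ K := QuotientAddGroup.lift J.toAddSubgroup (coeffAddMonoidHom e) fun p hp => by
  obtain ⟨a, b, rfl⟩ := mem_J.1 hp
  simp [coeff_e_mul]

theorem top_mk (p : MvPolynomial (Fin 2) K) : top (mk p) = coeff e p := rfl

theorem top_d (i : Fin 2) (q : Q) : top (d i q) = 0 := by
  obtain ⟨p, rfl⟩ := mk_surj q
  have : ((4 : ℕ) : K) + 1 = 0 := by exact_mod_cast CharP.cast_eq_zero K 5
  rw [d_mk, top_mk, coeff_pderiv, e_apply, this, mul_zero]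

theorem top_e (b : K) : top (mk (X 0) ^ 4 * mk (X 1) ^ 4 * algebraMap K Q b) = b := by
  rw [← mk.commutes, ← map_pow, ← map_pow, ← map_mul, ← map_mul, top_mk, X_pow_eq_monomial,
    X_pow_eq_monomial, monomial_mul, algebraMap_eq, mul_comm, C_mul_monomial]
  simp [e]

end QModel

open QModel in
theorem claimQ : ClaimQ := by
  obtain ⟨c, h1, h2⟩ := exists_c0
  exact ⟨{
    k := K
    Q := Q
    x := mk (X 0)
    y := mk (X 1)
    d1 := d 0
    d2 := d 1
    d_comm := fun q => by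
      obtain ⟨p, rfl⟩ := mk_surj q
      simp only [d_mk, pderiv_comm]
    d1x := by rw [d_mk, pderiv_X_self, map_one]
    d1y := by rw [d_mk, pderiv_X_of_ne (by decide), map_zero]
    d2x := by rw [d_mk, pderiv_X_of_ne (by decide), map_zero]
    d2y := by rw [d_mk, pderiv_X_self, map_one]
    x5 := by rw [← map_pow]; exact mk_eq_zero.2 (mem_J.2 ⟨1, 0, by simp⟩)
    y5 := by rw [← map_pow]; exact mk_eq_zero.2 (mem_J.2 ⟨0, 1, by simp⟩)
    ε := ε
    εx := by rw [ε_mk, aeval_X]; rfl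
    εy := by rw [ε_mk, aeval_X]; rfl
    gen := fun q => by
      obtain ⟨p, rfl⟩ := mk_surj q
      obtain ⟨a, b, h⟩ := gen p
      refine ⟨mk a, mk b, ?_⟩
      rw [ε_mk, ← mk.commutes, ← map_mul, ← map_mul, ← map_add, ← map_add, algebraMap_eq, ← h]
    c := c.comp top
    c_d1 := fun q => by simp [top_d]
    c_d2 := fun q => by simp [top_d]
    c_e := fun b => by simp only [AddMonoidHom.comp_apply, top_e, h1]
    c_e1 := by
      have := top_e 1
      rw [map_one, mul_one] at this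
      rwa [AddMonoidHom.comp_apply, this] }⟩

end Crest.Agent.R171
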