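import Crest.Agent.R171.Defs

/-!
Row 171: the regular local ring `ℤ[x,y]_(5,x,y) / (Eqn x y)`.
-/

set_option autoImplicit false

namespace Crest.Agent.R171

open Polynomial IsLocalRing

namespace RingAux

theorem prime_of_regular {S : Type} [CommRing S] [IsNoetherianRing S] [IsLocalRing S]
    {I : Ideal S} {t : S} (ht : t ∈ maximalIdeal S) (hreg : ∀ a, t * a ∈ I → a ∈ I)
    (hp : (I ⊔ Ideal.span {t}).IsPrime) : I.IsPrime := by
  have h1 : ∀ a ∉ I, ∃ (i : ℕ) (a' : S), a - t ^ i * a' ∈ I ∧ a' ∉ I ⊔ Ideal.span {t} := by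
    intro a ha
    by_contra! h
    have h2 : ∀ i : ℕ, ∃ a', a - t ^ i * a' ∈ I := by
      intro i
      induction i with
      | zero => exact ⟨a, by simp⟩
      | succ i ih =>
        obtain ⟨a', ha'⟩ := ih
        obtain ⟨u, hu, v, hv, rfl⟩ := Submodule.mem_sup.1 (h i a' ha')
        obtain ⟨w, rfl⟩ := Ideal.mem_span_singleton'.1 hv
        refine ⟨w, ?_⟩
        convert I.add_mem ha' (I.mul_mem_left (t ^ i) hu) using 1
        ring
    apply ha
    rw [← Submodule.Quotient.mk_eq_zero, ← Submodule.mem_bot S,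
      ← Ideal.iInf_pow_smul_eq_bot_of_isLocalRing (M := S ⧸ I) _ (maximalIdeal.isMaximal S).ne_top,
      Submodule.mem_iInf]
    intro i
    obtain ⟨a', ha'⟩ := h2 i
    rw [(Submodule.Quotient.eq _).2 ha', ← smul_eq_mul, Submodule.Quotient.mk_smul]
    exact Submodule.smul_mem_smul (Ideal.pow_mem_pow ht i) trivial
  have h2 : ∀ (i : ℕ) a, t ^ i * a ∈ I → a ∈ I := by
    intro i
    induction i with
    | zero => simp
    | succ i ih => exact fun a ha => hreg a (ih _ (by rwa [← mul_assoc, ← pow_succ]))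
  refine ⟨fun e => hp.ne_top (top_le_iff.1 (e ▸ le_sup_left)), fun {a b} hab => ?_⟩
  by_contra! h
  obtain ⟨i, a', e1, e2⟩ := h1 a h.1
  obtain ⟨j, b', f1, f2⟩ := h1 b h.2
  have : t ^ (i + j) * (a' * b') ∈ I := by
    convert I.sub_mem (I.sub_mem hab (I.mul_mem_right b e1))
      (I.mul_mem_left (t ^ i * a') f1) using 1
    ring
  exact (hp.mem_or_mem (Ideal.mem_sup_left (h2 _ _ this))).elim e2 f2

theorem prime_swap {S : Type} [CommRing S] [IsNoetherianRing S] [IsLocalRing S]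
    {I : Ideal S} {t E : S} (ht : t ∈ maximalIdeal S) (hI : I.IsPrime) (htI : t ∉ I)
    (h1 : (I ⊔ Ideal.span {t}).IsPrime) (hE : E ∉ I ⊔ Ideal.span {t})
    (h2 : (I ⊔ Ideal.span {t} ⊔ Ideal.span {E}).IsPrime) :
    (I ⊔ Ideal.span {E}).IsPrime ∧ t ∉ I ⊔ Ideal.span {E} := by
  have hreg : ∀ a, t * a ∈ I ⊔ Ideal.span {E} → a ∈ I ⊔ Ideal.span {E} := by
    intro a ha
    obtain ⟨u, hu, v, hv, e⟩ := Submodule.mem_sup.1 ha
    obtain ⟨b, rfl⟩ := Ideal.mem_span_singleton'.1 hv
    have hb : b * E ∈ I ⊔ Ideal.span {t} := by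
      rw [eq_sub_of_add_eq' e]
      exact sub_mem (Ideal.mem_sup_right (Ideal.mem_span_singleton.2 ⟨a, rfl⟩))
        (Ideal.mem_sup_left hu)
    obtain ⟨u', hu', v', hv', rfl⟩ := Submodule.mem_sup.1 ((h1.mem_or_mem hb).resolve_right hE)
    obtain ⟨b', rfl⟩ := Ideal.mem_span_singleton'.1 hv'
    have : t * (a - b' * E) ∈ I := by
      convert I.add_mem hu (I.mul_mem_right E hu') using 1
      linear_combination -e
    exact Submodule.mem_sup.2 ⟨_, (hI.mem_or_mem this).resolve_left htI, _,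
      Ideal.mem_span_singleton'.2 ⟨b', rfl⟩, sub_add_cancel _ _⟩
  have hp := prime_of_regular ht hreg (by rwa [sup_right_comm])
  exact ⟨hp, fun h => hp.ne_top ((Ideal.eq_top_iff_one _).2 (hreg 1 (by rwa [mul_one])))⟩

/-- The polynomial ring. -/
abbrev B : Type := ℤ[X][X]

/-- The augmentation. -/
noncomputable def ε : B →+* ℤ := constantCoeff.comp constantCoeff

theorem decomp (p : B) : ∃ a b, p = a * X + b * C X + (ε p : B) := by
  refine ⟨p.divX, C (p.coeff 0).divX, ?_⟩
  rw [← C_mul, add_assoc, ← map_intCast (C : ℤ[X] →+* B), ← map_add, ← eq_intCast (C : ℤ →+* ℤ[X])]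
  exact (divX_mul_X_add p).symm.trans (by
    congr 2
    exact (divX_mul_X_add _).symm)

/-- The maximal ideal. -/
noncomputable def mm : Ideal B := (Ideal.span {(5 : ℤ)}).comap ε

theorem mem_mm {p : B} : p ∈ mm ↔ 5 ∣ ε p := Ideal.mem_span_singleton

instance : mm.IsPrime :=
  haveI : (Ideal.span {(5 : ℤ)}).IsPrime :=
    (Ideal.span_singleton_prime (by norm_num)).2 (Int.prime_iff_natAbs_prime.2 (by norm_num))
  Ideal.comap_isPrime _ _

theorem map_Eqn {A A' : Type} [CommRing A] [CommRing A'] (f : A →+* A') (x y : A) :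
    f (Eqn x y) = Eqn (f x) (f y) := by
  simp only [Eqn, map_add, map_sub, map_mul, map_pow, map_ofNat]

theorem ε_X : ε X = 0 := by simp [ε]

theorem ε_CX : ε (C X) = 0 := by simp [ε]

theorem ker_ε : RingHom.ker ε = Ideal.span {X} ⊔ Ideal.span {C X} := by
  apply le_antisymm
  · intro p hp
    obtain ⟨a, b, e⟩ := decomp p
    rw [(RingHom.mem_ker.1 hp :), Int.cast_zero, add_zero] at e
    exact Submodule.mem_sup.2 ⟨_, Ideal.mem_span_singleton'.2 ⟨a, rfl⟩, _,
      Ideal.mem_span_singleton'.2 ⟨b, rfl⟩, e.symm⟩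
  · exact sup_le ((Ideal.span_singleton_le_iff_mem _).2 ε_X)
      ((Ideal.span_singleton_le_iff_mem _).2 ε_CX)

variable {S : Type} [CommRing S] [Algebra B S] [IsLocalization.AtPrime S mm]

theorem prime_map {P : Ideal B} (hP : P.IsPrime) (h : P ≤ mm) :
    (P.map (algebraMap B S)).IsPrime ∧ ∀ p, algebraMap B S p ∈ P.map (algebraMap B S) → p ∈ P := by
  have hd : Disjoint (mm.primeCompl : Set B) P := Set.disjoint_left.2 fun _ h1 h2 => h1 (h h2)
  exact ⟨IsLocalization.isPrime_of_isPrime_disjoint _ S P hP hd, fun p hp =>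
    (IsLocalization.under_map_of_isPrime_disjoint _ S hP hd).le hp⟩

variable (S) in
theorem aux [IsLocalRing S] [IsNoetherianRing S] [IsDomain S] : ClaimRing := by
  let x : S := algebraMap B S (C X)
  let y : S := algebraMap B S X
  have hm : ∀ p, algebraMap B S p ∈ maximalIdeal S ↔ 5 ∣ ε p := fun p =>
    (IsLocalization.AtPrime.to_map_mem_maximal_iff S mm p).trans mem_mm
  have hx : x ∈ maximalIdeal S := (hm _).2 (by simp [ε_CX])
  have hy : y ∈ maximalIdeal S := (hm _).2 (by simp [ε_X])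
  have hεE : ε (Eqn (C X) X) = 5 := by
    rw [map_Eqn, ε_X, ε_CX]
    simp [Eqn]
  have hE : Eqn x y ∈ maximalIdeal S := by rw [← map_Eqn, hm, hεE]
  obtain ⟨p1, q1⟩ := prime_map (S := S) (P := Ideal.span {X})
    ((Ideal.span_singleton_prime X_ne_zero).2 prime_X)
    ((Ideal.span_singleton_le_iff_mem _).2 (mem_mm.2 (by simp [ε_X])))
  obtain ⟨p2, q2⟩ := prime_map (S := S) (RingHom.ker_isPrime ε) fun p hp => mem_mm.2 (by
    rw [(RingHom.mem_ker.1 hp :)]; exact dvd_zero _)
  have q2' : Eqn x y ∉ (RingHom.ker ε).map (algebraMap B S) := fun h => by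
    have := q2 (Eqn (C X) X) (by rwa [map_Eqn])
    rw [RingHom.mem_ker, hεE] at this
    norm_num at this
  have q1' : x ∉ (Ideal.span {X}).map (algebraMap B S) := fun h => by
    simpa [Ideal.mem_span_singleton, X_dvd_iff] using q1 _ h
  rw [ker_ε, Ideal.map_sup] at p2 q2'
  simp only [Ideal.map_span, Set.image_singleton] at p1 p2 q1' q2'
  have hmax : maximalIdeal S = Ideal.span {y} ⊔ Ideal.span {x} ⊔ Ideal.span {Eqn x y} := by
    refine le_antisymm ?_ (sup_le (sup_le ((Ideal.span_singleton_le_iff_mem _).2 hy)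
      ((Ideal.span_singleton_le_iff_mem _).2 hx)) ((Ideal.span_singleton_le_iff_mem _).2 hE))
    rw [← IsLocalization.AtPrime.map_eq_maximalIdeal mm S, Ideal.map_le_iff_le_comap]
    intro p hp
    obtain ⟨a, b, e⟩ := decomp p
    obtain ⟨c, hc⟩ := mem_mm.1 hp
    rw [Ideal.mem_comap, e, hc, map_add, map_add, map_mul, map_mul, map_intCast]
    refine Submodule.mem_sup.2 ⟨_, Submodule.mem_sup.2 ⟨_, Ideal.mem_span_singleton'.2
      ⟨algebraMap B S a, rfl⟩, _, Ideal.mem_span_singleton'.2 ⟨algebraMap B S b + c *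
        (10 * x - 10 * x ^ 3 + 5 * x ^ 5 - x ^ 7 - x ^ 3 * y ^ 4 - x ^ 2 * y ^ 5), rfl⟩, rfl⟩, _,
      Ideal.mem_span_singleton'.2 ⟨c, rfl⟩, ?_⟩
    simp only [Eqn, x, y]
    push_cast
    ring
  obtain ⟨p3, q3⟩ := prime_swap (I := Ideal.span {y}) (t := x) (E := Eqn x y) hx p1 q1' p2 q2'
    (by rw [← hmax]; infer_instance)
  have hy0 : y ≠ 0 := (map_ne_zero_iff _ (IsLocalization.injective S
    mm.primeCompl_le_nonZeroDivisors)).2 X_ne_zero
  obtain ⟨p4, q4⟩ := prime_swap (I := ⊥) (E := Eqn x y) hy inferInstance hy0 (by rwa [bot_sup_eq])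
    (by rw [bot_sup_eq]; exact fun h => q2' (Ideal.mem_sup_left h)) (by rwa [bot_sup_eq])
  rw [bot_sup_eq] at p4 q4
  let R := S ⧸ Ideal.span {Eqn x y}
  let q : S →+* R := Ideal.Quotient.mk _
  have hq : Function.Surjective q := Ideal.Quotient.mk_surjective
  have : IsLocalRing R := .of_surjective' q hq
  have hE0 : q (Eqn x y) = 0 := Ideal.Quotient.eq_zero_iff_mem.2 (Ideal.mem_span_singleton_self _)
  have hE0' : Eqn (q x) (q y) = 0 := by rw [← map_Eqn, hE0]
  have hmR : maximalIdeal R = Ideal.span {q y, q x} := by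
    rw [← map_maximalIdeal_of_surjective q hq, hmax, Ideal.map_sup, Ideal.map_sup]
    simp only [Ideal.map_span, Set.image_singleton, hE0, Ideal.span_singleton_zero, sup_bot_eq,
      Ideal.span_insert]
  have hxR : q x ∈ maximalIdeal R := hmR ▸ Ideal.subset_span (by simp)
  have hyR : q y ∈ maximalIdeal R := hmR ▸ Ideal.subset_span (by simp)
  have e5 : Ideal.span {q y} = (Ideal.span {y} ⊔ Ideal.span {Eqn x y}).map q := by
    simp only [Ideal.map_sup, Ideal.map_span, Set.image_singleton, hE0, Ideal.span_singleton_zero,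
      sup_bot_eq]
  have p5 : (Ideal.span {q y}).IsPrime := by
    rw [e5]
    exact Ideal.map_isPrime_of_surjective hq (by rw [Ideal.mk_ker]; exact le_sup_right)
  have q5 : q x ∉ Ideal.span {q y} := by
    rw [e5, ← Ideal.mem_comap, Ideal.comap_map_of_surjective _ hq, ← RingHom.ker_eq_comap_bot,
      Ideal.mk_ker, sup_assoc, sup_idem]
    exact q3
  have hy0' : q y ≠ 0 := fun h => q4 (Ideal.Quotient.eq_zero_iff_mem.1 h)
  have d1 : (2 : WithBot ℕ∞) ≤ ringKrullDim R := by
    let l : LTSeries (PrimeSpectrum R) := LTSeries.mk 2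
      ![⟨⊥, inferInstance⟩, ⟨_, p5⟩, ⟨maximalIdeal R, inferInstance⟩] (by
        rw [Fin.strictMono_iff_lt_succ, Fin.forall_fin_two]
        have l1 : ⊥ < Ideal.span {q y} :=
          bot_lt_iff_ne_bot.2 (Ideal.span_singleton_eq_bot.not.2 hy0')
        have l2 : Ideal.span {q y} < maximalIdeal R :=
          lt_of_le_of_ne ((Ideal.span_singleton_le_iff_mem _).2 hyR) fun e => q5 (e ▸ hxR)
        exact ⟨l1, l2⟩)
    exact Order.LTSeries.length_le_krullDim l
  have d2 : ((maximalIdeal R).spanFinrank : WithBot ℕ∞) ≤ 2 := by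
    have : (maximalIdeal R).spanFinrank ≤ 2 := by
      rw [hmR]
      exact (Submodule.spanFinrank_span_le_ncard_of_finite (Set.toFinite _)).trans
        ((Set.ncard_insert_le _ _).trans (by simp))
    exact_mod_cast this
  have h5 : (5 : R) ∈ maximalIdeal R ^ 2 := by
    have : (5 : R) = q x ^ 2 * (10 - 10 * q x ^ 2 + 5 * q x ^ 4 - q x ^ 6 - q x ^ 2 * q y ^ 4 -
        q x * q y ^ 5) := by
      rw [Eqn] at hE0'
      linear_combination hE0'
    rw [this]
    exact Ideal.mul_mem_right _ _ (Ideal.pow_mem_pow hxR 2)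
  refine ⟨R, inferInstance, inferInstance, .of_spanFinrank_maximalIdeal_le _ (d2.trans d1), q x, q y,
    le_antisymm ((ringKrullDim_le_spanFinrank_maximalIdeal R).trans d2) d1,
    charZero_of_inj_zero fun n hn => ?_, h5, hxR, hyR, fun h => q5 (h ▸ zero_mem _), hy0', hE0',
    ?_⟩
  · by_contra h0
    obtain ⟨k, m, hm5, rfl⟩ := Nat.exists_eq_pow_mul_and_not_dvd h0 5 (by norm_num)
    rw [Nat.cast_mul, Nat.cast_pow, mul_eq_zero] at hn
    rcases hn with hn | hn
    · have h50 : (5 : R) = 0 := by exact_mod_cast eq_zero_of_pow_eq_zero hn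
      refine q5 (p5.mem_of_pow_mem 8 (Ideal.mem_span_singleton'.2
        ⟨- q x ^ 4 * q y ^ 3 - q x ^ 3 * q y ^ 4, ?_⟩))
      rw [Eqn] at hE0'
      linear_combination (1 - 2 * q x ^ 2 + 2 * q x ^ 4 - q x ^ 6) * h50 - hE0'
    · have hc : IsCoprime ((5 : ℕ) : R) (m : R) :=
        Nat.Coprime.cast ((Nat.Prime.coprime_iff_not_dvd (by norm_num)).2 hm5)
      rw [hn, isCoprime_zero_right] at hc
      exact (mem_maximalIdeal _).1 (Ideal.pow_le_self two_ne_zero h5) (by exact_mod_cast hc)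
  · intro A k _ _ _ π hπ X' Y' hX hY hEq
    let θ₀ : B →+* A := eval₂RingHom (eval₂RingHom (Int.castRingHom A) X') Y'
    have t1 : θ₀ (C X) = X' := by simp [θ₀]
    have t2 : θ₀ X = Y' := by simp [θ₀]
    have hu : ∀ g : mm.primeCompl, IsUnit (θ₀ g) := by
      rintro ⟨g, hg⟩
      apply hπ
      obtain ⟨a, b, e⟩ := decomp g
      show π (θ₀ g) ≠ 0
      rw [e]
      simp only [map_add, map_mul, t1, t2, hX, hY, mul_zero, zero_add, map_intCast]
      exact fun h => hg (mem_mm.2 ((CharP.intCast_eq_zero_iff k 5 _).1 h))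
    let θ₁ : S →+* A := IsLocalization.lift hu
    have t3 : θ₁ x = X' := (IsLocalization.lift_eq hu _).trans t1
    have t4 : θ₁ y = Y' := (IsLocalization.lift_eq hu _).trans t2
    refine ⟨Ideal.Quotient.lift _ θ₁ fun a ha => ?_, t3, t4⟩
    obtain ⟨b, rfl⟩ := Ideal.mem_span_singleton'.1 ha
    rw [map_mul, map_Eqn, t3, t4, hEq, mul_zero]

end RingAux

theorem claimRing : ClaimRing := RingAux.aux (Localization.AtPrime RingAux.mm)

end Crest.Agent.R171
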