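import Crest.Agent.R171.Defs

/-!
Row 171: Milnor, Introduction to algebraic K-theory, 9.2-9.4 and 9.8, for Steinberg systems.
-/

set_option autoImplicit false
set_option linter.unusedSectionVars false

namespace Crest.Agent.R171

namespace SteinSys

variable {I R G : Type} [CommRing R] [Group G] (S : SteinSys I R G)

theorem st_x_zero {i j : I} (h : i ≠ j) : S.x i j 0 = 1 := by
  have := S.add i j h 0 0
  rw [add_zero] at this
  exact mul_eq_left.mp this

theorem st_x_inv {i j : I} (h : i ≠ j) (a : R) : (S.x i j a)⁻¹ = S.x i j (-a) := by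
  rw [inv_eq_iff_mul_eq_one, S.add i j h, add_neg_cancel, S.st_x_zero h]

/-- conjugation of a commuting generator -/
theorem st_c0 {i j k l : I} (hij : i ≠ j) (hkl : k ≠ l) (hjk : j ≠ k) (hil : i ≠ l) (a b : R) :
    MulAut.conj (S.x i j a) (S.x k l b) = S.x k l b := by
  rw [MulAut.conj_apply, (S.comm i j k l hij hkl hjk hil a b).eq, mul_inv_cancel_right]

theorem st_c1 {i j l : I} (hij : i ≠ j) (hjl : j ≠ l) (hil : i ≠ l) (a b : R) :
    MulAut.conj (S.x i j a) (S.x j l b) = S.x i l (a * b) * S.x j l b := by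
  rw [MulAut.conj_apply, ← S.brk i j l hij hjl hil a b]
  group

theorem st_c2 {i j l : I} (hij : i ≠ j) (hlj : l ≠ j) (hli : l ≠ i) (a b : R) :
    MulAut.conj (S.x i j a) (S.x l i b) = S.x l j (-(b * a)) * S.x l i b := by
  rw [MulAut.conj_apply, ← S.st_x_inv hlj, ← S.brk l i j hli hij hlj b a]
  group

theorem st_sandwich {i j k l : I} (hij : i ≠ j) (hkl : k ≠ l) (hjk : j ≠ k) (hil : i ≠ l)
    (a a' b : R) (h : a + a' = 0) : S.x i j a * S.x k l b * S.x i j a' = S.x k l b := by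
  rw [(S.comm i j k l hij hkl hjk hil a b).eq, mul_assoc, S.add i j hij, h, S.st_x_zero hij,
    mul_one]

theorem st_conj_w (i j : I) (u : Rˣ) (y : G) :
    MulAut.conj (S.w i j u) y = MulAut.conj (S.x i j u)
      (MulAut.conj (S.x j i (-((u⁻¹ : Rˣ) : R))) (MulAut.conj (S.x i j u) y)) := by
  simp only [w, map_mul, MulAut.mul_apply]

theorem st_wA {i j l : I} (hij : i ≠ j) (hil : i ≠ l) (hjl : j ≠ l) (u : Rˣ) (r : R) :
    MulAut.conj (S.w i j u) (S.x i l r) = S.x j l (-((u⁻¹ : Rˣ) : R) * r) := by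
  rw [st_conj_w, S.st_c0 hij hil hij.symm hil, S.st_c1 hij.symm hil hjl, map_mul,
    S.st_c1 hij hjl hil, S.st_c0 hij hil hij.symm hil]
  apply S.st_sandwich hil hjl hjl.symm hil
  have := u.mul_inv
  linear_combination (-r) * this

theorem st_wB {i j l : I} (hij : i ≠ j) (hil : i ≠ l) (hjl : j ≠ l) (u : Rˣ) (r : R) :
    MulAut.conj (S.w i j u) (S.x j l r) = S.x i l ((u : R) * r) := by
  rw [st_conj_w, S.st_c1 hij hjl hil, map_mul, S.st_c1 hij.symm hil hjl,
    S.st_c0 hij.symm hjl hij hjl, S.st_sandwich hjl hil hil.symm hjl,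
    S.st_c0 hij hil hij.symm hil]
  have := u.mul_inv
  linear_combination (-r) * this

theorem st_wC {i j l : I} (hij : i ≠ j) (hil : i ≠ l) (hjl : j ≠ l) (u : Rˣ) (r : R) :
    MulAut.conj (S.w i j u) (S.x l i r) = S.x l j (-(r * (u : R))) := by
  rw [st_conj_w, S.st_c2 hij hjl.symm hil.symm, map_mul, S.st_c2 hij.symm hil.symm hjl.symm,
    S.st_c0 hij.symm hil.symm hil hij.symm, S.st_sandwich hil.symm hjl.symm hil hjl.symm,
    S.st_c0 hij hjl.symm hjl hij]
  have := u.mul_inv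
  linear_combination (-r) * this

theorem st_wD {i j l : I} (hij : i ≠ j) (hil : i ≠ l) (hjl : j ≠ l) (u : Rˣ) (r : R) :
    MulAut.conj (S.w i j u) (S.x l j r) = S.x l i (r * ((u⁻¹ : Rˣ) : R)) := by
  rw [st_conj_w, S.st_c0 hij hjl.symm hjl hij, S.st_c2 hij.symm hil.symm hjl.symm, map_mul,
    S.st_c2 hij hjl.symm hil.symm, S.st_c0 hij hjl.symm hjl hij,
    S.st_sandwich hjl.symm hil.symm hjl hil.symm]
  · congr 1; ring
  · have := u.mul_inv
    linear_combination (-r) * this

theorem st_wE (h3 : Has3 I) {i j : I} (hij : i ≠ j) (u : Rˣ) (r : R) :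
    MulAut.conj (S.w i j u) (S.x i j r) =
      S.x j i (-(((u⁻¹ : Rˣ) : R) * r * ((u⁻¹ : Rˣ) : R))) := by
  obtain ⟨m, hmi, hmj⟩ := h3 i j
  have e := S.brk i m j hmi.symm hmj hij r 1
  rw [mul_one] at e
  rw [← e]
  simp only [map_mul, map_inv]
  rw [S.st_wA hij hmi.symm hmj.symm, S.st_wD hij hmi.symm hmj.symm,
    S.brk j m i hmj.symm hmi hij.symm]
  congr 1; ring

theorem st_wF (h3 : Has3 I) {i j : I} (hij : i ≠ j) (u : Rˣ) (r : R) :
    MulAut.conj (S.w i j u) (S.x j i r) = S.x i j (-((u : R) * r * (u : R))) := by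
  obtain ⟨m, hmi, hmj⟩ := h3 i j
  have e := S.brk j m i hmj.symm hmi hij.symm r 1
  rw [mul_one] at e
  rw [← e]
  simp only [map_mul, map_inv]
  rw [S.st_wB hij hmi.symm hmj.symm, S.st_wC hij hmi.symm hmj.symm,
    S.brk i m j hmi.symm hmj hij]
  congr 1; ring

theorem st_wG {i j k l : I} (hij : i ≠ j) (hkl : k ≠ l) (hki : k ≠ i) (hkj : k ≠ j) (hli : l ≠ i)
    (hlj : l ≠ j) (u : Rˣ) (r : R) : MulAut.conj (S.w i j u) (S.x k l r) = S.x k l r := by
  rw [st_conj_w, S.st_c0 hij hkl hkj.symm hli.symm, S.st_c0 hij.symm hkl hki.symm hlj.symm,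
    S.st_c0 hij hkl hkj.symm hli.symm]

theorem st_mono_w [DecidableEq I] (h3 : Has3 I) {i j : I} (hij : i ≠ j) (u : Rˣ) :
    S.Mono (S.w i j u) (Equiv.swap i j)
      (fun k => if k = j then u else if k = i then -u⁻¹ else 1) := by
  intro k l hkl r
  rw [← MulAut.conj_apply]
  by_cases hki : k = i
  · subst hki
    by_cases hlj : l = j
    · subst hlj
      rw [S.st_wE h3 hij]
      simp [hij]
    · rw [S.st_wA hij hkl (Ne.symm hlj), Equiv.swap_apply_left,
        Equiv.swap_apply_of_ne_of_ne hkl.symm hlj]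
      simp [hij, hlj, hkl.symm]
  · by_cases hkj : k = j
    · subst hkj
      by_cases hli : l = i
      · subst hli
        rw [S.st_wF h3 hij]
        simp [hij]
      · rw [S.st_wB hij (Ne.symm hli) hkl, Equiv.swap_apply_right,
          Equiv.swap_apply_of_ne_of_ne hli hkl.symm]
        simp [hli, hkl.symm]
    · by_cases hli : l = i
      · subst hli
        rw [S.st_wC hij (Ne.symm hki) (Ne.symm hkj), Equiv.swap_apply_left,
          Equiv.swap_apply_of_ne_of_ne hki hkj]
        simp [hki, hkj, hij]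
      · by_cases hlj : l = j
        · subst hlj
          rw [S.st_wD hij (Ne.symm hki) (Ne.symm hkj), Equiv.swap_apply_right,
            Equiv.swap_apply_of_ne_of_ne hki hkj]
          simp [hki, hkj]
        · rw [S.st_wG hij hkl hki hkj hli hlj, Equiv.swap_apply_of_ne_of_ne hki hkj,
            Equiv.swap_apply_of_ne_of_ne hli hlj]
          simp [hki, hkj, hli, hlj]

theorem Mono.st_mul {S : SteinSys I R G} {g g' : G} {π π' : Equiv.Perm I} {d d' : I → Rˣ}
    (h : S.Mono g π d) (h' : S.Mono g' π' d') :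
    S.Mono (g * g') (π * π') (fun k => d (π' k) * d' k) := by
  intro k l hkl r
  have e : g * g' * S.x k l r * (g * g')⁻¹ = g * (g' * S.x k l r * g'⁻¹) * g⁻¹ := by group
  rw [e, h' k l hkl r, h _ _ (π'.injective.ne hkl)]
  simp only [Equiv.Perm.coe_mul, Function.comp_apply, mul_inv, Units.val_mul]
  congr 1; ring

theorem st_mono_h [DecidableEq I] (h3 : Has3 I) {i j : I} (hij : i ≠ j) (u : Rˣ) :
    S.Mono (S.h i j u) 1 (fun k => if k = i then u else if k = j then u⁻¹ else 1) := by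
  have := (S.st_mono_w h3 hij u).st_mul (S.st_mono_w h3 hij (-1))
  rw [Equiv.swap_mul_self] at this
  unfold h
  convert this using 1
  funext k
  by_cases hki : k = i
  · subst hki
    simp [hij]
  · by_cases hkj : k = j
    · subst hkj
      simp [hij, hki]
    · simp [hki, hkj, Equiv.swap_apply_of_ne_of_ne hki hkj]

/-- `w i j (-1) = x j i 1 * x i j (-1) * x j i 1` -/
theorem st_w_neg_one (h3 : Has3 I) {i j : I} (hij : i ≠ j) :
    S.w i j (-1) = S.x j i 1 * S.x i j (-1) * S.x j i 1 := by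
  have e : MulAut.conj (S.w i j (-1)) (S.w i j (-1)) = S.w i j (-1) := by
    simp [MulAut.conj_apply]
  rw [← e]
  conv_lhs => rw [show MulAut.conj (S.w i j (-1)) (S.w i j (-1)) = MulAut.conj (S.w i j (-1))
    (S.x i j ((-1 : Rˣ) : R) * S.x j i (-(((-1 : Rˣ)⁻¹ : Rˣ) : R)) * S.x i j ((-1 : Rˣ) : R))
    from rfl]
  simp only [map_mul]
  rw [S.st_wE h3 hij, S.st_wF h3 hij]
  simp

/-- Milnor 9.8 -/
theorem st_h_mul (h3 : Has3 I) {i j : I} (hij : i ≠ j) (u v : Rˣ) (huv : (u : R) + (v : R) = 1) :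
    S.w i j u * S.w i j (-1) * S.w i j v = S.w i j (u * v) := by
  have e1 : S.w i j u * S.x j i 1 = S.x i j (-((u : R) * u)) * S.w i j u := by
    have := S.st_wF h3 hij u 1
    rw [MulAut.conj_apply, mul_one] at this
    rw [← this]; group
  have e2 : S.x j i 1 * S.w i j v = S.w i j v * S.x i j (-((v : R) * v)) := by
    have := S.st_wE h3 hij v (-((v : R) * v))
    rw [MulAut.conj_apply] at this
    have e : -(((v⁻¹ : Rˣ) : R) * -((v : R) * v) * ((v⁻¹ : Rˣ) : R)) = 1 := by
      have := v.mul_inv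
      linear_combination ((v : R) * ((v⁻¹ : Rˣ) : R) + 1) * this
    rw [e] at this
    rw [← this]; group
  have e3 : S.w i j u * S.w i j (-1) * S.w i j v =
      (S.w i j u * S.x j i 1) * S.x i j (-1) * (S.x j i 1 * S.w i j v) := by
    rw [S.st_w_neg_one h3 hij]; group
  rw [e3, e1, e2]
  unfold w
  have e4 : S.x i j (-((u : R) * u)) * (S.x i j u * S.x j i (-((u⁻¹ : Rˣ) : R)) * S.x i j u) *
      S.x i j (-1) * (S.x i j v * S.x j i (-((v⁻¹ : Rˣ) : R)) * S.x i j v *
        S.x i j (-((v : R) * v))) =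
      (S.x i j (-((u : R) * u)) * S.x i j u) * S.x j i (-((u⁻¹ : Rˣ) : R)) *
        (S.x i j u * S.x i j (-1) * S.x i j v) * S.x j i (-((v⁻¹ : Rˣ) : R)) *
        (S.x i j v * S.x i j (-((v : R) * v))) := by group
  rw [e4]
  simp only [S.add i j hij]
  have z : (u : R) + -1 + v = 0 := by linear_combination huv
  rw [z, S.st_x_zero hij, mul_one, mul_assoc (S.x i j _) (S.x j i _) (S.x j i _),
    S.add j i hij.symm]
  have hu := u.mul_inv
  have hv := v.mul_inv
  congr 1
  · congr 1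
    · congr 1
      rw [Units.val_mul]
      linear_combination (-(u : R)) * huv
    · congr 1
      rw [mul_inv, Units.val_mul]
      linear_combination ((v⁻¹ : Rˣ) : R) * hu + ((u⁻¹ : Rˣ) : R) * hv
        - ((u⁻¹ : Rˣ) : R) * ((v⁻¹ : Rˣ) : R) * huv
  · congr 1
    rw [Units.val_mul]
    linear_combination (-(v : R)) * huv

theorem st_h_commute (h3 : Has3 I) {i j : I} (hij : i ≠ j) (u v : Rˣ)
    (huv : (u : R) + (v : R) = 1) : Commute (S.h i j u) (S.h i j v) := by
  have e1 := S.st_h_mul h3 hij u v huv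
  have e2 := S.st_h_mul h3 hij v u (by rw [add_comm]; exact huv)
  unfold Commute SemiconjBy h
  rw [← mul_assoc, ← mul_assoc, e1, e2, mul_comm u v]

end SteinSys

theorem claimStein : ClaimStein := by
  intro I R G _ _ _ S h3 i j hij
  exact ⟨fun u => S.st_mono_w h3 hij u, fun u => S.st_mono_h h3 hij u,
    fun u v huv => S.st_h_commute h3 hij u v huv⟩

end Crest.Agent.R171
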