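import Crest.Agent.R171.W2

/-!
Row 171: the wild symbol.
-/

set_option autoImplicit false

noncomputable section

namespace Crest.Agent.R171

open W2

attribute [local instance] QData.fk QData.ck QData.ik QData.rQ QData.aQ

namespace Wild

section forms
variable {k Q : Type} [Field k] [CommRing Q] [Algebra k Q] [CharP Q 5] {P : Subring (W2 Q)}
  (d d' : Derivation k Q Q) (u v : Pˣ)

/-- first component -/
def n0 : Q := (u : P).1.a0
/-- second component -/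
def n1 : Q := (u : P).1.a1
/-- inverse of the first component -/
def j0 : Q := n0 u⁻¹
/-- the function part -/
def m : Q := n1 u * j0 u ^ 5
/-- the logarithmic derivative -/
def a : Q := d (n0 u) * j0 u
/-- the corrected logarithmic derivative -/
def a' : Q := a d u + d (m u)

theorem a'_def : a' d u = a d u + d (m u) := rfl

theorem n0_mul : n0 (u * v) = n0 u * n0 v := rfl

theorem n1_mul : n1 (u * v) = n0 u ^ 5 * n1 v + n0 v ^ 5 * n1 u := rfl

theorem n0_j0 : n0 u * j0 u = 1 := by rw [j0, ← n0_mul, mul_inv_cancel]; rfl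

theorem j0_mul : j0 (u * v) = j0 u * j0 v := by rw [j0, mul_inv, n0_mul]; rfl

theorem m_mul : m (u * v) = m u + m v := by
  have h1 : (n0 u * j0 u) ^ 5 = 1 := by rw [n0_j0, one_pow]
  have h2 : (n0 v * j0 v) ^ 5 = 1 := by rw [n0_j0, one_pow]
  simp only [m, n1_mul, j0_mul]
  linear_combination n1 v * j0 v ^ 5 * h1 + n1 u * j0 u ^ 5 * h2

theorem a_mul : a d (u * v) = a d u + a d v := by
  simp only [a, n0_mul, j0_mul, d.leibniz, smul_eq_mul]
  linear_combination d (n0 v) * j0 v * n0_j0 u + d (n0 u) * j0 u * n0_j0 v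

theorem a'_mul : a' d (u * v) = a' d u + a' d v := by
  simp only [a', a_mul, m_mul, map_add]
  ring

theorem a_eq : a d u = d (n0 u) * n0 u ^ 4 * j0 u ^ 5 := by
  have h1 : (n0 u * j0 u) ^ 4 = 1 := by rw [n0_j0, one_pow]
  rw [a]
  linear_combination -d (n0 u) * j0 u * h1

theorem d_m : d (m u) = d (n1 u) * j0 u ^ 5 := by
  rw [m, d.leibniz, d_pow5, smul_zero, zero_add, smul_eq_mul, mul_comm]

theorem a'_eq {z : Q} (h : P ≤ sub d z) : a' d u = z * a d u ^ 5 := by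
  have h1 : d (n1 u) + n0 u ^ 4 * d (n0 u) = z * d (n0 u) ^ 5 := h (u : P).2
  rw [a', d_m]
  conv_lhs => rw [a_eq]
  rw [a]
  linear_combination j0 u ^ 5 * h1

theorem a_closed (h : ∀ q, d (d' q) = d' (d q)) : d (a d' u) = d' (a d u) := by
  have h1 := (mul_comm _ _).trans (n0_j0 u)
  simp only [a, Derivation.leibniz, smul_eq_mul, d.leibniz_of_mul_eq_one h1,
    d'.leibniz_of_mul_eq_one h1, h]
  ring

theorem a'_closed (h : ∀ q, d (d' q) = d' (d q)) : d (a' d' u) = d' (a' d u) := by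
  simp only [a', map_add, a_closed d d' u h, h]

theorem stein_exact (h : (u : P) + v = 1) : ∃ l : Q, ∀ d : Derivation k Q Q,
    m u * a d v - m v * a' d u = d l := by
  have h0 : n0 v = 1 - n0 u :=
    eq_sub_of_add_eq' (congrArg (fun z : P => z.1.a0) h)
  have h1 : n1 u + n1 v - cc (n0 u) (n0 v) = 0 := congrArg (fun z : P => z.1.a1) h
  have h2 : n1 v = n0 u - 2 * n0 u ^ 2 + 2 * n0 u ^ 3 - n0 u ^ 4 - n1 u := by
    rw [h0, cc] at h1
    linear_combination h1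
  refine ⟨(j0 u * j0 v) ^ 5 * (3 * n1 u ^ 2 - (n0 u - 2 * n0 u ^ 2 + 2 * n0 u ^ 3 - n0 u ^ 4) * n1 u -
    (n0 u ^ 6 - n0 u ^ 7 + 4 * n0 u ^ 8 - 4 * n0 u ^ 9)), fun d => ?_⟩
  rw [d.leibniz, d_pow5, a', d_m, a_eq, a_eq, m, m, h0, h2]
  simp only [map_add, map_sub, d.leibniz, d.leibniz_pow, d_ofNat, smul_eq_mul, nsmul_eq_mul,
    d.map_one_eq_zero]
  push_cast
  linear_combination (j0 u * j0 v) ^ 5 * (-n1 u * d (n1 u) +
    (n0 u ^ 5 - n0 u ^ 6 + 6 * n0 u ^ 7 - 7 * n0 u ^ 8) * d (n0 u)) * (five : (5 : Q) = 0)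

theorem small {e β γ : Q} (he : e * e = 0) (hβ : d β = 0) (hγ : d γ = 0)
    (h0 : n0 u = 1 + β * e) (h1 : n1 u = γ - β * e) : m u = γ - β * e ∧ a' d u = 0 := by
  have h2 : j0 u = 1 - β * e := by
    have := n0_j0 u
    rw [h0] at this
    linear_combination (1 - β * e) * this + β ^ 2 * j0 u * he
  have h3 : m u = γ - β * e := by
    rw [m, h1, h2, sub5]
    linear_combination -(γ - β * e) * β ^ 5 * e ^ 3 * he
  have h4 := congrArg d he
  rw [d.leibniz, map_zero, smul_eq_mul] at h4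
  refine ⟨h3, ?_⟩
  simp only [a', a, h3, h0, h2, map_add, map_sub, d.leibniz, hβ, hγ, d.map_one_eq_zero, smul_eq_mul]
  linear_combination -3 * β ^ 2 * h4 + β ^ 2 * e * d e * (five : (5 : Q) = 0)

end forms

variable (D : QData)

instance : CharP D.Q 5 :=
  haveI := D.ε.toRingHom.domain_nontrivial
  charP_of_injective_algebraMap (algebraMap D.k D.Q).injective 5

theorem pow5 (q : D.Q) : q ^ 5 = algebraMap D.k D.Q (D.ε q ^ 5) := by
  obtain ⟨q₁, q₂, h⟩ := D.gen q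
  conv_lhs => rw [h, add5, add5, mul_pow, mul_pow, D.x5, D.y5]
  simp

theorem e_mul (q : D.Q) : D.x ^ 4 * D.y ^ 4 * q = D.x ^ 4 * D.y ^ 4 * algebraMap D.k D.Q (D.ε q) := by
  obtain ⟨q₁, q₂, h⟩ := D.gen q
  linear_combination D.x ^ 4 * D.y ^ 4 * h + D.y ^ 4 * q₁ * D.x5 + D.x ^ 4 * q₂ * D.y5

theorem e_sq : D.x ^ 4 * D.y ^ 4 * (D.x ^ 4 * D.y ^ 4) = 0 := by
  linear_combination D.x ^ 3 * D.y ^ 8 * D.x5

theorem c_wedge (l : D.Q) {b₁ b₂ : D.Q} (h : D.d1 b₂ = D.d2 b₁) :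
    D.c (D.d1 l * b₂ - D.d2 l * b₁) = 0 := by
  have : D.d1 l * b₂ - D.d2 l * b₁ = D.d1 (l * b₂) - D.d2 (l * b₁) := by
    simp only [Derivation.leibniz, smul_eq_mul, h]
    ring
  rw [this, map_sub, D.c_d1, D.c_d2, sub_zero]

/-- the ring upstairs -/
def P : Subring (W2 D.Q) := sub D.d1 (D.x ^ 4) ⊓ sub D.d2 (D.y ^ 4)

variable {D}

theorem a1_eq (u : (P D)ˣ) : a' D.d1 u = D.x ^ 4 * a D.d1 u ^ 5 := a'_eq D.d1 u inf_le_left

theorem a2_eq (u : (P D)ˣ) : a' D.d2 u = D.y ^ 4 * a D.d2 u ^ 5 := a'_eq D.d2 u inf_le_right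

/-- the symbol upstairs -/
def Th (u v w : (P D)ˣ) : ZMod 5 :=
  D.c (m u * (a D.d1 v * a D.d2 w - a D.d2 v * a D.d1 w) -
    m v * (a' D.d1 u * a D.d2 w - a' D.d2 u * a D.d1 w) +
    m w * (a' D.d1 u * a' D.d2 v - a' D.d2 u * a' D.d1 v))

variable (u u' v w : (P D)ˣ)

theorem Th_mul : Th (u * u') v w = Th u v w + Th u' v w := by
  simp only [Th, ← map_add, m_mul, a'_mul]
  congr 1
  ring

theorem Th_swap12 : Th v u w = -Th u v w := by
  rw [eq_neg_iff_add_eq_zero, Th, Th, ← map_add, ← neg_eq_zero, ← map_neg,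
    ← c_wedge D (m u * m v) (a_closed _ _ w D.d_comm)]
  congr 1
  simp only [a', Derivation.leibniz, smul_eq_mul]
  ring

theorem Th_swap23 : Th u w v = -Th u v w := by
  rw [eq_neg_iff_add_eq_zero, Th, Th, ← map_add, ← neg_eq_zero, ← map_neg,
    ← c_wedge D (m v * m w) (a'_closed _ _ u D.d_comm)]
  congr 1
  simp only [a'_def _ v, a'_def _ w, Derivation.leibniz, smul_eq_mul]
  ring

theorem Th_stein (h : (u : P D) + v = 1) : Th u v w = 0 := by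
  obtain ⟨l, hl⟩ := stein_exact (k := D.k) u v h
  have h0 : n0 v = 1 - n0 u := eq_sub_of_add_eq' (congrArg (fun z : P D => z.1.a0) h)
  have h1 : a' D.d1 u * a' D.d2 v - a' D.d2 u * a' D.d1 v = 0 := by
    simp only [a1_eq, a2_eq, a, h0, map_sub, Derivation.map_one_eq_zero]
    ring
  rw [Th, h1, ← c_wedge D l (a_closed _ _ w D.d_comm), ← hl, ← hl]
  congr 1
  ring

theorem Th_small {β γ : D.k} (h0 : n0 u = 1 + algebraMap _ _ β * (D.x ^ 4 * D.y ^ 4))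
    (h1 : n1 u = algebraMap _ _ γ - algebraMap _ _ β * (D.x ^ 4 * D.y ^ 4)) :
    Th u v w = D.c ((algebraMap _ _ γ - algebraMap _ _ β * (D.x ^ 4 * D.y ^ 4)) *
      (a D.d1 v * a D.d2 w - a D.d2 v * a D.d1 w)) := by
  obtain ⟨h2, h3⟩ := small D.d1 u (e_sq D) (D.d1.map_algebraMap _) (D.d1.map_algebraMap _) h0 h1
  obtain ⟨-, h4⟩ := small D.d2 u (e_sq D) (D.d2.map_algebraMap _) (D.d2.map_algebraMap _) h0 h1
  rw [Th, h2, h3, h4]
  simp

variable (D)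

/-- Teichmüller lifts of constants -/
def tk (κ : D.k) : P D := ⟨⟨algebraMap _ _ κ, 0⟩, by simp [mem_sub], by simp [mem_sub]⟩
/-- Teichmüller lift of `x` -/
def tx : P D := ⟨⟨D.x, 0⟩, by simp [mem_sub, D.d1x], by simp [mem_sub, D.d2x]⟩
/-- Teichmüller lift of `y` -/
def ty : P D := ⟨⟨D.y, 0⟩, by simp [mem_sub, D.d1y], by simp [mem_sub, D.d2y]⟩

theorem txy : (tx D ^ 4 * ty D ^ 4).1 = ⟨D.x ^ 4 * D.y ^ 4, 0⟩ := by
  rw [Subring.coe_mul, Subring.coe_pow, Subring.coe_pow, tx, ty, teich_pow, teich_pow]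
  ext <;> simp

theorem five_P : (5 : P D).1 = ⟨0, 1⟩ := (map_ofNat (P D).subtype 5).trans five_eq

/-- the residue map -/
def pi0 : P D →+* D.k := D.ε.toRingHom.comp (fst.comp (P D).subtype)

theorem isUnit_of_pi0 {p : P D} (h : pi0 D p ≠ 0) : IsUnit p := by
  have h1 : IsUnit (tk D (pi0 D p)) := IsUnit.of_mul_eq_one (tk D (pi0 D p)⁻¹) (by
    ext
    · exact (map_mul _ _ _).symm.trans (by rw [mul_inv_cancel₀ h, map_one]; rfl)
    · simp [tk])
  have h2 : IsNilpotent (p - tk D (pi0 D p)) := by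
    refine (IsNilpotent.map_iff (P D).subtype_injective).1 (isNilpotent ?_)
    refine (pow5 D _).trans ?_
    change algebraMap _ _ (pi0 D (p - tk D (pi0 D p)) ^ 5) = 0
    rw [map_sub, show pi0 D (tk D _) = _ from D.ε.commutes _]
    simp
  simpa using h2.isUnit_add_left_of_commute h1 (Commute.all _ _)

/-- the ideal -/
def J : Ideal (P D) := Ideal.span {5 + tx D ^ 4 * ty D ^ 4}

variable {D}

theorem Th_kill (h : (u : P D) - 1 ∈ J D) : Th u v w = 0 := by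
  obtain ⟨b, hb⟩ := Ideal.mem_span_singleton'.1 h
  have h1 : (u : P D).1 = 1 + b.1 * (⟨0, 1⟩ + ⟨D.x ^ 4 * D.y ^ 4, 0⟩) := by
    rw [← five_P, ← txy, eq_add_of_sub_eq' hb.symm]
    rfl
  have h2 := e_mul D b.1.a0
  have h3 := pow5 D b.1.a0
  have h4 := e_sq D
  rw [Th_small u v w (β := D.ε b.1.a0) (γ := D.ε b.1.a0 ^ 5)]
  · obtain ⟨g, hg⟩ : ∃ g, g = a D.d1 v * a D.d2 w - a D.d2 v * a D.d1 w := ⟨_, rfl⟩
    have h5 : a' D.d1 v * a' D.d2 w - a' D.d2 v * a' D.d1 w = D.x ^ 4 * D.y ^ 4 * g ^ 5 := by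
      simp only [a1_eq, a2_eq, hg, sub5]
      ring
    have h6 := c_wedge D (b.1.a0 ^ 5 * m v) (a'_closed _ _ w D.d_comm)
    have h7 := c_wedge D (b.1.a0 ^ 5 * m w) (a_closed _ _ v D.d_comm)
    have h8 := D.c_e (D.ε b.1.a0 * D.ε g)
    rw [← sub_eq_zero, ← map_sub] at h8
    rw [← hg, ← sub_zero (0 : ZMod 5), ← add_zero (0 - 0 : ZMod 5)]
    nth_rewrite 1 [← h7, ← h6, ← h8]
    rw [← map_sub, ← map_add]
    congr 1
    simp only [Derivation.leibniz, d_pow5, smul_eq_mul, mul_pow, map_mul, ← h3, ← pow5]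
    simp only [a'_def] at h5 ⊢
    linear_combination b.1.a0 ^ 5 * hg + b.1.a0 ^ 5 * h5 -
      algebraMap _ _ (D.ε b.1.a0) * e_mul D g
  · rw [n0, h1]
    simp only [add_a0, mul_a0, one_a0]
    linear_combination h2
  · rw [n1, h1]
    simp only [add_a0, add_a1, mul_a0, mul_a1, one_a0, one_a1, cc, ← h3]
    linear_combination -h2 + (b.1.a1 * (D.x ^ 4 * D.y ^ 4) ^ 3 - 2 * b.1.a0 ^ 2 -
      2 * b.1.a0 ^ 3 * (D.x ^ 4 * D.y ^ 4) - b.1.a0 ^ 4 * (D.x ^ 4 * D.y ^ 4) ^ 2) * h4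

theorem Th_congr (h : Ideal.Quotient.mk (J D) u = Ideal.Quotient.mk (J D) u') :
    Th u v w = Th u' v w := by
  have h1 : ((u'⁻¹ * u : (P D)ˣ) : P D) - 1 ∈ J D := by
    rw [← u'.inv_mul, Units.val_mul, ← mul_sub]
    exact (J D).mul_mem_left _ (Ideal.Quotient.eq.1 h)
  rw [← mul_inv_cancel_left u' u, Th_mul, Th_kill _ _ _ h1, add_zero]

theorem Th_value (hu : (u : P D) = 1 + tx D ^ 4 * ty D ^ 4) (hv : (v : P D) = 1 - tx D)
    (hw : (w : P D) = 1 - ty D) : Th u v w ≠ 0 := by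
  have h1 : (u : P D).1 = 1 + ⟨D.x ^ 4 * D.y ^ 4, 0⟩ := by rw [hu, ← txy]; rfl
  have h2 : n0 v = 1 - D.x := by rw [n0, hv, sub_eq_add_neg, sub_eq_add_neg]; rfl
  have h3 : n0 w = 1 - D.y := by rw [n0, hw, sub_eq_add_neg, sub_eq_add_neg]; rfl
  have h4 := n0_j0 v
  have h5 := n0_j0 w
  rw [Th_small u v w (β := 1) (γ := 0)]
  · rw [← neg_ne_zero, ← map_neg]
    convert D.c_e1 using 2
    rw [h2] at h4
    rw [h3] at h5
    simp only [a, h2, h3, map_sub, Derivation.map_one_eq_zero, D.d1x, D.d1y, D.d2x, D.d2y, map_one,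
      map_zero]
    linear_combination D.x ^ 4 * D.y ^ 4 * j0 w * h4 + D.x ^ 4 * D.y ^ 4 * h5 +
      D.y ^ 4 * j0 v * j0 w * D.x5 + D.x ^ 4 * j0 w * D.y5
  · rw [n0, h1, map_one, one_mul]
    rfl
  · rw [n1, h1]
    simp only [add_a1, one_a0, one_a1, cc, map_one, map_zero]
    linear_combination (-2 - 2 * (D.x ^ 4 * D.y ^ 4) - (D.x ^ 4 * D.y ^ 4) ^ 2) * e_sq D

end Wild

open Wild in
theorem claimSymbol (hq : ClaimQ) : ClaimSymbol := by
  obtain ⟨D⟩ := hq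
  have hx : pi0 D (tx D) = 0 := D.εx
  have hy : pi0 D (ty D) = 0 := D.εy
  let π : P D ⧸ J D →+* D.k := Ideal.Quotient.lift _ (pi0 D) fun a ha => by
    obtain ⟨b, rfl⟩ := Ideal.mem_span_singleton'.1 ha
    simp [hx, map_ofNat, (five : (5 : D.k) = 0)]
  let μ : (P D)ˣ →* (P D ⧸ J D)ˣ := Units.map (Ideal.Quotient.mk (J D))
  have h0 : ∀ (p : P D) (U : (P D ⧸ J D)ˣ), Ideal.Quotient.mk (J D) p = U →
      ∃ u : (P D)ˣ, (u : P D) = p ∧ μ u = U := fun p U h => by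
    obtain ⟨u, rfl⟩ := isUnit_of_pi0 D (p := p) (h ▸ U.isUnit.map π).ne_zero
    exact ⟨u, rfl, Units.ext h⟩
  have h1 : Function.Surjective μ := fun U =>
    let ⟨p, hp⟩ := Ideal.Quotient.mk_surjective (U : P D ⧸ J D)
    (h0 p U hp).imp fun _ h => h.2
  have h2 : ∀ u v w, Th (Function.surjInv h1 (μ u)) v w = Th u v w := fun u v w =>
    Th_congr _ _ _ _ (congrArg Units.val (Function.surjInv_eq h1 (μ u)))
  obtain ⟨Φ, hΦ⟩ : ∃ Φ : (P D ⧸ J D)ˣ → (P D ⧸ J D)ˣ → (P D ⧸ J D)ˣ → ZMod 5,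
      ∀ u v w, Φ (μ u) (μ v) (μ w) = Th u v w :=
    ⟨fun U V W => Th (Function.surjInv h1 U) (Function.surjInv h1 V) (Function.surjInv h1 W),
      fun u v w => by
        dsimp only
        rw [h2, Th_swap12, h2, Th_swap23, Th_swap12, h2, Th_swap12 v w u, Th_swap23 v u w,
          Th_swap12 u v w]
        simp⟩
  have h3 : tx D ^ 5 = 0 := Subtype.ext ((teich_pow D.x 5).trans (by rw [D.x5]; rfl))
  have h4 : ty D ^ 5 = 0 := Subtype.ext ((teich_pow D.y 5).trans (by rw [D.y5]; rfl))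
  have h5 : 5 * tx D ^ 2 = 0 := by
    apply Subtype.ext
    rw [Subring.coe_mul, five_P, Subring.coe_pow, tx, teich_pow]
    ext
    · simp
    · simp only [mul_a1, Subring.coe_zero, zero_a1]
      linear_combination D.x ^ 5 * D.x5
  have h6 : Eqn (tx D) (ty D) = 5 + tx D ^ 4 * ty D ^ 4 := by
    rw [Eqn]
    linear_combination (tx D ^ 3 - 5 * tx D) * h3 + tx D ^ 3 * h4 + (2 * tx D ^ 2 - 2) * h5
  refine ⟨_, D.k, inferInstance, inferInstance, inferInstance, π, Ideal.Quotient.mk _ (tx D),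
    Ideal.Quotient.mk _ (ty D), Φ, ⟨inferInstance, fun κ => ⟨Ideal.Quotient.mk _ (tk D κ),
      D.ε.commutes κ⟩, fun a ha => ?_⟩, hx, hy, by rw [← map_pow, h3, map_zero],
    by rw [← map_pow, h4, map_zero], ?_, ⟨fun U U' V W => ?_, fun U V W => ?_, fun U V W => ?_,
      fun U V W h => ?_⟩, fun U V W hU hV hW => ?_⟩
  · obtain ⟨p, rfl⟩ := Ideal.Quotient.mk_surjective a
    exact (isUnit_of_pi0 D ha).map _
  · rw [← Ideal.Quotient.eq_zero_iff_mem.2 (h6 ▸ Ideal.mem_span_singleton_self _ :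
      Eqn (tx D) (ty D) ∈ J D)]
    simp [Eqn, map_ofNat]
  · obtain ⟨u, rfl⟩ := h1 U
    obtain ⟨u', rfl⟩ := h1 U'
    obtain ⟨v, rfl⟩ := h1 V
    obtain ⟨w, rfl⟩ := h1 W
    rw [← map_mul, hΦ, hΦ, hΦ, Th_mul]
  · obtain ⟨u, rfl⟩ := h1 U
    obtain ⟨v, rfl⟩ := h1 V
    obtain ⟨w, rfl⟩ := h1 W
    rw [hΦ, hΦ, Th_swap12]
  · obtain ⟨u, rfl⟩ := h1 U
    obtain ⟨v, rfl⟩ := h1 V
    obtain ⟨w, rfl⟩ := h1 W
    rw [hΦ, hΦ, Th_swap23]
  · obtain ⟨u, rfl⟩ := h1 U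
    obtain ⟨v, hv, rfl⟩ := h0 (1 - u) V (by rw [map_sub, map_one, ← h]; exact add_sub_cancel_left ..)
    obtain ⟨w, rfl⟩ := h1 W
    rw [hΦ, Th_stein _ _ _ (by rw [hv, add_sub_cancel])]
  · obtain ⟨u, hu, rfl⟩ := h0 (1 - tx D) U (by simp [hU])
    obtain ⟨v, hv, rfl⟩ := h0 (1 - ty D) V (by simp [hV])
    obtain ⟨w, hw, rfl⟩ := h0 (1 + tx D ^ 4 * ty D ^ 4) W (by simp [hW])
    rw [hΦ, Th_swap23, Th_swap12, neg_neg]
    exact Th_value _ _ _ hw hu hv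

end Crest.Agent.R171
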