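import Crest.Agent.R171.Coc

/-!
Row 171: the torus classes in the third homology of the Steinberg group form a Steinberg symbol.
-/

set_option autoImplicit false
set_option linter.unusedSectionVars false

namespace Crest.Agent.R171

open Crest.AlgebraR.Steinberg

namespace TauAux

variable {R : Type} [CommRing R]

/-- `g` acts on the generators like the diagonal matrix with entries `d`. -/
def Diag (g : St R) (d : ℕ → Rˣ) : Prop := (stSys R).Mono g 1 d

theorem Diag.mul {g g' : St R} {d d' : ℕ → Rˣ} (h : Diag g d) (h' : Diag g' d') :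
    Diag (g * g') (d * d') := by
  intro k l hkl r
  have e1 := h' k l hkl r
  have e2 := h k l hkl ((d' k : R) * r * (((d' l)⁻¹ : Rˣ) : R))
  simp only [Equiv.Perm.coe_one, id_eq] at e1 e2 ⊢
  have : g * g' * (stSys R).x k l r * (g * g')⁻¹ = g * (g' * (stSys R).x k l r * g'⁻¹) * g⁻¹ := by
    group
  rw [this, e1, e2]
  congr 1
  simp only [Pi.mul_apply, mul_inv, Units.val_mul]
  ring

theorem mono_inv_conj {g : St R} {π : Equiv.Perm ℕ} {d : ℕ → Rˣ} (h : (stSys R).Mono g π d)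
    {k l : ℕ} (hkl : k ≠ l) (r : R) :
    g⁻¹ * (stSys R).x (π k) (π l) r * g =
      (stSys R).x k l ((((d k)⁻¹ : Rˣ) : R) * r * (d l : R)) := by
  have e := h k l hkl ((((d k)⁻¹ : Rˣ) : R) * r * (d l : R))
  have e' : (d k : R) * ((((d k)⁻¹ : Rˣ) : R) * r * (d l : R)) * (((d l)⁻¹ : Rˣ) : R) = r := by
    have h1 : (d k : R) * (((d k)⁻¹ : Rˣ) : R) = 1 := Units.mul_inv _
    have h2 : (d l : R) * (((d l)⁻¹ : Rˣ) : R) = 1 := Units.mul_inv _
    linear_combination (r * ((d l : R) * (((d l)⁻¹ : Rˣ) : R))) * h1 + r * h2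
  rw [e'] at e
  rw [← e]
  group

theorem Diag.inv {g : St R} {d : ℕ → Rˣ} (h : Diag g d) : Diag g⁻¹ d⁻¹ := by
  intro k l hkl r
  have e := mono_inv_conj h hkl r
  simp only [Equiv.Perm.coe_one, id_eq] at e ⊢
  rw [inv_inv, e]
  simp

theorem Diag.conj {g a : St R} {π : Equiv.Perm ℕ} {d α : ℕ → Rˣ} (h : (stSys R).Mono g π d)
    (ha : Diag a α) : Diag (g * a * g⁻¹) (fun k => α (π.symm k)) := by
  intro k l hkl r
  obtain ⟨k, rfl⟩ := π.surjective k
  obtain ⟨l, rfl⟩ := π.surjective l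
  have hkl' : k ≠ l := fun e => hkl (by rw [e])
  have e1 := mono_inv_conj h hkl' r
  have e2 := ha k l hkl' ((((d k)⁻¹ : Rˣ) : R) * r * (d l : R))
  have e3 := h k l hkl' ((α k : R) * ((((d k)⁻¹ : Rˣ) : R) * r * (d l : R)) *
    (((α l)⁻¹ : Rˣ) : R))
  simp only [Equiv.Perm.coe_one, id_eq, Equiv.symm_apply_apply] at e2 ⊢
  have : g * a * g⁻¹ * (stSys R).x (π k) (π l) r * (g * a * g⁻¹)⁻¹ =
      g * (a * (g⁻¹ * (stSys R).x (π k) (π l) r * g) * a⁻¹) * g⁻¹ := by group
  rw [this, e1, e2, e3]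
  congr 1
  have h1 : (d k : R) * (((d k)⁻¹ : Rˣ) : R) = 1 := Units.mul_inv _
  have h2 : (d l : R) * (((d l)⁻¹ : Rˣ) : R) = 1 := Units.mul_inv _
  linear_combination
    ((α k : R) * r * (((α l)⁻¹ : Rˣ) : R) * ((d l : R) * (((d l)⁻¹ : Rˣ) : R))) * h1 +
      ((α k : R) * r * (((α l)⁻¹ : Rˣ) : R)) * h2

theorem Diag.comm_x {g : St R} {d : ℕ → Rˣ} (h : Diag g d) {k l : ℕ} (hkl : k ≠ l)
    (hd : d k = d l) (r : R) : Commute g ((stSys R).x k l r) := by
  have e := h k l hkl r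
  simp only [Equiv.Perm.coe_one, id_eq] at e
  have e' : (d k : R) * r * (((d l)⁻¹ : Rˣ) : R) = r := by
    have h2 : (d l : R) * (((d l)⁻¹ : Rˣ) : R) = 1 := Units.mul_inv _
    rw [hd]
    linear_combination r * h2
  rw [e'] at e
  rw [Commute, SemiconjBy, ← mul_inv_eq_iff_eq_mul, e]

theorem Diag.comm_h {g : St R} {d : ℕ → Rˣ} (h : Diag g d) {k l : ℕ} (hkl : k ≠ l)
    (hd : d k = d l) (v : Rˣ) : Commute g ((stSys R).h k l v) := by
  have hw : ∀ v : Rˣ, Commute g ((stSys R).w k l v) := fun v =>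
    ((h.comm_x hkl hd _).mul_right (h.comm_x hkl.symm hd.symm _)).mul_right (h.comm_x hkl hd _)
  exact (hw v).mul_right (hw _)

theorem central_of_gen {z : St R} (h : ∀ k l, k ≠ l → ∀ r, Commute z ((stSys R).x k l r))
    (g : St R) : Commute z g := by
  have : g ∈ Subgroup.centralizer ({z} : Set (St R)) := by
    refine PresentedGroup.generated_by (rels R) _ (fun j => ?_) g
    obtain ⟨⟨⟨k, l⟩, hkl⟩, r⟩ := j
    rw [Subgroup.mem_centralizer_iff]
    intro y hy
    rw [Set.mem_singleton_iff.1 hy]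
    have := h k l hkl r
    change Commute z (stx R k l r) at this
    rw [stx_of_ne R hkl] at this
    exact this.eq
  exact Subgroup.mem_centralizer_iff.1 this z rfl

/-- equality up to a central element -/
def Sim (a a' : St R) : Prop := ∃ z : St R, (∀ g, Commute z g) ∧ a' = z * a

theorem Diag.sim {a a' : St R} {d d' : ℕ → Rˣ} (h : Diag a d) (h' : Diag a' d') (e : d = d') :
    Sim a a' := by
  subst e
  refine ⟨a' * a⁻¹, central_of_gen fun k l hkl r => ?_, by group⟩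
  exact (h'.mul h.inv).comm_x hkl (by simp) r

theorem Sim.comm {a a' b : St R} (h : Sim a a') (hb : Commute a b) : Commute a' b := by
  obtain ⟨z, hz, rfl⟩ := h
  exact (hz b).mul_left hb

variable {M : Type} [AddCommGroup M] {φ : St R → St R → St R → M}

theorem has5_nat : Has5 ℕ := fun i j k l => ⟨i + j + k + l + 1, by omega, by omega, by omega,
  by omega⟩

theorem tor_central (hc : ClaimCentral) (he : ClaimExt) (hφ : IsCoc3 φ) {z b c : St R}
    (hz : ∀ g, Commute z g) (hbc : Commute b c) : tor φ z b c = 0 := by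
  obtain ⟨E, _, π, hπ, hker, hsym⟩ := he (St R) M (sl φ z)
    fun g h k => dl2_sl hφ (hz g) (hz h) (hz k)
  obtain ⟨S', hS'⟩ := hc ℕ R (St R) E (stSys R) has5_nat π hπ hker
  let f : Gen R → E := fun j => S'.x j.1.1.1 j.1.1.2 j.2
  have hf : ∀ r ∈ rels R, FreeGroup.lift f r = 1 := by
    rintro w ((⟨i, j, h, a, b, rfl⟩ | ⟨i, j, k, l, hij, hkl, a, b, hjk, hil, rfl⟩) |
      ⟨i, j, l, hij, hjl, hil, a, b, rfl⟩)
    · simp only [x, map_mul, map_inv, FreeGroup.lift_apply_of, f]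
      rw [S'.add i j h, mul_inv_cancel]
    · simp only [x, map_mul, map_inv, FreeGroup.lift_apply_of, f]
      rw [(S'.comm i j k l hij hkl hjk hil a b).eq]
      group
    · simp only [x, map_mul, map_inv, FreeGroup.lift_apply_of, f]
      rw [S'.brk i j l hij hjl hil, mul_inv_cancel]
  let s : St R →* E := PresentedGroup.toGroup hf
  have hs : π.comp s = MonoidHom.id _ := by
    refine PresentedGroup.ext fun j => ?_
    obtain ⟨⟨⟨k, l⟩, hkl⟩, r⟩ := j
    simp only [MonoidHom.comp_apply, s, PresentedGroup.toGroup.of, f, MonoidHom.id_apply]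
    rw [hS' k l hkl]
    exact stx_of_ne R hkl r
  have hs' : ∀ g, π (s g) = g := fun g => DFunLike.congr_fun hs g
  have := hsym (s b) (s c) (hbc.map s)
  rw [hs', hs'] at this
  rw [tor_eq_sl, this, sub_self]

theorem tor_sim1 (hc : ClaimCentral) (he : ClaimExt) (hφ : IsCoc3 φ) {a a' b c : St R}
    (h : Sim a a') (hab : Commute a b) (hac : Commute a c) (hbc : Commute b c) :
    tor φ a' b c = tor φ a b c := by
  obtain ⟨z, hz, rfl⟩ := h
  rw [tor_mul1 hφ (hz b) (hz c) hab hac hbc, tor_central hc he hφ hz hbc, zero_add]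

theorem tor_sim (hc : ClaimCentral) (he : ClaimExt) (hφ : IsCoc3 φ) {a a' b b' c c' : St R}
    (ha : Sim a a') (hb : Sim b b') (hc' : Sim c c') (hab : Commute a b) (hac : Commute a c)
    (hbc : Commute b c) : tor φ a' b' c' = tor φ a b c := by
  have h1 : Commute b c' := (hc'.comm hbc.symm).symm
  have h2 : Commute a c' := (hc'.comm hac.symm).symm
  have h3 : Commute a b' := (hb.comm hab.symm).symm
  have h4 : Commute b' c' := hb.comm h1
  rw [tor_sim1 hc he hφ ha h3 h2 h4, ← tor_rot φ a b' c',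
    tor_sim1 hc he hφ hb h1 hab.symm h2.symm, ← tor_rot φ b c' a,
    tor_sim1 hc he hφ hc' hac.symm hbc.symm hab, tor_rot φ c a b]

/-- `g` commutes with `b`, `c` and the torus value vanishes. -/
def Nul (φ : St R → St R → St R → M) (b c g : St R) : Prop :=
  Commute g b ∧ Commute g c ∧ tor φ g b c = 0

theorem Nul.mul (hφ : IsCoc3 φ) {b c g g' : St R} (hbc : Commute b c) (h : Nul φ b c g)
    (h' : Nul φ b c g') : Nul φ b c (g * g') :=
  ⟨h.1.mul_left h'.1, h.2.1.mul_left h'.2.1, by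
    rw [tor_mul1 hφ h.1 h.2.1 h'.1 h'.2.1 hbc, h.2.2, h'.2.2, add_zero]⟩

theorem nul_comm (hφ : IsCoc3 φ) {b c g g' : St R} (hbc : Commute b c) (h1 : Commute g b)
    (h2 : Commute g c) (h3 : Commute g' b) (h4 : Commute g' c) :
    tor φ (g * g' * g⁻¹ * g'⁻¹) b c = 0 := by
  rw [tor_mul1 hφ ((h1.mul_left h3).mul_left h1.inv_left) ((h2.mul_left h4).mul_left h2.inv_left)
      h3.inv_left h4.inv_left hbc,
    tor_mul1 hφ (h1.mul_left h3) (h2.mul_left h4) h1.inv_left h2.inv_left hbc,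
    tor_mul1 hφ h1 h2 h3 h4 hbc, tor_inv1 hφ h1 h2 hbc, tor_inv1 hφ h3 h4 hbc]
  abel

theorem nul_h (hφ : IsCoc3 φ) {b c : St R} {β γ : ℕ → Rˣ} (hb : Diag b β) (hc : Diag c γ)
    (hbc : Commute b c) {k l m : ℕ} (hkl : k ≠ l) (hkm : k ≠ m) (hlm : l ≠ m)
    (b1 : β k = β l) (b2 : β k = β m) (c1 : γ k = γ l) (c2 : γ k = γ m) (u : Rˣ) :
    Nul φ b c ((stSys R).h k l u) := by
  have key : ∀ k l, k ≠ l → k ≠ m → l ≠ m → β k = β m → β l = β m → γ k = γ m → γ l = γ m →
      ∀ r, Nul φ b c ((stSys R).x k l r) := by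
    intro k l hkl hkm hlm b1 b2 c1 c2 r
    refine ⟨(hb.comm_x hkl (b1.trans b2.symm) r).symm, (hc.comm_x hkl (c1.trans c2.symm) r).symm,
      ?_⟩
    have e := (stSys R).brk k m l hkm hlm.symm hkl r 1
    rw [mul_one] at e
    rw [← e]
    exact nul_comm hφ hbc (hb.comm_x hkm b1 r).symm (hc.comm_x hkm c1 r).symm
      (hb.comm_x hlm.symm b2.symm 1).symm (hc.comm_x hlm.symm c2.symm 1).symm
  have k1 := key k l hkl hkm hlm b2 (b1.symm.trans b2) c2 (c1.symm.trans c2)
  have k2 := key l k hkl.symm hlm hkm (b1.symm.trans b2) b2 (c1.symm.trans c2) c2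
  have hw : ∀ v : Rˣ, Nul φ b c ((stSys R).w k l v) := fun v =>
    ((k1 _).mul hφ hbc (k2 _)).mul hφ hbc (k1 _)
  exact (hw u).mul hφ hbc (hw _)

theorem has5_fin : Has5 (Fin 5) := by
  unfold Has5
  decide

theorem has3_fin : Has3 (Fin 5) := by
  unfold Has3
  decide

theorem tor_stein (hs : ClaimStein) (hc : ClaimCentral) (he : ClaimExt) (hφ : IsCoc3 φ)
    {c : St R} {γ : ℕ → Rˣ} (hγ : Diag c γ) (ι : Fin 5 → ℕ) (hι : Function.Injective ι)
    (hc' : ∀ k l, γ (ι k) = γ (ι l)) {u v : Rˣ} (huv : (u : R) + (v : R) = 1) :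
    tor φ ((stSys R).h (ι 0) (ι 1) u) ((stSys R).h (ι 0) (ι 1) v) c = 0 := by
  let H : Subgroup (St R) := Subgroup.centralizer {c}
  have hH : ∀ g : H, Commute c (g : St R) := fun g =>
    Subgroup.mem_centralizer_iff.1 g.2 c rfl
  have hx : ∀ k l : Fin 5, ∀ r, (stSys R).x (ι k) (ι l) r ∈ H := by
    intro k l r
    rw [Subgroup.mem_centralizer_iff]
    intro y hy
    rw [Set.mem_singleton_iff.1 hy]
    by_cases hkl : k = l
    · subst hkl
      change c * stx R _ _ r = stx R _ _ r * c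
      simp [stx]
    · exact (hγ.comm_x (hι.ne hkl) (hc' k l) r).eq
  let S : SteinSys (Fin 5) R H :=
    { x := fun k l r => ⟨(stSys R).x (ι k) (ι l) r, hx k l r⟩
      add := fun i j h a b => Subtype.ext ((stSys R).add _ _ (hι.ne h) a b)
      comm := fun i j k l h1 h2 h3 h4 a b => Subtype.ext
        ((stSys R).comm _ _ _ _ (hι.ne h1) (hι.ne h2) (hι.ne h3) (hι.ne h4) a b).eq
      brk := fun i j l h1 h2 h3 a b => Subtype.ext
        ((stSys R).brk _ _ _ (hι.ne h1) (hι.ne h2) (hι.ne h3) a b) }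
  obtain ⟨E, _, π, hπ, hker, hsym⟩ := he H M (fun g h => sl φ c g h)
    fun g h k => dl2_sl hφ (hH g) (hH h) (hH k)
  obtain ⟨S', hS'⟩ := hc (Fin 5) R H E S has5_fin π hπ hker
  have h01 : (0 : Fin 5) ≠ 1 := by decide
  have hh : ∀ t : Rˣ, ((π (S'.h 0 1 t) : H) : St R) = (stSys R).h (ι 0) (ι 1) t := by
    intro t
    simp only [SteinSys.h, SteinSys.w, map_mul, hS' 0 1 h01, hS' 1 0 h01.symm]
    rfl
  have := hsym _ _ ((hs (Fin 5) R E S' has3_fin 0 1 h01).2.2 u v huv)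
  simp only [hh] at this
  rw [tor_rot φ c, tor_eq_sl, this, sub_self]

/-- the exponents of `h i j` -/
def ex (i j k : ℕ) : ℤ := if k = i then 1 else if k = j then -1 else 0

theorem has3_nat : Has3 ℕ := fun i j => ⟨i + j + 1, by omega, by omega⟩

/-- `g` acts like the diagonal matrix with entries `u ^ e k`. -/
def Dg (g : St R) (u : Rˣ) (e : ℕ → ℤ) : Prop := Diag g fun k => u ^ e k

theorem dg_h (hs : ClaimStein) {i j : ℕ} (hij : i ≠ j) (u : Rˣ) :
    Dg ((stSys R).h i j u) u (ex i j) := by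
  have := (hs ℕ R (St R) (stSys R) has3_nat i j hij).2.1 u
  unfold Dg Diag
  convert this using 2 with k
  unfold ex
  split_ifs <;> simp

theorem Dg.mul {g g' : St R} {u : Rˣ} {e e' : ℕ → ℤ} (h : Dg g u e) (h' : Dg g' u e') :
    Dg (g * g') u (e + e') := by
  have := Diag.mul h h'
  unfold Dg
  convert this using 2 with k
  simp [zpow_add]

theorem Dg.inv {g : St R} {u : Rˣ} {e : ℕ → ℤ} (h : Dg g u e) : Dg g⁻¹ u (-e) := by
  have := Diag.inv h
  unfold Dg
  convert this using 2 with k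
  simp

theorem Dg.sim {a a' : St R} {u : Rˣ} {e e' : ℕ → ℤ} (h : Dg a u e) (h' : Dg a' u e')
    (he : ∀ k, e k = e' k) : Sim a a' :=
  Diag.sim h h' (by funext k; rw [he k])

theorem Dg.comm_h {g : St R} {u : Rˣ} {e : ℕ → ℤ} (h : Dg g u e) {k l : ℕ} (hkl : k ≠ l)
    (hd : e k = e l) (v : Rˣ) : Commute g ((stSys R).h k l v) :=
  Diag.comm_h h hkl (by simp only [hd]) v

theorem dg_a (hs : ClaimStein) (u : Rˣ) : Dg (ta u) u (ex 0 2 + ex 1 3) :=
  (dg_h hs (by decide) u).mul (dg_h hs (by decide) u)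

theorem dg_b (hs : ClaimStein) (u : Rˣ) : Dg (tb u) u (ex 0 1 + ex 2 3) :=
  (dg_h hs (by decide) u).mul (dg_h hs (by decide) u)

theorem dg_c (hs : ClaimStein) (u : Rˣ) : Dg (tc u) u (ex 0 1 + ex 3 2) :=
  (dg_h hs (by decide) u).mul (dg_h hs (by decide) u)

theorem comm_ab (hs : ClaimStein) (u v : Rˣ) : Commute (ta u) (tb v) :=
  ((dg_a hs u).comm_h (by decide) (by decide) v).mul_right
    ((dg_a hs u).comm_h (by decide) (by decide) v)

theorem comm_ac (hs : ClaimStein) (u v : Rˣ) : Commute (ta u) (tc v) :=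
  ((dg_a hs u).comm_h (by decide) (by decide) v).mul_right
    ((dg_a hs u).comm_h (by decide) (by decide) v)

theorem comm_bc (hs : ClaimStein) (u v : Rˣ) : Commute (tb u) (tc v) := by
  have h1 : Commute (tb u) ((stSys R).h 0 2 v * (stSys R).h 3 1 v) :=
    ((dg_b hs u).comm_h (by decide) (by decide) v).mul_right
      ((dg_b hs u).comm_h (by decide) (by decide) v)
  have h2 : Sim ((stSys R).h 0 2 v * (stSys R).h 3 1 v) (tc v) :=
    ((dg_h hs (by decide) v).mul (dg_h hs (by decide) v)).sim (dg_c hs v) fun k => by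
      rcases k with _ | _ | _ | _ | k <;> simp [ex]
  exact (h2.comm h1.symm).symm

theorem Sim.refl (a : St R) : Sim a a := ⟨1, fun g => Commute.one_left g, (one_mul a).symm⟩

theorem tau_mul (hs : ClaimStein) (hc : ClaimCentral) (he : ClaimExt) (hφ : IsCoc3 φ)
    (u u' v w : Rˣ) : tor φ (ta (u * u')) (tb v) (tc w) =
      tor φ (ta u) (tb v) (tc w) + tor φ (ta u') (tb v) (tc w) := by
  have h : Sim (ta u * ta u') (ta (u * u')) :=
    Diag.sim (Diag.mul (dg_a hs u) (dg_a hs u')) (dg_a hs (u * u')) (by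
      funext k
      simp only [Pi.mul_apply, mul_zpow])
  rw [tor_sim1 hc he hφ h ((comm_ab hs u v).mul_left (comm_ab hs u' v))
      ((comm_ac hs u w).mul_left (comm_ac hs u' w)) (comm_bc hs v w),
    tor_mul1 hφ (comm_ab hs u v) (comm_ac hs u w) (comm_ab hs u' v) (comm_ac hs u' w)
      (comm_bc hs v w)]

theorem conj_comm (g : St R) {a b : St R} (h : Commute a b) :
    Commute (g * a * g⁻¹) (g * b * g⁻¹) := h.map (MulAut.conj g)

theorem Dg.conj {g a : St R} {π : Equiv.Perm ℕ} {d : ℕ → Rˣ} (h : (stSys R).Mono g π d)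
    {u : Rˣ} {e : ℕ → ℤ} (ha : Dg a u e) : Dg (g * a * g⁻¹) u (fun k => e (π.symm k)) :=
  Diag.conj h ha

theorem tau_swap12 (hs : ClaimStein) (hc : ClaimCentral) (he : ClaimExt) (hφ : IsCoc3 φ)
    (u v w : Rˣ) : tor φ (ta v) (tb u) (tc w) = - tor φ (ta u) (tb v) (tc w) := by
  have hg := (hs ℕ R (St R) (stSys R) has3_nat 1 2 (by decide)).1 1
  set g := (stSys R).w 1 2 1
  have h1 : Sim (g * ta u * g⁻¹) (tb u) := ((dg_a hs u).conj hg).sim (dg_b hs u) fun k => by
    rcases k with _ | _ | _ | _ | k <;> simp [ex, Equiv.swap_apply_def]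
  have h2 : Sim (g * tb v * g⁻¹) (ta v) := ((dg_b hs v).conj hg).sim (dg_a hs v) fun k => by
    rcases k with _ | _ | _ | _ | k <;> simp [ex, Equiv.swap_apply_def]
  have h3 : Sim (g * tc w * g⁻¹) (tc w) := ((dg_c hs w).conj hg).sim (dg_c hs w) fun k => by
    rcases k with _ | _ | _ | _ | k <;> simp [ex, Equiv.swap_apply_def]
  rw [tor_swap12, tor_sim hc he hφ h1 h2 h3 (conj_comm g (comm_ab hs u v))
    (conj_comm g (comm_ac hs u w)) (conj_comm g (comm_bc hs v w)),
    tor_conj hφ g (comm_ab hs u v) (comm_ac hs u w) (comm_bc hs v w)]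

theorem tau_swap23 (hs : ClaimStein) (hc : ClaimCentral) (he : ClaimExt) (hφ : IsCoc3 φ)
    (u v w : Rˣ) : tor φ (ta u) (tb w) (tc v) = - tor φ (ta u) (tb v) (tc w) := by
  have hg := (hs ℕ R (St R) (stSys R) has3_nat 2 3 (by decide)).1 1
  set g := (stSys R).w 2 3 1
  have h1 : Sim (g * ta u * g⁻¹) (ta u) := ((dg_a hs u).conj hg).sim (dg_a hs u) fun k => by
    rcases k with _ | _ | _ | _ | k <;> simp [ex, Equiv.swap_apply_def]
  have h2 : Sim (g * tb v * g⁻¹) (tc v) := ((dg_b hs v).conj hg).sim (dg_c hs v) fun k => by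
    rcases k with _ | _ | _ | _ | k <;> simp [ex, Equiv.swap_apply_def]
  have h3 : Sim (g * tc w * g⁻¹) (tb w) := ((dg_c hs w).conj hg).sim (dg_b hs w) fun k => by
    rcases k with _ | _ | _ | _ | k <;> simp [ex, Equiv.swap_apply_def]
  rw [tor_swap23, tor_sim hc he hφ h1 h2 h3 (conj_comm g (comm_ab hs u v))
    (conj_comm g (comm_ac hs u w)) (conj_comm g (comm_bc hs v w)),
    tor_conj hφ g (comm_ab hs u v) (comm_ac hs u w) (comm_bc hs v w)]

theorem tau_stein (hs : ClaimStein) (hc : ClaimCentral) (he : ClaimExt) (hφ : IsCoc3 φ)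
    (u v w : Rˣ) (huv : (u : R) + (v : R) = 1) : tor φ (ta u) (tb v) (tc w) = 0 := by
  have hab := comm_ab hs u v
  have n : ∀ k l, 4 ≤ k → 4 ≤ l → k ≠ l → Nul φ (ta u) (tb v) ((stSys R).h k l w) := by
    intro k l hk hl hkl
    have ea : ∀ k, 4 ≤ k → (ex 0 2 + ex 1 3) k = 0 := fun k hk => by
      simp only [Pi.add_apply, ex]; split_ifs <;> omega
    have eb : ∀ k, 4 ≤ k → (ex 0 1 + ex 2 3) k = 0 := fun k hk => by
      simp only [Pi.add_apply, ex]; split_ifs <;> omega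
    exact nul_h hφ (dg_a hs u) (dg_b hs v) hab (m := k + l) hkl (by omega) (by omega)
      (by simp only [ea k hk, ea l hl]) (by simp only [ea k hk, ea (k + l) (by omega)])
      (by simp only [eb k hk, eb l hl]) (by simp only [eb k hk, eb (k + l) (by omega)]) w
  have n' : Nul φ (ta u) (tb v) ((stSys R).h 4 7 w * (stSys R).h 5 8 w * (stSys R).h 6 9 w) :=
    ((n 4 7 (by decide) (by decide) (by decide)).mul hφ hab
      (n 5 8 (by decide) (by decide) (by decide))).mul hφ hab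
      (n 6 9 (by decide) (by decide) (by decide))
  set c₀ := (stSys R).h 4 7 w * (stSys R).h 5 8 w * (stSys R).h 6 9 w with hc₀
  have hc' : Dg (tc w * c₀) w (ex 0 1 + ex 3 2 + (ex 4 7 + ex 5 8 + ex 6 9)) :=
    (dg_c hs w).mul (((dg_h hs (by decide) w).mul (dg_h hs (by decide) w)).mul
      (dg_h hs (by decide) w))
  have e1 : tor φ (ta u) (tb v) (tc w * c₀) = tor φ (ta u) (tb v) (tc w) := by
    rw [tor_mul3 hφ hab (comm_ac hs u w) n'.1.symm (comm_bc hs v w) n'.2.1.symm,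
      tor_rot φ c₀, n'.2.2, add_zero]
  rw [← e1]
  set c := tc w * c₀
  have d03 : ∀ t : Rˣ, Dg ((stSys R).h 0 3 t) t (ex 0 3) := fun t => dg_h hs (by decide) t
  have d12 : ∀ t : Rˣ, Dg ((stSys R).h 1 2 t) t (ex 1 2) := fun t => dg_h hs (by decide) t
  have s1 : Sim ((stSys R).h 0 3 u * (stSys R).h 1 2 u) (ta u) :=
    ((d03 u).mul (d12 u)).sim (dg_a hs u) fun k => by
      rcases k with _ | _ | _ | _ | k <;> simp [ex]
  have s2 : Sim ((stSys R).h 0 3 v * ((stSys R).h 1 2 v)⁻¹) (tb v) :=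
    ((d03 v).mul (d12 v).inv).sim (dg_b hs v) fun k => by
      rcases k with _ | _ | _ | _ | k <;> simp [ex]
  have c11 : Commute ((stSys R).h 0 3 u) ((stSys R).h 0 3 v) :=
    (hs ℕ R (St R) (stSys R) has3_nat 0 3 (by decide)).2.2 u v huv
  have c22 : Commute ((stSys R).h 1 2 u) ((stSys R).h 1 2 v) :=
    (hs ℕ R (St R) (stSys R) has3_nat 1 2 (by decide)).2.2 u v huv
  have c12 : ∀ s t : Rˣ, Commute ((stSys R).h 0 3 s) ((stSys R).h 1 2 t) := fun s t =>
    (d03 s).comm_h (by decide) (by decide) t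
  have c1 : ∀ t : Rˣ, Commute ((stSys R).h 0 3 t) c := fun t =>
    (hc'.comm_h (by decide) (by decide) t).symm
  have c2 : ∀ t : Rˣ, Commute ((stSys R).h 1 2 t) c := fun t =>
    (hc'.comm_h (by decide) (by decide) t).symm
  have t11 : tor φ ((stSys R).h 0 3 u) ((stSys R).h 0 3 v) c = 0 :=
    tor_stein hs hc he hφ hc' ![0, 3, 4, 5, 6] (by decide) (fun k l => by
      have : ∀ k : Fin 5, (ex 0 1 + ex 3 2 + (ex 4 7 + ex 5 8 + ex 6 9)) (![0, 3, 4, 5, 6] k) = 1 := by
        decide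
      simp only [this]) huv
  have t22 : tor φ ((stSys R).h 1 2 u) ((stSys R).h 1 2 v) c = 0 :=
    tor_stein hs hc he hφ hc' ![1, 2, 7, 8, 9] (by decide) (fun k l => by
      have : ∀ k : Fin 5,
          (ex 0 1 + ex 3 2 + (ex 4 7 + ex 5 8 + ex 6 9)) (![1, 2, 7, 8, 9] k) = -1 := by
        decide
      simp only [this]) huv
  have t12 : tor φ ((stSys R).h 0 3 u) ((stSys R).h 1 2 v) c = 0 :=
    (nul_h hφ (d12 v) hc' (c2 v) (k := 0) (l := 3) (m := 4) (by decide) (by decide) (by decide)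
      rfl rfl rfl rfl u).2.2
  have t21 : tor φ ((stSys R).h 1 2 u) ((stSys R).h 0 3 v) c = 0 :=
    (nul_h hφ (d03 v) hc' (c1 v) (k := 1) (l := 2) (m := 7) (by decide) (by decide) (by decide)
      rfl rfl rfl rfl u).2.2
  have inv2 : ∀ a b : St R, Commute a b → Commute a c → Commute b c → tor φ a b c = 0 →
      tor φ a b⁻¹ c = 0 := by
    intro a b h1 h2 h3 h4
    rw [tor_swap12, tor_inv1 hφ h1.symm h3 h2, tor_swap12, h4]
    simp
  rw [tor_sim hc he hφ s1 s2 (Sim.refl c)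
      ((c11.mul_right (c12 u v).inv_right).mul_left
        ((c12 v u).symm.mul_right c22.inv_right))
      ((c1 u).mul_left (c2 u)) ((c1 v).mul_left (c2 v).inv_left),
    tor_mul1 hφ (c11.mul_right (c12 u v).inv_right) (c1 u)
      ((c12 v u).symm.mul_right c22.inv_right) (c2 u) ((c1 v).mul_left (c2 v).inv_left),
    tor_mul2 hφ c11 (c12 u v).inv_right (c1 u) (c1 v) (c2 v).inv_left,
    tor_mul2 hφ (c12 v u).symm c22.inv_right (c2 u) (c1 v) (c2 v).inv_left,
    t11, t21, inv2 _ _ (c12 u v) (c1 u) (c2 v) t12, inv2 _ _ c22 (c2 u) (c2 v) t22]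
  simp

end TauAux

theorem claimTau (hs : ClaimStein) (hc : ClaimCentral) (he : ClaimExt) : ClaimTau := by
  intro R _
  refine ⟨fun u v => ⟨TauAux.comm_ab hs u v, TauAux.comm_ac hs u v, TauAux.comm_bc hs u v⟩,
    fun M _ φ hφ => ⟨fun a a' b c => TauAux.tau_mul hs hc he hφ a a' b c,
      fun a b c => TauAux.tau_swap12 hs hc he hφ a b c,
      fun a b c => TauAux.tau_swap23 hs hc he hφ a b c,
      fun a b c h => TauAux.tau_stein hs hc he hφ a b c h⟩⟩

end Crest.Agent.R171
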