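import Crest.Agent.R171.Coc

/-!
Row 171: the cocycle on `GL_N(A)` pulled back to finite parts of the Steinberg group.
-/

set_option autoImplicit false

namespace Crest.Agent.R171

open Crest.AlgebraR.Steinberg Filter

namespace TransferAux

variable {R A : Type} [CommRing R] [CommRing A]

/-- The elementary operator on sequences. -/
def El (i j : ℕ) (a : A) : Module.End A (ℕ → A) where
  toFun v m := v m + if m = i then a * v j else 0
  map_add' v w := by
    funext m
    simp only [Pi.add_apply]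
    split_ifs <;> ring
  map_smul' c v := by
    funext m
    simp only [Pi.smul_apply, smul_eq_mul, RingHom.id_apply]
    split_ifs <;> ring

theorem El_apply (i j : ℕ) (a : A) (v : ℕ → A) (m : ℕ) :
    El i j a v m = v m + if m = i then a * v j else 0 := rfl

theorem El_mul {i j : ℕ} (h : i ≠ j) (a b : A) : El i j a * El i j b = El i j (a + b) := by
  ext v m
  simp only [Module.End.mul_apply, El_apply, h.symm, if_false]
  split_ifs <;> ring

theorem El_zero (i j : ℕ) : El i j (0 : A) = 1 := by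
  ext v m
  simp [El_apply]

/-- The elementary operator as a unit. -/
def el (i j : ℕ) (h : i ≠ j) (a : A) : (Module.End A (ℕ → A))ˣ :=
  ⟨El i j a, El i j (-a), by rw [El_mul h, add_neg_cancel, El_zero],
    by rw [El_mul h, neg_add_cancel, El_zero]⟩

/-- The standard representation of the Steinberg group. -/
def rho (θ : R →+* A) : St R →* (Module.End A (ℕ → A))ˣ :=
  PresentedGroup.toGroup (f := fun g : Gen R => el g.1.1.1 g.1.1.2 g.1.2 (θ g.2)) (by
    rintro _ ((⟨i, j, h, a, b, rfl⟩ | ⟨i, j, k, l, hij, hkl, a, b, hjk, hil, rfl⟩) |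
      ⟨i, j, l, hij, hjl, hil, a, b, rfl⟩) <;>
      simp only [x, map_mul, map_inv, FreeGroup.lift_apply_of, mul_inv_eq_one, map_add]
    · exact Units.ext (El_mul h _ _)
    · rw [mul_inv_eq_iff_eq_mul]
      ext v m
      simp only [el, Units.val_mul, Module.End.mul_apply, El_apply, hjk, hil.symm, if_false,
        add_zero]
      ring
    · rw [mul_inv_eq_iff_eq_mul, mul_inv_eq_iff_eq_mul]
      ext v m
      simp only [el, Units.val_mul, Module.End.mul_apply, El_apply, hjl.symm, hil.symm,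
        if_false, if_true]
      split_ifs <;> ring)

theorem rho_stx (θ : R →+* A) {i j : ℕ} (h : i ≠ j) (a : R) :
    (rho θ (stx R i j a) : Module.End A (ℕ → A)) = El i j (θ a) := by
  rw [stx_of_ne R h]
  exact congrArg Units.val (PresentedGroup.toGroup.of _)

/-- `g` preserves the sequences that vanish below `N`. -/
def Pres (N : ℕ) (g : (Module.End A (ℕ → A))ˣ) : Prop :=
  ∀ v : ℕ → A, (∀ m < N, v m = 0) → ∀ m < N, (g : Module.End A (ℕ → A)) v m = 0

/-- The stabiliser of the sequences that vanish below `N`. -/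
def stab (A : Type) [CommRing A] (N : ℕ) : Subgroup (Module.End A (ℕ → A))ˣ where
  carrier := {g | Pres N g ∧ Pres N g⁻¹}
  mul_mem' := fun hg hh => ⟨fun v hv => hg.1 _ (hh.1 v hv), by
    rw [mul_inv_rev]; exact fun v hv => hh.2 _ (hg.2 v hv)⟩
  one_mem' := ⟨fun _ hv => hv, fun _ hv => hv⟩
  inv_mem' := fun hg => ⟨hg.2, by rw [inv_inv]; exact hg.1⟩

theorem eventually_mem (θ : R →+* A) (g : St R) : ∀ᶠ N in atTop, rho θ g ∈ stab A N := by
  refine PresentedGroup.generated_by (rels R)
    { carrier := {g | ∀ᶠ N in atTop, rho θ g ∈ stab A N}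
      mul_mem' := fun hg hh => (Eventually.and hg hh).mono fun N h => by
        rw [map_mul]; exact mul_mem h.1 h.2
      one_mem' := Eventually.of_forall fun N => by rw [map_one]; exact one_mem _
      inv_mem' := fun hg => Eventually.mono hg fun N h => by rw [map_inv]; exact inv_mem h }
    (fun ⟨⟨⟨i, j⟩, h⟩, a⟩ => (eventually_gt_atTop j).mono fun N hN => ?_) g
  rw [rho, PresentedGroup.toGroup.of]
  exact ⟨fun v hv m hm => by simp [el, El_apply, hv m hm, hv j hN],
    fun v hv m hm => by simp [el, El_apply, hv m hm, hv j hN]⟩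

/-- Extension by zero. -/
def incl (A : Type) [CommRing A] (N : ℕ) : (Fin N → A) →ₗ[A] ℕ → A where
  toFun x m := if h : m < N then x ⟨m, h⟩ else 0
  map_add' v w := by
    funext m
    simp only [Pi.add_apply]
    split_ifs <;> simp
  map_smul' c v := by
    funext m
    simp only [Pi.smul_apply]
    split_ifs <;> simp

theorem incl_apply {N : ℕ} (x : Fin N → A) (m : Fin N) : incl A N x m = x m := dif_pos m.2

/-- The induced action on the first `N` coordinates. -/
def trunc (A : Type) [CommRing A] (N : ℕ) : stab A N →* Module.End A (Fin N → A) where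
  toFun g := LinearMap.funLeft A A Fin.val ∘ₗ (g.1 : Module.End A (ℕ → A)) ∘ₗ incl A N
  map_one' := LinearMap.ext fun x => funext fun m => incl_apply x m
  map_mul' g h := LinearMap.ext fun x => funext fun m => by
    have := g.2.1 ((h.1 : Module.End A (ℕ → A)) (incl A N x) - incl A N fun m =>
      (h.1 : Module.End A (ℕ → A)) (incl A N x) m) (fun k hk =>
        sub_eq_zero.2 (incl_apply (fun m : Fin N =>
          (h.1 : Module.End A (ℕ → A)) (incl A N x) m) ⟨k, hk⟩).symm) m m.2
    rw [map_sub] at this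
    exact sub_eq_zero.1 this

open Classical in
/-- The truncation, extended by `1`. -/
noncomputable def tr (N : ℕ) (g : (Module.End A (ℕ → A))ˣ) : GLN A N :=
  if h : g ∈ stab A N then (trunc A N).toHomUnits ⟨g, h⟩ else 1

theorem tr_mul {N : ℕ} {g h : (Module.End A (ℕ → A))ˣ} (hg : g ∈ stab A N) (hh : h ∈ stab A N) :
    tr N (g * h) = tr N g * tr N h := by
  rw [tr, tr, tr, dif_pos hg, dif_pos hh, dif_pos (mul_mem hg hh), ← map_mul]
  rfl

/-- Diagonal matrices. -/
def dg (A : Type) [CommRing A] (N : ℕ) : (ℕ → Aˣ) →* GLN A N :=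
  MonoidHom.toHomUnits
    { toFun α := LinearMap.pi fun m : Fin N => (α m : A) • LinearMap.proj m
      map_one' := by ext; simp
      map_mul' α β := LinearMap.ext fun x => funext fun m => by simp [mul_assoc] }

theorem isDiag_dg {N i : ℕ} (hi : i < N) (u : Aˣ) :
    IsDiag (dg A N (Pi.mulSingle i u)) (Pi.mulSingle ⟨i, hi⟩ u) := fun x m => by
  simp [dg, Pi.mulSingle_apply, Fin.ext_iff]

/-- Diagonal operators on sequences. -/
def Dg (g : (Module.End A (ℕ → A))ˣ) (α : ℕ → Aˣ) : Prop :=
  ∀ v m, (g : Module.End A (ℕ → A)) v m = α m * v m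

theorem Dg.mul {g h : (Module.End A (ℕ → A))ˣ} {α β : ℕ → Aˣ} (hg : Dg g α) (hh : Dg h β) :
    Dg (g * h) (α * β) := fun v m => by
  rw [Units.val_mul, Module.End.mul_apply, hg, hh, Pi.mul_apply, Units.val_mul, mul_assoc]

theorem Dg.tr_eq {g : (Module.End A (ℕ → A))ˣ} {α : ℕ → Aˣ} (hg : Dg g α) (N : ℕ) :
    tr N g = dg A N α := by
  have h : g ∈ stab A N := ⟨fun v hv m hm => by rw [hg, hv m hm, mul_zero], fun v hv m hm => by
    have := hg ((g⁻¹ : (Module.End A (ℕ → A))ˣ).1 v) m
    rw [← Module.End.mul_apply, Units.mul_inv, Module.End.one_apply, hv m hm] at this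
    exact (α m).mul_right_eq_zero.1 this.symm⟩
  rw [tr, dif_pos h]
  exact Units.ext (LinearMap.ext fun x => funext fun m =>
    (hg _ m).trans (congrArg _ (incl_apply x m)))

theorem rho_w (θ : R →+* A) {i j : ℕ} (h : i ≠ j) (u : Rˣ) (v : ℕ → A) (m : ℕ) :
    (rho θ ((stSys R).w i j u) : Module.End A (ℕ → A)) v m =
      if m = i then θ u * v j else if m = j then -θ (u⁻¹ : Rˣ) * v i else v m := by
  have h1 : θ u * θ (u⁻¹ : Rˣ) = 1 := by rw [← map_mul, Units.mul_inv, map_one]
  simp only [SteinSys.w, stSys, map_mul, Units.val_mul, rho_stx θ h, rho_stx θ h.symm,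
    Module.End.mul_apply, El_apply, map_neg, h.symm, if_false, if_true]
  split_ifs with h2 h3 h3
  · exact absurd (h2.symm.trans h3) h
  · rw [h2]
    linear_combination (-(v i) - θ u * v j) * h1
  · rw [h3]
    linear_combination (-(v j)) * h1
  · ring

theorem dg_h (θ : R →+* A) {i j : ℕ} (h : i ≠ j) (u : Rˣ) :
    Dg (rho θ ((stSys R).h i j u)) (Pi.mulSingle i (Units.map (θ : R →* A) u) *
      Pi.mulSingle j (Units.map (θ : R →* A) u)⁻¹) := fun v m => by
  simp only [SteinSys.h, map_mul, Units.val_mul, Module.End.mul_apply, rho_w θ h, h.symm, if_false,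
    if_true, Pi.mul_apply, Pi.mulSingle_apply]
  split_ifs with h2 h3 h3
  · exact absurd (h2.symm.trans h3) h
  · simp [h2]
  · simp [h3]
  · simp

theorem inv1 {M : Type} [AddCommGroup M] {Φ : Aˣ → Aˣ → Aˣ → M} (h : IsSymbol Φ) (a b c : Aˣ) :
    Φ a⁻¹ b c = -Φ a b c := by
  have h1 := h.mul1 1 1 b c
  have h2 := h.mul1 a a⁻¹ b c
  rw [mul_one, left_eq_add] at h1
  rw [mul_inv_cancel, h1] at h2
  exact eq_neg_of_add_eq_zero_right h2.symm

end TransferAux

open TransferAux in
theorem claimTransfer (hf : ClaimFlags) : ClaimTransfer := by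
  intro R A k _ _ _ θ π hπ Φ hΦ T
  obtain ⟨N, hN, hT⟩ := ((eventually_ge_atTop 4).and
    ((eventually_all_finset T).2 fun g _ => eventually_mem θ g)).exists
  obtain ⟨φ, hφ, hd⟩ := hf A k π hπ Φ hΦ N
  refine ⟨fun g h k => φ (tr N (rho θ g)) (tr N (rho θ h)) (tr N (rho θ k)),
    fun g hg h hh k hk l hl => ?_, fun u v w => ?_⟩
  · have := hφ (tr N (rho θ g)) (tr N (rho θ h)) (tr N (rho θ k)) (tr N (rho θ l))
    simpa only [dl3, map_mul, tr_mul (hT g hg) (hT h hh), tr_mul (hT h hh) (hT k hk),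
      tr_mul (hT k hk) (hT l hl)] using this
  have hψ := hφ.comp (dg A N)
  set ψ := fun a b c => φ (dg A N a) (dg A N b) (dg A N c) with hψ'
  have m1 : ∀ a a' b c, tor ψ (a * a') b c = tor ψ a b c + tor ψ a' b c := fun _ _ _ _ =>
    tor_mul1 hψ (.all _ _) (.all _ _) (.all _ _) (.all _ _) (.all _ _)
  have m2 : ∀ a b b' c, tor ψ a (b * b') c = tor ψ a b c + tor ψ a b' c := fun _ _ _ _ =>
    tor_mul2 hψ (.all _ _) (.all _ _) (.all _ _) (.all _ _) (.all _ _)
  have m3 : ∀ a b c c', tor ψ a b (c * c') = tor ψ a b c + tor ψ a b c' := fun _ _ _ _ =>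
    tor_mul3 hψ (.all _ _) (.all _ _) (.all _ _) (.all _ _) (.all _ _)
  have key : ∀ (i j l : ℕ) (a b c : Aˣ), i < 4 → j < 4 → l < 4 →
      tor ψ (Pi.mulSingle i a) (Pi.mulSingle j b) (Pi.mulSingle l c) =
        if i ≠ j ∧ i ≠ l ∧ j ≠ l then -Φ a b c else 0 := fun i j l a b c hi hj hl => by
    simpa only [ne_eq, Fin.mk.injEq] using! hd _ _ _ _ _ _ a b c (isDiag_dg (hi.trans_le hN) a)
      (isDiag_dg (hj.trans_le hN) b) (isDiag_dg (hl.trans_le hN) c)
  have i2 : ∀ a b c, Φ a b⁻¹ c = -Φ a b c := fun a b c => by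
    rw [hΦ.swap12, inv1 hΦ, hΦ.swap12 a b]
    simp
  have i3 : ∀ a b c, Φ a b c⁻¹ = -Φ a b c := fun a b c => by
    rw [hΦ.swap23, i2, hΦ.swap23 a b]
    simp
  have ha := ((dg_h θ (i := 0) (j := 2) (by decide) u).mul
    (dg_h θ (i := 1) (j := 3) (by decide) u)).tr_eq N
  have hb := ((dg_h θ (i := 0) (j := 1) (by decide) v).mul
    (dg_h θ (i := 2) (j := 3) (by decide) v)).tr_eq N
  have hc := ((dg_h θ (i := 0) (j := 1) (by decide) w).mul
    (dg_h θ (i := 3) (j := 2) (by decide) w)).tr_eq N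
  rw [← map_mul] at ha hb hc
  change tor φ (tr N (rho θ (ta u))) (tr N (rho θ (tb v))) (tr N (rho θ (tc w))) = _
  rw [ta, tb, tc, ha, hb, hc]
  change tor ψ _ _ _ = _
  simp (disch := decide) only [m1, m2, m3, key, inv1 hΦ, i2, i3]
  generalize Φ _ _ _ = t
  simp
  ring

end Crest.Agent.R171
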