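import Crest.Agent.R171.FlagMain
import Crest.Agent.R171.Koszul
import Crest.Agent.R171.Det
import Crest.Agent.R171.Transfer
import Crest.Agent.R171.Bridge
import Crest.Agent.R171.Tau
import Crest.Agent.R171.Stein
import Crest.Agent.R171.Central
import Crest.Agent.R171.Symbol
import Crest.Agent.R171.QModel
import Crest.Agent.R171.Ring

/-!
Row 171: assembly.
-/

set_option autoImplicit false

namespace Crest.Agent.R171

open Crest.AlgebraR.Steinberg

namespace IsSymbol

variable {A M : Type} [CommRing A] [AddCommGroup M] {τ : Aˣ → Aˣ → Aˣ → M} (h : IsSymbol τ)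
include h

theorem fin_mul2 (a b b' c : Aˣ) : τ a (b * b') c = τ a b c + τ a b' c := by
  rw [h.swap12 (b * b'), h.swap12 b, h.swap12 b', h.mul1]; abel

theorem fin_mul3 (a b c c' : Aˣ) : τ a b (c * c') = τ a b c + τ a b c' := by
  rw [h.swap23 a (c * c'), h.swap23 a c, h.swap23 a c', h.fin_mul2]; abel

theorem fin_stein23 (a b c : Aˣ) (e : (b : A) + (c : A) = 1) : τ a b c = 0 := by
  rw [h.swap12, h.swap23, h.stein b c a e]; simp

/-- the symbol computation in the fraction field -/
theorem fin_two (x y u p q s t r U₁ U₂ : Aˣ) (hs : (s : A) + x = 1) (ht : (t : A) + y = 1)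
    (hr : (r : A) + (x * x : Aˣ) = 1) (hu : u = r * r * r * r * r) (h1 : U₁ = u * s)
    (h1' : (U₁ : A) + (p * x : Aˣ) = 1) (h2 : U₂ = p * t) (h2' : (U₂ : A) + (q * y : Aˣ) = 1) :
    (2 : ℤ) • τ U₁ U₂ q = 0 := by
  have e1 := h.fin_stein23 U₁ U₂ (q * y) h2'
  rw [h.fin_mul3] at e1
  have e2 : τ U₁ U₂ y = τ U₁ p y := by
    rw [h2, h.fin_mul2, h.fin_stein23 U₁ t y ht, add_zero]
  have e3 := h.stein U₁ (p * x) y h1'
  rw [h.fin_mul2] at e3
  have e4 : τ U₁ x y = τ u x y := by
    rw [h1, h.mul1, h.stein s x y hs, add_zero]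
  have e5 : τ u (x * x) y = 0 := by
    rw [hu, h.mul1, h.mul1, h.mul1, h.mul1, h.stein r (x * x) y hr]
    simp
  rw [h.fin_mul2] at e5
  rw [two_zsmul]
  linear_combination (norm := abel) e1 + e1 - e2 - e2 - e3 - e3 + e4 + e4 + e5

end IsSymbol

theorem fin_stMap_stx {R F : Type} [CommRing R] [CommRing F] (f : R →+* F) (i j : ℕ) (a : R) :
    stMap f (stx R i j a) = stx F i j (f a) := by
  unfold stx
  split_ifs with hij
  · rfl
  · exact map_one _

theorem fin_stMap_w {R F : Type} [CommRing R] [CommRing F] (f : R →+* F) (i j : ℕ) (u : Rˣ) :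
    stMap f ((stSys R).w i j u) = (stSys F).w i j (Units.map (f : R →* F) u) := by
  simp only [SteinSys.w, map_mul, stSys, fin_stMap_stx, map_neg]
  rfl

theorem fin_stMap_h {R F : Type} [CommRing R] [CommRing F] (f : R →+* F) (i j : ℕ) (u : Rˣ) :
    stMap f ((stSys R).h i j u) = (stSys F).h i j (Units.map (f : R →* F) u) := by
  have : Units.map (f : R →* F) (-1) = -1 := Units.ext (by simp)
  simp only [SteinSys.h, map_mul, fin_stMap_w, this]

theorem main :
    ∃ (A : Type) (_ : CommRing A) (_ : IsDomain A) (_ : IsRegularLocalRing A),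
      ringKrullDim A = 2 ∧ CharZero A ∧ (5 : A) ∈ IsLocalRing.maximalIdeal A ^ 2 ∧
        ¬ Function.Injective (H3map (algebraMap A (FractionRing A))).hom := by
  obtain ⟨R, _, _, _, x, y, hdim, hchar, h5, hx, hy, hx0, hy0, hE, hlift⟩ := claimRing
  refine ⟨R, inferInstance, inferInstance, inferInstance, hdim, hchar, h5, fun hinj => ?_⟩
  obtain ⟨A, k, _, _, _, π, X, Y, Φ, hπ, hX, hY, hX5, hY5, hEA, hΦ, hval⟩ := claimSymbol claimQ
  obtain ⟨θ, θx, θy⟩ := hlift A k π hπ.unit X Y hX hY hEA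
  have hT := claimTau claimStein claimCentral claimExt
  have hunit : ∀ m ∈ IsLocalRing.maximalIdeal R, IsUnit (1 - m) := fun m hm =>
    IsLocalRing.isUnit_one_sub_self_of_mem_nonunits m hm
  set a : R := -(x ^ 4 * y ^ 4 + x ^ 5 * y ^ 3) with ha
  have ham : a ∈ IsLocalRing.maximalIdeal R := by
    have : a = x * -(x ^ 3 * y ^ 4 + x ^ 4 * y ^ 3) := by rw [ha]; ring
    rw [this]
    exact Ideal.mul_mem_right _ _ hx
  obtain ⟨s, hs⟩ := hunit x hx
  obtain ⟨t, ht⟩ := hunit y hy
  obtain ⟨r, hr⟩ := hunit (x * x) (Ideal.mul_mem_right _ _ hx)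
  obtain ⟨p, hp⟩ := hunit (a * -(y * (1 - x))) (Ideal.mul_mem_right _ _ ham)
  obtain ⟨q, hq⟩ := hunit (a * ((1 - x) * (1 - y))) (Ideal.mul_mem_right _ _ ham)
  have hu : ((r * r * r * r * r : Rˣ) : R) = 1 - a * x * y := by
    simp only [Units.val_mul, hr]
    unfold Eqn at hE
    rw [ha]
    linear_combination (-x ^ 2) * hE
  let f := algebraMap R (FractionRing R)
  have hf : Function.Injective f := IsFractionRing.injective R (FractionRing R)
  obtain ⟨T, hT'⟩ := claimBridge R (FractionRing R) f hinj 2 (ta (r * r * r * r * r * s))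
    (tb (p * t)) (tc q) ((hT R).1 _ _).1 ((hT R).1 _ _).2.1 ((hT R).1 _ _).2.2 (by
      intro M _ φ hφ
      have hS := (hT (FractionRing R)).2 M φ hφ
      simp only [ta, tb, tc, map_mul (stMap f), fin_stMap_h]
      let g := Units.map (f : R →* FractionRing R)
      have gv : ∀ w : Rˣ, (g w : FractionRing R) = f w := fun w => rfl
      refine hS.fin_two (Units.mk0 (f x) ((map_ne_zero_iff f hf).mpr hx0))
        (Units.mk0 (f y) ((map_ne_zero_iff f hf).mpr hy0)) (g (r * r * r * r * r)) (g p) (g q)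
        (g s) (g t) (g r) (g (r * r * r * r * r * s)) (g (p * t)) ?_ ?_ ?_ (by simp only [map_mul])
        (map_mul g _ _) ?_ (map_mul g _ _) ?_
      · rw [gv, hs, Units.val_mk0, ← map_add, sub_add_cancel, map_one]
      · rw [gv, ht, Units.val_mk0, ← map_add, sub_add_cancel, map_one]
      · rw [gv, hr, Units.val_mul, Units.val_mk0, ← map_mul, ← map_add, sub_add_cancel, map_one]
      · rw [gv, Units.val_mul _ s, hu, hs, Units.val_mul, gv, hp, Units.val_mk0, ← map_mul,
          ← map_add, ← map_one f]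
        congr 1
        ring
      · rw [gv, Units.val_mul, hp, ht, Units.val_mul, gv, hq, Units.val_mk0, ← map_mul,
          ← map_add, ← map_one f]
        congr 1
        ring)
  obtain ⟨φ, hφ, hφ'⟩ := claimTransfer (claimFlags claimKoszul claimDet) R A k θ π hπ Φ hΦ T
  have key := hT' φ hφ
  rw [hφ'] at key
  have θa : θ a = -(X ^ 4 * Y ^ 4) := by
    rw [ha]
    simp only [map_neg, map_add, map_mul, map_pow, θx, θy, hX5, zero_mul, add_zero]
  refine hval (Units.map (θ : R →* A) (r * r * r * r * r * s)) (Units.map (θ : R →* A) (p * t))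
    (Units.map (θ : R →* A) q) ?_ ?_ ?_ ?_
  · change θ ((r * r * r * r * r * s : Rˣ) : R) = _
    rw [Units.val_mul _ s, hu, hs]
    simp only [map_mul, map_sub, map_one, θa, θx, θy]
    linear_combination (Y ^ 5 * (1 - X)) * hX5
  · change θ ((p * t : Rˣ) : R) = _
    rw [Units.val_mul, hp, ht]
    simp only [map_mul, map_sub, map_neg, map_one, θa, θx, θy]
    linear_combination (-(X ^ 4 * (1 - X) * (1 - Y))) * hY5
  · change θ (q : R) = _
    rw [hq]
    simp only [map_mul, map_sub, map_one, θa, θx, θy]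
    linear_combination (-(Y ^ 4) + Y ^ 5) * hX5 - X ^ 4 * hY5
  · have h16 : ∀ z : ZMod 5, (2 : ℤ) • (-8 * z) = 0 → z = 0 := by decide
    exact h16 _ key

end Crest.Agent.R171
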