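import Crest.Agent.R171.FlagDefs

/-!
Row 171: the five-term relations for configurations of vectors.
-/

set_option autoImplicit false
set_option linter.unusedSimpArgs false

namespace Crest.Agent.R171

namespace DetData

variable {A : Type} [CommRing A] {N : ℕ} {Φ : Aˣ → Aˣ → Aˣ → ZMod 5} (D : DetData A N Φ)

instance : AddCommGroup D.U := D.grp

theorem sw12 (x y z : D.U) : D.Ψ y x z = - D.Ψ x y z := by
  have h := D.alt12 (x + y) z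
  simp only [map_add, AddMonoidHom.add_apply, D.alt12] at h
  linear_combination h

theorem sw23 (x y z : D.U) : D.Ψ x z y = - D.Ψ x y z := by
  have h := D.alt23 x (y + z)
  simp only [map_add, AddMonoidHom.add_apply, D.alt23] at h
  linear_combination h

/-- the symbol of four points -/
def S (p₀ p₁ p₂ p₃ : D.U) : ZMod 5 := D.Ψ (p₁ - p₀) (p₂ - p₀) (p₃ - p₀)

theorem S_add (p₀ p₁ p₂ p₃ κ : D.U) :
    D.S (p₀ + κ) (p₁ + κ) (p₂ + κ) (p₃ + κ) = D.S p₀ p₁ p₂ p₃ := by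
  simp [S]

theorem S_formal (p0 p1 p2 p3 p4 : D.U) :
    D.S p1 p2 p3 p4 - D.S p0 p2 p3 p4 + D.S p0 p1 p3 p4 - D.S p0 p1 p2 p4 + D.S p0 p1 p2 p3 = 0 := by
  have s01 : ∀ x, D.Ψ x p1 p0 = - D.Ψ x p0 p1 := fun x => D.sw23 x _ _
  have s02 : ∀ x, D.Ψ x p2 p0 = - D.Ψ x p0 p2 := fun x => D.sw23 x _ _
  have s03 : ∀ x, D.Ψ x p3 p0 = - D.Ψ x p0 p3 := fun x => D.sw23 x _ _
  have s04 : ∀ x, D.Ψ x p4 p0 = - D.Ψ x p0 p4 := fun x => D.sw23 x _ _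
  have s12 : ∀ x, D.Ψ x p2 p1 = - D.Ψ x p1 p2 := fun x => D.sw23 x _ _
  have s13 : ∀ x, D.Ψ x p3 p1 = - D.Ψ x p1 p3 := fun x => D.sw23 x _ _
  have s14 : ∀ x, D.Ψ x p4 p1 = - D.Ψ x p1 p4 := fun x => D.sw23 x _ _
  have s23 : ∀ x, D.Ψ x p3 p2 = - D.Ψ x p2 p3 := fun x => D.sw23 x _ _
  have s24 : ∀ x, D.Ψ x p4 p2 = - D.Ψ x p2 p4 := fun x => D.sw23 x _ _
  have s34 : ∀ x, D.Ψ x p4 p3 = - D.Ψ x p3 p4 := fun x => D.sw23 x _ _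
  simp only [S, map_sub, AddMonoidHom.sub_apply,
    D.sw12 p0 p1, s01, D.sw12 p0 p2, s02, D.sw12 p0 p3, s03, D.sw12 p0 p4, s04, D.sw12 p1 p2, 
    s12, D.sw12 p1 p3, s13, D.sw12 p1 p4, s14, D.sw12 p2 p3, s23, D.sw12 p2 p4, s24, 
    D.sw12 p3 p4, s34, 
    D.alt12, D.alt23, map_neg, AddMonoidHom.neg_apply, neg_zero, neg_neg]
  ring

theorem S_suslin (d012 d013 d014 d023 d024 d034 d123 d124 d134 d234 : D.U)
    (R0 : ∀ z, D.Ψ (d012 + d034 - d014 - d023) (d013 + d024 - d014 - d023) z = 0)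
    (R1 : ∀ z, D.Ψ (d012 + d134 - d014 - d123) (d013 + d124 - d014 - d123) z = 0)
    (R2 : ∀ z, D.Ψ (d012 + d234 - d024 - d123) (d023 + d124 - d024 - d123) z = 0)
    (R3 : ∀ z, D.Ψ (d013 + d234 - d034 - d123) (d023 + d134 - d034 - d123) z = 0)
    : D.S d234 d134 d124 d123 - D.S d234 d034 d024 d023 + D.S d134 d034 d014 d013
      - D.S d124 d024 d014 d012 + D.S d123 d023 d013 d012 = 0 := by
  have h0 := R0 (d234 - d023)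
  have h1 := R1 (d123 - d234)
  have h2 := R2 (d014 - d012)
  have h3 := R3 (d013 - d014)
  have s01 : ∀ x, D.Ψ x d013 d012 = - D.Ψ x d012 d013 := fun x => D.sw23 x _ _
  have s02 : ∀ x, D.Ψ x d014 d012 = - D.Ψ x d012 d014 := fun x => D.sw23 x _ _
  have s03 : ∀ x, D.Ψ x d023 d012 = - D.Ψ x d012 d023 := fun x => D.sw23 x _ _
  have s04 : ∀ x, D.Ψ x d024 d012 = - D.Ψ x d012 d024 := fun x => D.sw23 x _ _
  have s05 : ∀ x, D.Ψ x d034 d012 = - D.Ψ x d012 d034 := fun x => D.sw23 x _ _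
  have s06 : ∀ x, D.Ψ x d123 d012 = - D.Ψ x d012 d123 := fun x => D.sw23 x _ _
  have s07 : ∀ x, D.Ψ x d124 d012 = - D.Ψ x d012 d124 := fun x => D.sw23 x _ _
  have s08 : ∀ x, D.Ψ x d134 d012 = - D.Ψ x d012 d134 := fun x => D.sw23 x _ _
  have s09 : ∀ x, D.Ψ x d234 d012 = - D.Ψ x d012 d234 := fun x => D.sw23 x _ _
  have s12 : ∀ x, D.Ψ x d014 d013 = - D.Ψ x d013 d014 := fun x => D.sw23 x _ _
  have s13 : ∀ x, D.Ψ x d023 d013 = - D.Ψ x d013 d023 := fun x => D.sw23 x _ _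
  have s14 : ∀ x, D.Ψ x d024 d013 = - D.Ψ x d013 d024 := fun x => D.sw23 x _ _
  have s15 : ∀ x, D.Ψ x d034 d013 = - D.Ψ x d013 d034 := fun x => D.sw23 x _ _
  have s16 : ∀ x, D.Ψ x d123 d013 = - D.Ψ x d013 d123 := fun x => D.sw23 x _ _
  have s17 : ∀ x, D.Ψ x d124 d013 = - D.Ψ x d013 d124 := fun x => D.sw23 x _ _
  have s18 : ∀ x, D.Ψ x d134 d013 = - D.Ψ x d013 d134 := fun x => D.sw23 x _ _
  have s19 : ∀ x, D.Ψ x d234 d013 = - D.Ψ x d013 d234 := fun x => D.sw23 x _ _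
  have s23 : ∀ x, D.Ψ x d023 d014 = - D.Ψ x d014 d023 := fun x => D.sw23 x _ _
  have s24 : ∀ x, D.Ψ x d024 d014 = - D.Ψ x d014 d024 := fun x => D.sw23 x _ _
  have s25 : ∀ x, D.Ψ x d034 d014 = - D.Ψ x d014 d034 := fun x => D.sw23 x _ _
  have s26 : ∀ x, D.Ψ x d123 d014 = - D.Ψ x d014 d123 := fun x => D.sw23 x _ _
  have s27 : ∀ x, D.Ψ x d124 d014 = - D.Ψ x d014 d124 := fun x => D.sw23 x _ _
  have s28 : ∀ x, D.Ψ x d134 d014 = - D.Ψ x d014 d134 := fun x => D.sw23 x _ _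
  have s29 : ∀ x, D.Ψ x d234 d014 = - D.Ψ x d014 d234 := fun x => D.sw23 x _ _
  have s34 : ∀ x, D.Ψ x d024 d023 = - D.Ψ x d023 d024 := fun x => D.sw23 x _ _
  have s35 : ∀ x, D.Ψ x d034 d023 = - D.Ψ x d023 d034 := fun x => D.sw23 x _ _
  have s36 : ∀ x, D.Ψ x d123 d023 = - D.Ψ x d023 d123 := fun x => D.sw23 x _ _
  have s37 : ∀ x, D.Ψ x d124 d023 = - D.Ψ x d023 d124 := fun x => D.sw23 x _ _
  have s38 : ∀ x, D.Ψ x d134 d023 = - D.Ψ x d023 d134 := fun x => D.sw23 x _ _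
  have s39 : ∀ x, D.Ψ x d234 d023 = - D.Ψ x d023 d234 := fun x => D.sw23 x _ _
  have s45 : ∀ x, D.Ψ x d034 d024 = - D.Ψ x d024 d034 := fun x => D.sw23 x _ _
  have s46 : ∀ x, D.Ψ x d123 d024 = - D.Ψ x d024 d123 := fun x => D.sw23 x _ _
  have s47 : ∀ x, D.Ψ x d124 d024 = - D.Ψ x d024 d124 := fun x => D.sw23 x _ _
  have s48 : ∀ x, D.Ψ x d134 d024 = - D.Ψ x d024 d134 := fun x => D.sw23 x _ _
  have s49 : ∀ x, D.Ψ x d234 d024 = - D.Ψ x d024 d234 := fun x => D.sw23 x _ _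
  have s56 : ∀ x, D.Ψ x d123 d034 = - D.Ψ x d034 d123 := fun x => D.sw23 x _ _
  have s57 : ∀ x, D.Ψ x d124 d034 = - D.Ψ x d034 d124 := fun x => D.sw23 x _ _
  have s58 : ∀ x, D.Ψ x d134 d034 = - D.Ψ x d034 d134 := fun x => D.sw23 x _ _
  have s59 : ∀ x, D.Ψ x d234 d034 = - D.Ψ x d034 d234 := fun x => D.sw23 x _ _
  have s67 : ∀ x, D.Ψ x d124 d123 = - D.Ψ x d123 d124 := fun x => D.sw23 x _ _
  have s68 : ∀ x, D.Ψ x d134 d123 = - D.Ψ x d123 d134 := fun x => D.sw23 x _ _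
  have s69 : ∀ x, D.Ψ x d234 d123 = - D.Ψ x d123 d234 := fun x => D.sw23 x _ _
  have s78 : ∀ x, D.Ψ x d134 d124 = - D.Ψ x d124 d134 := fun x => D.sw23 x _ _
  have s79 : ∀ x, D.Ψ x d234 d124 = - D.Ψ x d124 d234 := fun x => D.sw23 x _ _
  have s89 : ∀ x, D.Ψ x d234 d134 = - D.Ψ x d134 d234 := fun x => D.sw23 x _ _
  simp only [S, map_sub, map_add, AddMonoidHom.sub_apply, AddMonoidHom.add_apply,
    D.sw12 d012 d013, s01, D.sw12 d012 d014, s02, D.sw12 d012 d023, s03, D.sw12 d012 d024, s04, 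
    D.sw12 d012 d034, s05, D.sw12 d012 d123, s06, D.sw12 d012 d124, s07, D.sw12 d012 d134, s08, 
    D.sw12 d012 d234, s09, D.sw12 d013 d014, s12, D.sw12 d013 d023, s13, D.sw12 d013 d024, s14, 
    D.sw12 d013 d034, s15, D.sw12 d013 d123, s16, D.sw12 d013 d124, s17, D.sw12 d013 d134, s18, 
    D.sw12 d013 d234, s19, D.sw12 d014 d023, s23, D.sw12 d014 d024, s24, D.sw12 d014 d034, s25, 
    D.sw12 d014 d123, s26, D.sw12 d014 d124, s27, D.sw12 d014 d134, s28, D.sw12 d014 d234, s29, 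
    D.sw12 d023 d024, s34, D.sw12 d023 d034, s35, D.sw12 d023 d123, s36, D.sw12 d023 d124, s37, 
    D.sw12 d023 d134, s38, D.sw12 d023 d234, s39, D.sw12 d024 d034, s45, D.sw12 d024 d123, s46, 
    D.sw12 d024 d124, s47, D.sw12 d024 d134, s48, D.sw12 d024 d234, s49, D.sw12 d034 d123, s56, 
    D.sw12 d034 d124, s57, D.sw12 d034 d134, s58, D.sw12 d034 d234, s59, D.sw12 d123 d124, s67, 
    D.sw12 d123 d134, s68, D.sw12 d123 d234, s69, D.sw12 d124 d134, s78, D.sw12 d124 d234, s79, 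
    D.sw12 d134 d234, s89, 
    D.alt12, D.alt23, map_neg, AddMonoidHom.neg_apply, neg_zero, neg_neg] at h0 h1 h2 h3 ⊢
  linear_combination h0 + h1 + h2 + h3

/-- the invariant of four vectors modulo the vectors in `P` -/
def T (P : Multiset (Fin N → A)) (v₀ v₁ v₂ v₃ : Fin N → A) : ZMod 5 :=
  if Multiset.card P + 3 = N then
    D.S (D.ld (v₁ ::ₘ v₂ ::ₘ v₃ ::ₘ P)) (D.ld (v₀ ::ₘ v₂ ::ₘ v₃ ::ₘ P))
      (D.ld (v₀ ::ₘ v₁ ::ₘ v₃ ::ₘ P)) (D.ld (v₀ ::ₘ v₁ ::ₘ v₂ ::ₘ P))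
  else 0

theorem T_of_ne {P : Multiset (Fin N → A)} (h : Multiset.card P + 3 ≠ N)
    (v₀ v₁ v₂ v₃ : Fin N → A) : D.T P v₀ v₁ v₂ v₃ = 0 := by
  simp [T, h]

theorem five (P : Multiset (Fin N → A)) (v0 v1 v2 v3 v4 : Fin N → A)
    (H : Multiset.card P + 3 = N →
      D.UD (v0 ::ₘ v1 ::ₘ v2 ::ₘ P) ∧ D.UD (v0 ::ₘ v1 ::ₘ v3 ::ₘ P) ∧
      D.UD (v0 ::ₘ v1 ::ₘ v4 ::ₘ P) ∧ D.UD (v0 ::ₘ v2 ::ₘ v3 ::ₘ P) ∧
      D.UD (v0 ::ₘ v2 ::ₘ v4 ::ₘ P) ∧ D.UD (v0 ::ₘ v3 ::ₘ v4 ::ₘ P) ∧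
      D.UD (v1 ::ₘ v2 ::ₘ v3 ::ₘ P) ∧ D.UD (v1 ::ₘ v2 ::ₘ v4 ::ₘ P) ∧
      D.UD (v1 ::ₘ v3 ::ₘ v4 ::ₘ P) ∧ D.UD (v2 ::ₘ v3 ::ₘ v4 ::ₘ P)) :
    (D.T P v1 v2 v3 v4 - D.T (v0 ::ₘ P) v1 v2 v3 v4)
      - (D.T P v0 v2 v3 v4 - D.T (v1 ::ₘ P) v0 v2 v3 v4)
      + (D.T P v0 v1 v3 v4 - D.T (v2 ::ₘ P) v0 v1 v3 v4)
      - (D.T P v0 v1 v2 v4 - D.T (v3 ::ₘ P) v0 v1 v2 v4)
      + (D.T P v0 v1 v2 v3 - D.T (v4 ::ₘ P) v0 v1 v2 v3) = 0 := by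
  have c10 := Multiset.cons_swap v1 v0
  have c20 := Multiset.cons_swap v2 v0
  have c30 := Multiset.cons_swap v3 v0
  have c40 := Multiset.cons_swap v4 v0
  have c21 := Multiset.cons_swap v2 v1
  have c31 := Multiset.cons_swap v3 v1
  have c41 := Multiset.cons_swap v4 v1
  have c32 := Multiset.cons_swap v3 v2
  have c42 := Multiset.cons_swap v4 v2
  have c43 := Multiset.cons_swap v4 v3
  by_cases h3 : Multiset.card P + 3 = N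
  · obtain ⟨u012, u013, u014, u023, u024, u034, u123, u124, u134, u234⟩ := H h3
    have h4 : ∀ v : Fin N → A, Multiset.card (v ::ₘ P) + 3 ≠ N := fun v => by
      rw [Multiset.card_cons]; omega
    simp only [D.T_of_ne (h4 _), sub_zero]
    simp only [T, if_pos h3]
    have R0 := D.pluecker (v0 ::ₘ P) v1 v2 v3 v4
    have R1 := D.pluecker (v1 ::ₘ P) v0 v2 v3 v4
    have R2 := D.pluecker (v2 ::ₘ P) v0 v1 v3 v4
    have R3 := D.pluecker (v3 ::ₘ P) v0 v1 v2 v4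
    simp only [c10, c20, c30, c40, c21, c31, c41, c32, c42, c43] at R0 R1 R2 R3
    exact D.S_suslin _ _ _ _ _ _ _ _ _ _ (R0 u012 u034 u013 u024 u014 u023)
      (R1 u012 u134 u013 u124 u014 u123) (R2 u012 u234 u023 u124 u024 u123)
      (R3 u013 u234 u023 u134 u034 u123)
  · simp only [D.T_of_ne h3, zero_sub]
    by_cases h4 : Multiset.card P + 1 + 3 = N
    · simp only [T, Multiset.card_cons, if_pos h4]
      simp only [c10, c20, c30, c40, c21, c31, c41, c32, c42, c43]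
      have := D.S_formal (D.ld (v1 ::ₘ v2 ::ₘ v3 ::ₘ v4 ::ₘ P))
        (D.ld (v0 ::ₘ v2 ::ₘ v3 ::ₘ v4 ::ₘ P)) (D.ld (v0 ::ₘ v1 ::ₘ v3 ::ₘ v4 ::ₘ P))
        (D.ld (v0 ::ₘ v1 ::ₘ v2 ::ₘ v4 ::ₘ P)) (D.ld (v0 ::ₘ v1 ::ₘ v2 ::ₘ v3 ::ₘ P))
      linear_combination - this
    · simp [T, Multiset.card_cons, h4]

end DetData

/-- the first `t` vectors of a flag -/
def pre {V : Type} (F : ℕ → V) (t : ℕ) : Multiset V := (Multiset.range t).map F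

@[simp] theorem pre_zero {V : Type} (F : ℕ → V) : pre F 0 = 0 := by simp [pre]

theorem pre_succ {V : Type} (F : ℕ → V) (t : ℕ) : pre F (t + 1) = F t ::ₘ pre F t := by
  simp [pre, Multiset.range_succ]

@[simp] theorem card_pre {V : Type} (F : ℕ → V) (t : ℕ) : Multiset.card (pre F t) = t := by
  simp [pre]

theorem pre_map {V : Type} (g : V → V) (F : ℕ → V) (t : ℕ) : pre (g ∘ F) t = (pre F t).map g := by
  simp [pre]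

namespace DetData

variable {A : Type} [CommRing A] {N : ℕ} {Φ : Aˣ → Aˣ → Aˣ → ZMod 5} (D : DetData A N Φ)

open Finset in
/-- the invariant of four flags modulo the vectors in `P` -/
def G (P : Multiset (Fin N → A)) (K₀ : ℕ) (F₀ : ℕ → Fin N → A) (K₁ : ℕ) (F₁ : ℕ → Fin N → A)
    (K₂ : ℕ) (F₂ : ℕ → Fin N → A) (K₃ : ℕ) (F₃ : ℕ → Fin N → A) : ZMod 5 :=
  ∑ t₀ ∈ range K₀, ∑ t₁ ∈ range K₁, ∑ t₂ ∈ range K₂, ∑ t₃ ∈ range K₃,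
    D.T (P + pre F₀ t₀ + pre F₁ t₁ + pre F₂ t₂ + pre F₃ t₃) (F₀ t₀) (F₁ t₁) (F₂ t₂) (F₃ t₃)

theorem G_of_lt {P : Multiset (Fin N → A)} (h : N < Multiset.card P + 3) (K₀ : ℕ)
    (F₀ : ℕ → Fin N → A) (K₁ : ℕ) (F₁ : ℕ → Fin N → A)
    (K₂ : ℕ) (F₂ : ℕ → Fin N → A) (K₃ : ℕ) (F₃ : ℕ → Fin N → A) :
    D.G P K₀ F₀ K₁ F₁ K₂ F₂ K₃ F₃ = 0 := by
  unfold G
  refine Finset.sum_eq_zero fun t₀ _ => Finset.sum_eq_zero fun t₁ _ =>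
    Finset.sum_eq_zero fun t₂ _ => Finset.sum_eq_zero fun t₃ _ => D.T_of_ne ?_ _ _ _ _
  simp only [Multiset.card_add]
  omega

open Finset in
theorem G_tel (P : Multiset (Fin N → A)) (K : ℕ) (F : ℕ → Fin N → A) (K₀ : ℕ)
    (F₀ : ℕ → Fin N → A) (K₁ : ℕ) (F₁ : ℕ → Fin N → A)
    (K₂ : ℕ) (F₂ : ℕ → Fin N → A) (K₃ : ℕ) (F₃ : ℕ → Fin N → A) :
    D.G P K₀ F₀ K₁ F₁ K₂ F₂ K₃ F₃ - D.G (P + pre F K) K₀ F₀ K₁ F₁ K₂ F₂ K₃ F₃ =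
      ∑ t ∈ range K, ∑ t₀ ∈ range K₀, ∑ t₁ ∈ range K₁, ∑ t₂ ∈ range K₂, ∑ t₃ ∈ range K₃,
        (D.T (P + pre F t + pre F₀ t₀ + pre F₁ t₁ + pre F₂ t₂ + pre F₃ t₃)
            (F₀ t₀) (F₁ t₁) (F₂ t₂) (F₃ t₃) -
          D.T (F t ::ₘ (P + pre F t + pre F₀ t₀ + pre F₁ t₁ + pre F₂ t₂ + pre F₃ t₃))
            (F₀ t₀) (F₁ t₁) (F₂ t₂) (F₃ t₃)) := by
  have := Finset.sum_range_sub' (fun t => D.G (P + pre F t) K₀ F₀ K₁ F₁ K₂ F₂ K₃ F₃) K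
  simp only [pre_zero, add_zero] at this
  rw [← this]
  refine Finset.sum_congr rfl fun t _ => ?_
  simp only [G, ← Finset.sum_sub_distrib, pre_succ, Multiset.add_cons, Multiset.cons_add]

open Finset in
theorem G_five (P : Multiset (Fin N → A)) (K₀ : ℕ) (F₀ : ℕ → Fin N → A) (K₁ : ℕ)
    (F₁ : ℕ → Fin N → A) (K₂ : ℕ) (F₂ : ℕ → Fin N → A) (K₃ : ℕ) (F₃ : ℕ → Fin N → A)
    (K₄ : ℕ) (F₄ : ℕ → Fin N → A)
    (H : ∀ t₀ ≤ K₀, ∀ t₁ ≤ K₁, ∀ t₂ ≤ K₂, ∀ t₃ ≤ K₃, ∀ t₄ ≤ K₄,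
      Multiset.card P + t₀ + t₁ + t₂ + t₃ + t₄ = N →
      D.UD (P + pre F₀ t₀ + pre F₁ t₁ + pre F₂ t₂ + pre F₃ t₃ + pre F₄ t₄)) :
    (D.G P K₁ F₁ K₂ F₂ K₃ F₃ K₄ F₄ - D.G (P + pre F₀ K₀) K₁ F₁ K₂ F₂ K₃ F₃ K₄ F₄)
      - (D.G P K₀ F₀ K₂ F₂ K₃ F₃ K₄ F₄ - D.G (P + pre F₁ K₁) K₀ F₀ K₂ F₂ K₃ F₃ K₄ F₄)
      + (D.G P K₀ F₀ K₁ F₁ K₃ F₃ K₄ F₄ - D.G (P + pre F₂ K₂) K₀ F₀ K₁ F₁ K₃ F₃ K₄ F₄)
      - (D.G P K₀ F₀ K₁ F₁ K₂ F₂ K₄ F₄ - D.G (P + pre F₃ K₃) K₀ F₀ K₁ F₁ K₂ F₂ K₄ F₄)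
      + (D.G P K₀ F₀ K₁ F₁ K₂ F₂ K₃ F₃ - D.G (P + pre F₄ K₄) K₀ F₀ K₁ F₁ K₂ F₂ K₃ F₃) = 0 := by
  rw [G_tel, G_tel, G_tel, G_tel, G_tel]
  simp only [Finset.sum_comm (s := range K₁) (t := range K₀),
    Finset.sum_comm (s := range K₂) (t := range K₀), Finset.sum_comm (s := range K₂) (t := range K₁),
    Finset.sum_comm (s := range K₃) (t := range K₀), Finset.sum_comm (s := range K₃) (t := range K₁),
    Finset.sum_comm (s := range K₃) (t := range K₂),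
    Finset.sum_comm (s := range K₄) (t := range K₀), Finset.sum_comm (s := range K₄) (t := range K₁),
    Finset.sum_comm (s := range K₄) (t := range K₂), Finset.sum_comm (s := range K₄) (t := range K₃)]
  simp only [← Finset.sum_sub_distrib, ← Finset.sum_add_distrib]
  refine Finset.sum_eq_zero fun t₀ h₀ => Finset.sum_eq_zero fun t₁ h₁ =>
    Finset.sum_eq_zero fun t₂ h₂ => Finset.sum_eq_zero fun t₃ h₃ =>
    Finset.sum_eq_zero fun t₄ h₄ => ?_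
  rw [Finset.mem_range] at h₀ h₁ h₂ h₃ h₄
  set Q := P + pre F₀ t₀ + pre F₁ t₁ + pre F₂ t₂ + pre F₃ t₃ + pre F₄ t₄ with hQ
  have e₁ : P + pre F₁ t₁ + pre F₀ t₀ + pre F₂ t₂ + pre F₃ t₃ + pre F₄ t₄ = Q := by rw [hQ]; abel
  have e₂ : P + pre F₂ t₂ + pre F₀ t₀ + pre F₁ t₁ + pre F₃ t₃ + pre F₄ t₄ = Q := by rw [hQ]; abel
  have e₃ : P + pre F₃ t₃ + pre F₀ t₀ + pre F₁ t₁ + pre F₂ t₂ + pre F₄ t₄ = Q := by rw [hQ]; abel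
  have e₄ : P + pre F₄ t₄ + pre F₀ t₀ + pre F₁ t₁ + pre F₂ t₂ + pre F₃ t₃ = Q := by rw [hQ]; abel
  rw [e₁, e₂, e₃, e₄]
  refine D.five Q _ _ _ _ _ fun hc => ?_
  have hc' : Multiset.card P + t₀ + t₁ + t₂ + t₃ + t₄ + 3 = N := by
    simpa only [hQ, Multiset.card_add, card_pre] using hc
  have c10 := Multiset.cons_swap (F₁ t₁) (F₀ t₀)
  have c20 := Multiset.cons_swap (F₂ t₂) (F₀ t₀)
  have c30 := Multiset.cons_swap (F₃ t₃) (F₀ t₀)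
  have c40 := Multiset.cons_swap (F₄ t₄) (F₀ t₀)
  have c21 := Multiset.cons_swap (F₂ t₂) (F₁ t₁)
  have c31 := Multiset.cons_swap (F₃ t₃) (F₁ t₁)
  have c41 := Multiset.cons_swap (F₄ t₄) (F₁ t₁)
  have c32 := Multiset.cons_swap (F₃ t₃) (F₂ t₂)
  have c42 := Multiset.cons_swap (F₄ t₄) (F₂ t₂)
  have c43 := Multiset.cons_swap (F₄ t₄) (F₃ t₃)
  have u012 := H (t₀ + 1) h₀ (t₁ + 1) h₁ (t₂ + 1) h₂ t₃ h₃.le t₄ h₄.le (by omega)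
  have u013 := H (t₀ + 1) h₀ (t₁ + 1) h₁ t₂ h₂.le (t₃ + 1) h₃ t₄ h₄.le (by omega)
  have u014 := H (t₀ + 1) h₀ (t₁ + 1) h₁ t₂ h₂.le t₃ h₃.le (t₄ + 1) h₄ (by omega)
  have u023 := H (t₀ + 1) h₀ t₁ h₁.le (t₂ + 1) h₂ (t₃ + 1) h₃ t₄ h₄.le (by omega)
  have u024 := H (t₀ + 1) h₀ t₁ h₁.le (t₂ + 1) h₂ t₃ h₃.le (t₄ + 1) h₄ (by omega)
  have u034 := H (t₀ + 1) h₀ t₁ h₁.le t₂ h₂.le (t₃ + 1) h₃ (t₄ + 1) h₄ (by omega)
  have u123 := H t₀ h₀.le (t₁ + 1) h₁ (t₂ + 1) h₂ (t₃ + 1) h₃ t₄ h₄.le (by omega)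
  have u124 := H t₀ h₀.le (t₁ + 1) h₁ (t₂ + 1) h₂ t₃ h₃.le (t₄ + 1) h₄ (by omega)
  have u134 := H t₀ h₀.le (t₁ + 1) h₁ t₂ h₂.le (t₃ + 1) h₃ (t₄ + 1) h₄ (by omega)
  have u234 := H t₀ h₀.le t₁ h₁.le (t₂ + 1) h₂ (t₃ + 1) h₃ (t₄ + 1) h₄ (by omega)
  simp only [pre_succ, Multiset.add_cons, Multiset.cons_add, ← hQ, c10, c20, c30, c40, c21, c31,
    c41, c32, c42, c43] at u012 u013 u014 u023 u024 u034 u123 u124 u134 u234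
  exact ⟨u012, u013, u014, u023, u024, u034, u123, u124, u134, u234⟩

end DetData

end Crest.Agent.R171
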