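import Crest.Agent.R171.Defs

/-!
Row 171: interfaces for the construction of the cocycle on `GL_N(A)`.
-/

set_option autoImplicit false

namespace Crest.Agent.R171

/-! ### Koszul systems in an acyclic complex -/

section Koszul

variable {G X : Type} [Group G] [AddCommGroup X]

/-- `C` is acyclic for the differential `bd`. -/
def Acyc (bd : X →+ X) (C : AddSubgroup X) : Prop :=
  ∀ z ∈ C, bd z = 0 → ∃ y ∈ C, bd y = z

/-- `y` is the top chain of a Koszul system for `a, b, c` in `C`. -/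
def IsKos (ρ : G →* AddMonoid.End X) (bd : X →+ X) (e : X) (C : AddSubgroup X) (a b c : G)
    (y : X) : Prop :=
  ∃ y₀ ∈ C, ∃ ya ∈ C, ∃ yb ∈ C, ∃ yc ∈ C, ∃ yab ∈ C, ∃ yac ∈ C, ∃ ybc ∈ C, y ∈ C ∧
    bd y₀ = e ∧ bd ya = ρ a y₀ - y₀ ∧ bd yb = ρ b y₀ - y₀ ∧ bd yc = ρ c y₀ - y₀ ∧
    bd yab = (ρ a yb - yb) - (ρ b ya - ya) ∧
    bd yac = (ρ a yc - yc) - (ρ c ya - ya) ∧
    bd ybc = (ρ b yc - yc) - (ρ c yb - yb) ∧
    bd y = (ρ a ybc - ybc) - (ρ b yac - yac) + (ρ c yab - yab)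

end Koszul

/-- Existence and uniqueness of Koszul systems, and the 3-cocycle defined by an invariant
cocycle `f` on an acyclic complex. -/
def ClaimKoszul : Prop :=
  ∀ (G X M : Type) [Group G] [AddCommGroup X] [AddCommGroup M] (ρ : G →* AddMonoid.End X)
    (bd : X →+ X) (e : X), (∀ x, bd (bd x) = 0) → (∀ g x, bd (ρ g x) = ρ g (bd x)) → bd e = 0 →
    (∀ g, ρ g e = e) → ∀ C : AddSubgroup X, e ∈ C → Acyc bd C →
    (∀ a b c : G, Commute a b → Commute a c → Commute b c →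
      (∀ x ∈ C, ρ a x ∈ C) → (∀ x ∈ C, ρ b x ∈ C) → (∀ x ∈ C, ρ c x ∈ C) →
      (∃ y, IsKos ρ bd e C a b c y) ∧
      ∀ f : X →+ M, (∀ x ∈ C, f (ρ a x) = f x) → (∀ x ∈ C, f (ρ b x) = f x) →
        (∀ x ∈ C, f (ρ c x) = f x) → (∀ x ∈ C, f (bd x) = 0) →
        ∀ y y', IsKos ρ bd e C a b c y → IsKos ρ bd e C a b c y' → f y = f y') ∧
    ((∀ g, ∀ x ∈ C, ρ g x ∈ C) → ∀ f : X →+ M, (∀ g, ∀ x ∈ C, f (ρ g x) = f x) →
      (∀ x ∈ C, f (bd x) = 0) →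
      ∃ φ : G → G → G → M, IsCoc3 φ ∧ ∀ a b c : G, Commute a b → Commute a c → Commute b c →
        ∃ y, IsKos ρ bd e C a b c y ∧ tor φ a b c = f y)

/-! ### Logarithms of determinants -/

/-- `UD s`: the multiset `s` of vectors is a basis of `A^N`; `ld s`: the logarithm of its
determinant, taken modulo `±1`; `Ψ`: the symbol in additive notation; `gen`: the filter of
generic vectors. -/
structure DetData (A : Type) [CommRing A] (N : ℕ) (Φ : Aˣ → Aˣ → Aˣ → ZMod 5) where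
  U : Type
  [grp : AddCommGroup U]
  lg : Aˣ → U
  Ψ : U →+ U →+ U →+ ZMod 5
  alt12 : ∀ x z, Ψ x x z = 0
  alt23 : ∀ x y, Ψ x y y = 0
  val : ∀ u v w, Ψ (lg u) (lg v) (lg w) = Φ u v w
  lg_one : lg 1 = 0
  UD : Multiset (Fin N → A) → Prop
  ld : Multiset (Fin N → A) → U
  card : ∀ s, UD s → Multiset.card s = N
  std : UD (Finset.univ.val.map fun i : Fin N => (Pi.single i 1 : Fin N → A))
  map : ∀ g : GLN A N, ∃ κ : U, ∀ s, UD s →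
    UD (s.map (g : Module.End A (Fin N → A))) ∧
      ld (s.map (g : Module.End A (Fin N → A))) = ld s + κ
  smul : ∀ (s : Multiset (Fin N → A)) (v : Fin N → A) (u : Aˣ), UD (v ::ₘ s) →
    UD (((u : A) • v) ::ₘ s) ∧ ld (((u : A) • v) ::ₘ s) = lg u + ld (v ::ₘ s)
  shear : ∀ (s : Multiset (Fin N → A)) (v w : Fin N → A) (c : A), w ∈ s → UD (v ::ₘ s) →
    UD ((v + c • w) ::ₘ s) ∧ ld ((v + c • w) ::ₘ s) = ld (v ::ₘ s)
  pluecker : ∀ (s : Multiset (Fin N → A)) (j l m n : Fin N → A),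
    UD (j ::ₘ l ::ₘ s) → UD (m ::ₘ n ::ₘ s) → UD (j ::ₘ m ::ₘ s) → UD (l ::ₘ n ::ₘ s) →
    UD (j ::ₘ n ::ₘ s) → UD (l ::ₘ m ::ₘ s) → ∀ z,
    Ψ (ld (j ::ₘ l ::ₘ s) + ld (m ::ₘ n ::ₘ s) - ld (j ::ₘ n ::ₘ s) - ld (l ::ₘ m ::ₘ s))
      (ld (j ::ₘ m ::ₘ s) + ld (l ::ₘ n ::ₘ s) - ld (j ::ₘ n ::ₘ s) - ld (l ::ₘ m ::ₘ s)) z = 0
  gen : Filter (Fin N → A)
  neBot : gen.NeBot
  generic : ∀ (s : Multiset (Fin N → A)) (w : Fin N → A), UD (w ::ₘ s) →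
    ∀ᶠ v in gen, UD (v ::ₘ s)

def ClaimDet : Prop :=
  ∀ (A k : Type) [CommRing A] [Field k] (π : A →+* k), IsRes π →
    ∀ Φ : Aˣ → Aˣ → Aˣ → ZMod 5, IsSymbol Φ → ∀ N : ℕ, Nonempty (DetData A N Φ)

end Crest.Agent.R171
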