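import Crest.Agent.R171.Flags

/-!
Row 171: evaluation of the cocycle on tori.
-/

set_option autoImplicit false
set_option linter.unusedSimpArgs false
set_option linter.unusedVariables false

namespace Crest.Agent.R171

theorem IsKos.mono {G X : Type} [Group G] [AddCommGroup X] {ρ : G →* AddMonoid.End X}
    {bd : X →+ X} {e : X} {C C' : AddSubgroup X} (hC : C ≤ C') {a b c : G} {y : X}
    (h : IsKos ρ bd e C a b c y) : IsKos ρ bd e C' a b c y := by
  obtain ⟨y₀, h₀, ya, ha, yb, hb, yc, hc, yab, hab, yac, hac, ybc, hbc, hy, H⟩ := h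
  exact ⟨y₀, hC h₀, ya, hC ha, yb, hC hb, yc, hC hc, yab, hC hab, yac, hC hac, ybc, hC hbc,
    hC hy, H⟩

theorem IsKos.mem {G X : Type} [Group G] [AddCommGroup X] {ρ : G →* AddMonoid.End X}
    {bd : X →+ X} {e : X} {C : AddSubgroup X} {a b c : G} {y : X}
    (h : IsKos ρ bd e C a b c y) : y ∈ C := by
  obtain ⟨y₀, h₀, ya, ha, yb, hb, yc, hc, yab, hab, yac, hac, ybc, hbc, hy, H⟩ := h
  exact hy

theorem IsKos.map_bd {G X M : Type} [Group G] [AddCommGroup X] [AddCommGroup M]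
    {ρ : G →* AddMonoid.End X}
    {bd : X →+ X} {e : X} {C : AddSubgroup X} {a b c : G} {y : X}
    (h : IsKos ρ bd e C a b c y) (f : X →+ M) (fa : ∀ x ∈ C, f (ρ a x) = f x)
    (fb : ∀ x ∈ C, f (ρ b x) = f x) (fc : ∀ x ∈ C, f (ρ c x) = f x) : f (bd y) = 0 := by
  obtain ⟨y₀, h₀, ya, ha, yb, hb, yc, hc, yab, hab, yac, hac, ybc, hbc, hy, -, -, -, -, -, -, -,
    H⟩ := h
  rw [H]
  simp only [map_add, map_sub, fa _ hbc, fb _ hac, fc _ hab, sub_self, add_zero]

namespace DetData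

variable {A : Type} [CommRing A] {N : ℕ} {Φ : Aˣ → Aˣ → Aˣ → ZMod 5} (D : DetData A N Φ)

theorem Cx_mono {r r' : ℕ} (hr : r' ≤ r) {W W' : Set (Multiset (Fin N → A))} (hW : W' ⊆ W) :
    D.Cx r W ≤ D.Cx r' W' :=
  spanL_mono fun _ hl P hP => (hl P (hW hP)).mono hr

theorem nil_mem_Cx {r : ℕ} {W : Set (Multiset (Fin N → A))} (h : ∀ P ∈ W, D.Good P) :
    FreeAbelianGroup.of [] ∈ D.Cx r W :=
  of_mem_spanL h

/-- Koszul systems in the complexes of flags -/
abbrev Kos (r : ℕ) (W : Set (Multiset (Fin N → A))) (a b c : GLN A N)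
    (y : Ch (ℕ → Fin N → A)) : Prop :=
  IsKos (rho A N) bd (FreeAbelianGroup.of []) (D.Cx r W) a b c y

theorem kos (hk : ClaimKoszul) (r : ℕ) {W : Set (Multiset (Fin N → A))} (hW : W.Finite)
    (hg : ∀ P ∈ W, D.Good P) {a b c : GLN A N} (hab : Commute a b) (hac : Commute a c)
    (hbc : Commute b c) (ha : ∀ P ∈ W, P.map (a : Module.End A (Fin N → A)) = P)
    (hb : ∀ P ∈ W, P.map (b : Module.End A (Fin N → A)) = P)
    (hc : ∀ P ∈ W, P.map (c : Module.End A (Fin N → A)) = P) :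
    (∃ y, D.Kos r W a b c y) ∧ ∀ P ∈ W, N < Multiset.card P + r + 3 →
      ∀ y y', D.Kos r W a b c y → D.Kos r W a b c y' → D.f r P y = D.f r P y' := by
  obtain ⟨h1, h2⟩ := (hk (GLN A N) (Ch (ℕ → Fin N → A)) (ZMod 5) (rho A N) bd
    (FreeAbelianGroup.of []) bd_bd bd_rho (by simp [bdL]) (fun g => by simp [rho_of])
    (D.Cx r W) (D.nil_mem_Cx hg) (D.acyc_Cx r hW)).1 a b c hab hac hbc (D.rho_mem_Cx a ha)
    (D.rho_mem_Cx b hb) (D.rho_mem_Cx c hc)
  exact ⟨h1, fun P hP hr => h2 (D.f r P) (D.f_rho hP a (ha P hP)) (D.f_rho hP b (hb P hP))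
    (D.f_rho hP c (hc P hP)) (D.f_bd hr hP)⟩

theorem map_eq_self {V : Type} {g : V → V} {P : Multiset V} (h : ∀ v ∈ P, g v = v) :
    P.map g = P := by
  rw [Multiset.map_congr rfl h, Multiset.map_id']

theorem peel (hk : ClaimKoszul) {a b c : GLN A N} (hab : Commute a b) (hac : Commute a c)
    (hbc : Commute b c) {B : Multiset (Fin N → A)} (hB : D.UD B) (m : ZMod 5)
    (Q : Multiset (Fin N → A)) (hQ : Q ≤ B)
    (ha : ∀ v ∈ Q, (a : Module.End A (Fin N → A)) v = v)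
    (hb : ∀ v ∈ Q, (b : Module.End A (Fin N → A)) v = v)
    (hc : ∀ v ∈ Q, (c : Module.End A (Fin N → A)) v = v)
    (H : ∀ y, D.Kos N {Q} a b c y → D.f N Q y = m) :
    ∀ y, D.Kos N {0} a b c y → D.f N 0 y = m := by
  induction Q using Multiset.induction_on with
  | empty => exact H
  | cons e P ih =>
    have hP : P ≤ B := (Multiset.le_cons_self P e).trans hQ
    have ha' : ∀ v ∈ P, (a : Module.End A (Fin N → A)) v = v :=
      fun v hv => ha v (Multiset.mem_cons_of_mem hv)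
    have hb' : ∀ v ∈ P, (b : Module.End A (Fin N → A)) v = v :=
      fun v hv => hb v (Multiset.mem_cons_of_mem hv)
    have hc' : ∀ v ∈ P, (c : Module.End A (Fin N → A)) v = v :=
      fun v hv => hc v (Multiset.mem_cons_of_mem hv)
    refine ih hP ha' hb' hc' fun y hy => ?_
    obtain ⟨⟨y', hy'⟩, -⟩ := D.kos hk N (W := {P, e ::ₘ P}) (Set.toFinite _)
      (by
        rintro _ (rfl | rfl)
        exacts [D.good_of_le hB hP, D.good_of_le hB hQ]) hab hac hbc
      (by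
        rintro _ (rfl | rfl)
        exacts [map_eq_self ha', map_eq_self ha])
      (by
        rintro _ (rfl | rfl)
        exacts [map_eq_self hb', map_eq_self hb])
      (by
        rintro _ (rfl | rfl)
        exacts [map_eq_self hc', map_eq_self hc])
    have m1 : P ∈ ({P, e ::ₘ P} : Set (Multiset (Fin N → A))) := by simp
    have m2 : e ::ₘ P ∈ ({P, e ::ₘ P} : Set (Multiset (Fin N → A))) := by simp
    obtain ⟨-, hu⟩ := D.kos hk N (W := {P}) (Set.toFinite _)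
      (by rintro _ rfl; exact D.good_of_le hB hP) hab hac hbc
      (by rintro _ rfl; exact map_eq_self ha') (by rintro _ rfl; exact map_eq_self hb')
      (by rintro _ rfl; exact map_eq_self hc')
    rw [hu P rfl (by omega) y y' hy (IsKos.mono (D.Cx_mono le_rfl (by simp)) hy'),
      D.f_peel (by omega) m1 m2 y' (IsKos.mem hy'),
      H y' (IsKos.mono (D.Cx_mono le_rfl (by simp)) hy'),
      IsKos.map_bd hy' (D.h N P e)
        (D.h_rho m1 m2 a (map_eq_self ha') (ha e (Multiset.mem_cons_self e P)))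
        (D.h_rho m1 m2 b (map_eq_self hb') (hb e (Multiset.mem_cons_self e P)))
        (D.h_rho m1 m2 c (map_eq_self hc') (hc e (Multiset.mem_cons_self e P))), add_zero]

/-- a vector as a flag of depth one -/
def cf (v : Fin N → A) : ℕ → Fin N → A := fun _ => v

theorem act_cf (g : GLN A N) (v : Fin N → A) :
    act g (cf v) = cf ((g : Module.End A (Fin N → A)) v) := rfl

theorem gen_cf (v : Fin N → A) (l : List (ℕ → Fin N → A)) (P : Multiset (Fin N → A))
    (h₀ : D.Gen 1 l P) (h₁ : D.Gen 1 l (v ::ₘ P)) : D.Gen 1 (cf v :: l) P := by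
  intro t ht
  rcases Nat.le_one_iff_eq_zero_or_eq_one.mp ht with rfl | rfl
  · simpa using h₀
  · rw [pre_succ, pre_zero, Multiset.add_cons, add_zero]
    exact h₁

theorem Gen.tail {D : DetData A N Φ} {r : ℕ} {F : ℕ → Fin N → A} {l : List (ℕ → Fin N → A)}
    {P : Multiset (Fin N → A)} (h : D.Gen r (F :: l) P) : D.Gen r l P := by
  simpa using h 0 (Nat.zero_le r)

theorem gen_three {P : Multiset (Fin N → A)} {x y z : Fin N → A}
    (h : D.UD (z ::ₘ y ::ₘ x ::ₘ P)) : D.Gen 1 [cf x, cf y, cf z] P := by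
  have g : ∀ Q, Q ≤ z ::ₘ y ::ₘ x ::ₘ P → D.Gen 1 [] Q := fun Q hQ => D.good_of_le h hQ
  have l := fun (s : Multiset (Fin N → A)) (a : Fin N → A) => Multiset.le_cons_self s a
  refine D.gen_cf _ _ _ (D.gen_cf _ _ _ (D.gen_cf _ _ _ (g _ ?_) (g _ ?_))
    (D.gen_cf _ _ _ (g _ ?_) (g _ ?_))) (D.gen_cf _ _ _ (D.gen_cf _ _ _ (g _ ?_) (g _ ?_))
    (D.gen_cf _ _ _ (g _ ?_) (g _ ?_)))
  · exact (l _ _).trans ((l _ _).trans (l _ _))
  · exact Multiset.cons_le_cons _ ((l _ _).trans (l _ _))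
  · exact (Multiset.cons_le_cons _ (l _ _)).trans (l _ _)
  · exact Multiset.cons_le_cons _ (Multiset.cons_le_cons _ (l _ _))
  · exact (l _ _).trans (l _ _)
  · exact Multiset.cons_le_cons _ (l _ _)
  · exact l _ _
  · exact le_rfl

theorem gen_two {P : Multiset (Fin N → A)} {y z : Fin N → A}
    (h : D.UD (z ::ₘ y ::ₘ P)) : D.Gen 1 [cf y, cf z] P := by
  have g : ∀ Q, Q ≤ z ::ₘ y ::ₘ P → D.Gen 1 [] Q := fun Q hQ => D.good_of_le h hQ
  have l := fun (s : Multiset (Fin N → A)) (a : Fin N → A) => Multiset.le_cons_self s a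
  refine D.gen_cf _ _ _ (D.gen_cf _ _ _ (g _ ?_) (g _ ?_)) (D.gen_cf _ _ _ (g _ ?_) (g _ ?_))
  · exact (l _ _).trans (l _ _)
  · exact Multiset.cons_le_cons _ (l _ _)
  · exact l _ _
  · exact le_rfl

theorem gen_four {P : Multiset (Fin N → A)} {p x y z : Fin N → A}
    (h0 : D.UD (x ::ₘ y ::ₘ z ::ₘ P)) (h1 : D.UD (p ::ₘ y ::ₘ z ::ₘ P))
    (h2 : D.UD (p ::ₘ x ::ₘ z ::ₘ P)) (h3 : D.UD (p ::ₘ x ::ₘ y ::ₘ P)) :
    D.Gen 1 [cf p, cf x, cf y, cf z] P := by
  have r : ∀ a b c : Fin N → A, a ::ₘ b ::ₘ c ::ₘ P = c ::ₘ b ::ₘ a ::ₘ P := fun a b c => by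
    rw [Multiset.cons_swap b c, Multiset.cons_swap a c, Multiset.cons_swap a b]
  rw [r] at h0 h1 h2 h3
  have l := fun (s : Multiset (Fin N → A)) (a : Fin N → A) => Multiset.le_cons_self s a
  refine D.gen_cf _ _ _ (D.gen_three h0) (D.gen_cf _ _ _ (D.gen_two h1) ?_)
  refine D.gen_cf _ _ _ (D.gen_cf _ _ _ (D.good_of_le h2 (l _ _)) (D.good_of_le h2 le_rfl))
    (D.gen_cf _ _ _ (D.good_of_le h3 le_rfl) fun hc => ?_)
  have := D.card _ h3
  simp only [Multiset.card_cons] at this hc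
  omega

theorem f_cf (P : Multiset (Fin N → A)) (p x y z : Fin N → A) :
    D.f 1 P (FreeAbelianGroup.of [cf p, cf x, cf y, cf z]) = D.T P p x y z := by
  simp [f_of, fL, G, cf]

theorem base (hk : ClaimKoszul) {a b c : GLN A N} (hab : Commute a b) (hac : Commute a c)
    (hbc : Commute b c) {P : Multiset (Fin N → A)} {e₁ e₂ e₃ : Fin N → A}
    (hB : D.UD (e₁ ::ₘ e₂ ::ₘ e₃ ::ₘ P)) {u v w : Aˣ}
    (ha : ∀ x ∈ P, (a : Module.End A (Fin N → A)) x = x)
    (hb : ∀ x ∈ P, (b : Module.End A (Fin N → A)) x = x)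
    (hc : ∀ x ∈ P, (c : Module.End A (Fin N → A)) x = x)
    (a1 : (a : Module.End A (Fin N → A)) e₁ = (u : A) • e₁)
    (a2 : (a : Module.End A (Fin N → A)) e₂ = e₂) (a3 : (a : Module.End A (Fin N → A)) e₃ = e₃)
    (b1 : (b : Module.End A (Fin N → A)) e₁ = e₁)
    (b2 : (b : Module.End A (Fin N → A)) e₂ = (v : A) • e₂)
    (b3 : (b : Module.End A (Fin N → A)) e₃ = e₃)
    (c1 : (c : Module.End A (Fin N → A)) e₁ = e₁) (c2 : (c : Module.End A (Fin N → A)) e₂ = e₂)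
    (c3 : (c : Module.End A (Fin N → A)) e₃ = (w : A) • e₃) :
    ∀ y, D.Kos N {P} a b c y → D.f N P y = - Φ u v w := by
  intro y hy
  have hcard : Multiset.card P + 3 = N := by
    have := D.card _ hB
    simp only [Multiset.card_cons] at this
    omega
  have l := fun (s : Multiset (Fin N → A)) (a : Fin N → A) => Multiset.le_cons_self s a
  obtain ⟨-, hu⟩ := D.kos hk 1 (W := {P}) (Set.toFinite _)
    (by rintro _ rfl; exact D.good_of_le hB ((l _ _).trans ((l _ _).trans (l _ _)))) hab hac hbc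
    (by rintro _ rfl; exact map_eq_self ha) (by rintro _ rfl; exact map_eq_self hb)
    (by rintro _ rfl; exact map_eq_self hc)
  set p := e₁ + e₂ + e₃ with hp
  set d := D.ld (e₁ ::ₘ e₂ ::ₘ e₃ ::ₘ P) with hd
  -- scaling the second and third vector
  have sc2 : ∀ (x y : Fin N → A) (s : Multiset (Fin N → A)) (t : Aˣ), D.UD (x ::ₘ y ::ₘ s) →
      D.UD (x ::ₘ ((t : A) • y) ::ₘ s) ∧
        D.ld (x ::ₘ ((t : A) • y) ::ₘ s) = D.lg t + D.ld (x ::ₘ y ::ₘ s) := by
    intro x y s t h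
    rw [Multiset.cons_swap x y] at h ⊢
    rw [Multiset.cons_swap x]
    exact D.smul _ _ t h
  have sc3 : ∀ (x y z : Fin N → A) (s : Multiset (Fin N → A)) (t : Aˣ),
      D.UD (x ::ₘ y ::ₘ z ::ₘ s) → D.UD (x ::ₘ y ::ₘ ((t : A) • z) ::ₘ s) ∧
        D.ld (x ::ₘ y ::ₘ ((t : A) • z) ::ₘ s) = D.lg t + D.ld (x ::ₘ y ::ₘ z ::ₘ s) := by
    intro x y z s t h
    rw [Multiset.cons_swap y z] at h ⊢
    rw [Multiset.cons_swap y]
    exact sc2 _ _ _ t h
  have sh : ∀ x y z : Fin N → A, D.UD (x ::ₘ y ::ₘ z ::ₘ P) →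
      D.UD ((x + y + z) ::ₘ y ::ₘ z ::ₘ P) ∧
        D.ld ((x + y + z) ::ₘ y ::ₘ z ::ₘ P) = D.ld (x ::ₘ y ::ₘ z ::ₘ P) := by
    intro x y z h
    obtain ⟨h1, h1'⟩ := D.shear (y ::ₘ z ::ₘ P) x y 1 (by simp) h
    obtain ⟨h2, h2'⟩ := D.shear (y ::ₘ z ::ₘ P) _ z 1 (by simp) h1
    simp only [one_smul] at h1' h2 h2'
    exact ⟨h2, h2'.trans h1'⟩
  have p1 : D.UD (p ::ₘ e₂ ::ₘ e₃ ::ₘ P) ∧ D.ld (p ::ₘ e₂ ::ₘ e₃ ::ₘ P) = d := sh _ _ _ hB
  have p2 : D.UD (p ::ₘ e₁ ::ₘ e₃ ::ₘ P) ∧ D.ld (p ::ₘ e₁ ::ₘ e₃ ::ₘ P) = d := by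
    have := sh e₂ e₁ e₃ (by rwa [Multiset.cons_swap])
    rwa [add_comm e₂ e₁, Multiset.cons_swap e₂ e₁] at this
  have p3 : D.UD (p ::ₘ e₁ ::ₘ e₂ ::ₘ P) ∧ D.ld (p ::ₘ e₁ ::ₘ e₂ ::ₘ P) = d := by
    have := sh e₃ e₁ e₂ (by rwa [Multiset.cons_swap e₃ e₁, Multiset.cons_swap e₃ e₂])
    rwa [show e₃ + e₁ + e₂ = p by rw [hp]; abel, Multiset.cons_swap e₃ e₁,
      Multiset.cons_swap e₃ e₂] at this
  have key : ∀ x y z : Aˣ,
      D.Gen 1 [cf p, cf ((x : A) • e₁), cf ((y : A) • e₂), cf ((z : A) • e₃)] P ∧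
      D.T P p ((x : A) • e₁) ((y : A) • e₂) ((z : A) • e₃) =
        - D.Ψ (D.lg x) (D.lg y) (D.lg z) := by
    intro x y z
    obtain ⟨q1, q1'⟩ := sc3 _ _ _ _ z hB
    obtain ⟨q2, q2'⟩ := sc2 _ _ _ y q1
    obtain ⟨q3, q3'⟩ := D.smul _ _ x q2
    obtain ⟨q4, q4'⟩ := sc3 _ _ _ _ z p1.1
    obtain ⟨q5, q5'⟩ := sc2 _ _ _ y q4
    obtain ⟨q6, q6'⟩ := sc3 _ _ _ _ z p2.1
    obtain ⟨q7, q7'⟩ := sc2 _ _ _ x q6
    obtain ⟨q8, q8'⟩ := sc3 _ _ _ _ y p3.1
    obtain ⟨q9, q9'⟩ := sc2 _ _ _ x q8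
    refine ⟨D.gen_four q3 q5 q7 q9, ?_⟩
    rw [T, if_pos hcard, q3', q2', q1', q5', q4', q7', q6', q9', q8', p1.2, p2.2, p3.2, ← hd, S,
      show D.lg y + (D.lg z + d) - (D.lg x + (D.lg y + (D.lg z + d))) = - D.lg x by abel,
      show D.lg x + (D.lg z + d) - (D.lg x + (D.lg y + (D.lg z + d))) = - D.lg y by abel,
      show D.lg x + (D.lg y + d) - (D.lg x + (D.lg y + (D.lg z + d))) = - D.lg z by abel]
    simp
  -- the explicit Koszul system
  let L4 : Aˣ → Aˣ → Aˣ → Ch (ℕ → Fin N → A) := fun x y z =>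
    FreeAbelianGroup.of [cf p, cf ((x : A) • e₁), cf ((y : A) • e₂), cf ((z : A) • e₃)]
  let L3 : Aˣ → Aˣ → Aˣ → Ch (ℕ → Fin N → A) := fun x y z =>
    FreeAbelianGroup.of [cf ((x : A) • e₁), cf ((y : A) • e₂), cf ((z : A) • e₃)]
  let L2 : Aˣ → Aˣ → Ch (ℕ → Fin N → A) := fun y z =>
    FreeAbelianGroup.of [cf ((y : A) • e₂), cf ((z : A) • e₃)]
  let L1 : Aˣ → Ch (ℕ → Fin N → A) := fun z => FreeAbelianGroup.of [cf ((z : A) • e₃)]
  have m4 : ∀ x y z, L4 x y z ∈ D.Cx 1 {P} := fun x y z =>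
    of_mem_spanL (by rintro _ rfl; exact (key x y z).1)
  have m3 : ∀ x y z, L3 x y z ∈ D.Cx 1 {P} := fun x y z =>
    of_mem_spanL (by rintro _ rfl; exact (key x y z).1.tail)
  have m2 : ∀ y z, L2 y z ∈ D.Cx 1 {P} := fun y z =>
    of_mem_spanL (by rintro _ rfl; exact (key 1 y z).1.tail.tail)
  have m1 : ∀ z, L1 z ∈ D.Cx 1 {P} := fun z =>
    of_mem_spanL (by rintro _ rfl; exact (key 1 1 z).1.tail.tail.tail)
  have hy' : D.Kos 1 {P} a b c (L4 u v w - L4 u v 1 - L4 u 1 w + L4 u 1 1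
      - (L4 1 v w - L4 1 v 1 - L4 1 1 w + L4 1 1 1)) := by
    refine ⟨L1 1, m1 1, 0, zero_mem _, 0, zero_mem _, L2 1 w - L2 1 1, sub_mem (m2 _ _) (m2 _ _),
      0, zero_mem _, 0, zero_mem _, L3 1 v w - L3 1 v 1 - L3 1 1 w + L3 1 1 1,
      add_mem (sub_mem (sub_mem (m3 _ _ _) (m3 _ _ _)) (m3 _ _ _)) (m3 _ _ _),
      sub_mem (add_mem (sub_mem (sub_mem (m4 _ _ _) (m4 _ _ _)) (m4 _ _ _)) (m4 _ _ _))
        (add_mem (sub_mem (sub_mem (m4 _ _ _) (m4 _ _ _)) (m4 _ _ _)) (m4 _ _ _)),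
      ?_, ?_, ?_, ?_, ?_, ?_, ?_, ?_⟩
    all_goals
      simp only [L1, L2, L3, L4, map_add, map_sub, map_zero, bd_of, bdL, cons_of, rho_of,
        List.map_cons, List.map_nil, act_cf, map_smul, a1, a2, a3, b1, b2, b3, c1, c2, c3,
        Units.val_one, one_smul, sub_zero, sub_self]
    all_goals abel
  rw [D.f_depth (by omega) hcard, hu P rfl (by omega) y _
    (IsKos.mono (D.Cx_mono (by omega) le_rfl) hy) hy']
  simp only [L4, map_add, map_sub, f_cf, (key _ _ _).2, D.lg_one, map_zero,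
    AddMonoidHom.zero_apply, D.val, neg_zero, sub_zero, add_zero]

end DetData

theorem IsDiag.commute {A : Type} [CommRing A] {N : ℕ} {a b : GLN A N} {α β : Fin N → Aˣ}
    (ha : IsDiag a α) (hb : IsDiag b β) : Commute a b := by
  refine Units.ext (LinearMap.ext fun x => funext fun m => ?_)
  simp only [Units.val_mul, Module.End.mul_apply, ha _ m, hb _ m]
  ring

theorem IsDiag.single {A : Type} [CommRing A] {N : ℕ} {a : GLN A N} {α : Fin N → Aˣ}
    (ha : IsDiag a α) (i : Fin N) :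
    (a : Module.End A (Fin N → A)) (Pi.single i 1) = (α i : A) • (Pi.single i 1 : Fin N → A) := by
  funext m
  rw [ha _ m, Pi.smul_apply, smul_eq_mul]
  by_cases h : m = i
  · rw [h]
  · simp [Pi.single_eq_of_ne h]

theorem claimFlags (hk : ClaimKoszul) (hd : ClaimDet) : ClaimFlags := by
  intro A k _ _ π hπ Φ hΦ N
  obtain ⟨D⟩ := hd A k π hπ Φ hΦ N
  have g0 : ∀ P ∈ ({0} : Set (Multiset (Fin N → A))), D.Good P := by
    intro P hP
    rw [Set.mem_singleton_iff.mp hP]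
    exact D.good_of_le D.std (Multiset.zero_le _)
  have g1 : ∀ g : GLN A N, ∀ P ∈ ({0} : Set (Multiset (Fin N → A))),
      P.map (g : Module.End A (Fin N → A)) = P := by
    intro g P hP
    rw [Set.mem_singleton_iff.mp hP, Multiset.map_zero]
  have g2 : (0 : Multiset (Fin N → A)) ∈ ({0} : Set (Multiset (Fin N → A))) := rfl
  have K := hk (GLN A N) (Ch (ℕ → Fin N → A)) (ZMod 5) (rho A N) bd
    (FreeAbelianGroup.of []) bd_bd bd_rho (by simp [bdL]) (fun g => by simp [rho_of])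
    (D.Cx N {0}) (D.nil_mem_Cx g0) (D.acyc_Cx N (Set.finite_singleton _))
  obtain ⟨φ, hφ, H⟩ := K.2 (fun g => D.rho_mem_Cx g (g1 g))
    (D.f N 0) (fun g => D.f_rho g2 g (Multiset.map_zero _)) (D.f_bd (by omega) g2)
  refine ⟨φ, hφ, fun a b c i j l u v w ha hb hc => ?_⟩
  have hab := ha.commute hb
  have hac := ha.commute hc
  have hbc := hb.commute hc
  obtain ⟨y, hy, hy'⟩ := H a b c hab hac hbc
  rw [hy']
  let e : Fin N → Fin N → A := fun m => Pi.single m 1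
  let P : Multiset (Fin N → A) := (Finset.univ \ {i, j, l} : Finset (Fin N)).val.map e
  have fix : ∀ (g : GLN A N) (m : Fin N) (t : Aˣ), IsDiag g (Pi.mulSingle m t) →
      ∀ n, n ≠ m → (g : Module.End A (Fin N → A)) (e n) = e n := by
    intro g m t hg n hn
    simp only [e]
    rw [hg.single n, Pi.mulSingle_eq_of_ne hn, Units.val_one, one_smul]
  have fixP : ∀ (g : GLN A N) (m : Fin N) (t : Aˣ), IsDiag g (Pi.mulSingle m t) →
      m ∈ ({i, j, l} : Finset (Fin N)) → ∀ x ∈ P, (g : Module.End A (Fin N → A)) x = x := by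
    intro g m t hg hm x hx
    obtain ⟨n, hn, rfl⟩ := Multiset.mem_map.mp hx
    refine fix g m t hg n ?_
    rintro rfl
    exact (Finset.mem_sdiff.mp (Finset.mem_val.mp hn)).2 hm
  have ha' := fixP a i u ha (by simp)
  have hb' := fixP b j v hb (by simp)
  have hc' := fixP c l w hc (by simp)
  refine D.peel hk hab hac hbc D.std _ P
    (Multiset.map_le_map (Finset.val_le_iff.mpr Finset.sdiff_subset)) ha' hb' hc' ?_ y hy
  split_ifs with hijl
  · obtain ⟨hij, hil, hjl⟩ := hijl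
    have hB : e i ::ₘ e j ::ₘ e l ::ₘ P = Finset.univ.val.map e := by
      have : (Finset.univ : Finset (Fin N)).val =
          i ::ₘ j ::ₘ l ::ₘ (Finset.univ \ {i, j, l} : Finset (Fin N)).val := by
        refine (Multiset.Nodup.ext Finset.univ.nodup ?_).mpr fun m => ?_
        · simp only [Multiset.nodup_cons, Multiset.mem_cons, Finset.mem_val, Finset.mem_sdiff,
            Finset.mem_insert, Finset.mem_singleton, Finset.nodup]
          tauto
        · simp only [Finset.mem_val, Finset.mem_univ, Multiset.mem_cons, Finset.mem_sdiff,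
            Finset.mem_insert, Finset.mem_singleton, true_and, true_iff]
          tauto
      rw [this]
      simp [P]
    refine D.base hk hab hac hbc (e₁ := e i) (e₂ := e j) (e₃ := e l) (hB ▸ D.std) ha' hb' hc'
      ?_ (fix a i u ha j hij.symm) (fix a i u ha l hil.symm) (fix b j v hb i hij) ?_
      (fix b j v hb l hjl.symm) (fix c l w hc i hil) (fix c l w hc j hjl) ?_
    · simpa [e] using ha.single i
    · simpa [e] using hb.single j
    · simpa [e] using hc.single l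
  · intro y _
    have hcard : ({i, j, l} : Finset (Fin N)).card < 3 := by
      have h3 := Finset.card_le_three (a := i) (b := j) (c := l)
      refine lt_of_le_of_ne h3 fun h => hijl ?_
      exact Finset.card_triple_eq_three_iff.mp h
    have : N < Multiset.card P + 3 := by
      simp only [P, Multiset.card_map, Finset.card_val]
      rw [Finset.card_sdiff_of_subset (Finset.subset_univ _), Finset.card_univ, Fintype.card_fin]
      omega
    rw [D.f_of_lt N this, AddMonoidHom.zero_apply]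

end Crest.Agent.R171
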