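import Crest.Agent.R171.Complex

/-!
Row 171: the Suslin-Goncharov cocycle on `GL_N(A)` and its values on tori.
-/

set_option autoImplicit false
set_option linter.unusedSimpArgs false

namespace Crest.Agent.R171

namespace DetData

variable {A : Type} [CommRing A] {N : ℕ} {Φ : Aˣ → Aˣ → Aˣ → ZMod 5} (D : DetData A N Φ)

theorem T_map (g : GLN A N) (P : Multiset (Fin N → A)) (v0 v1 v2 v3 : Fin N → A)
    (H : Multiset.card P + 3 = N →
      D.UD (v1 ::ₘ v2 ::ₘ v3 ::ₘ P) ∧ D.UD (v0 ::ₘ v2 ::ₘ v3 ::ₘ P) ∧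
      D.UD (v0 ::ₘ v1 ::ₘ v3 ::ₘ P) ∧ D.UD (v0 ::ₘ v1 ::ₘ v2 ::ₘ P)) :
    D.T (P.map (g : Module.End A (Fin N → A))) ((g : Module.End A (Fin N → A)) v0)
      ((g : Module.End A (Fin N → A)) v1) ((g : Module.End A (Fin N → A)) v2)
      ((g : Module.End A (Fin N → A)) v3) = D.T P v0 v1 v2 v3 := by
  by_cases h3 : Multiset.card P + 3 = N
  · obtain ⟨u0, u1, u2, u3⟩ := H h3
    obtain ⟨κ, hκ⟩ := D.map g
    have e0 := (hκ _ u0).2
    have e1 := (hκ _ u1).2
    have e2 := (hκ _ u2).2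
    have e3 := (hκ _ u3).2
    simp only [Multiset.map_cons] at e0 e1 e2 e3
    simp only [T, Multiset.card_map, if_pos h3, e0, e1, e2, e3, S_add]
  · rw [D.T_of_ne h3, D.T_of_ne (by simpa using h3)]

theorem G_map (g : GLN A N) (P : Multiset (Fin N → A)) (K₀ : ℕ) (F₀ : ℕ → Fin N → A) (K₁ : ℕ)
    (F₁ : ℕ → Fin N → A) (K₂ : ℕ) (F₂ : ℕ → Fin N → A) (K₃ : ℕ) (F₃ : ℕ → Fin N → A)
    (H : ∀ t₀ ≤ K₀, ∀ t₁ ≤ K₁, ∀ t₂ ≤ K₂, ∀ t₃ ≤ K₃,
      Multiset.card P + t₀ + t₁ + t₂ + t₃ = N →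
      D.UD (P + pre F₀ t₀ + pre F₁ t₁ + pre F₂ t₂ + pre F₃ t₃)) :
    D.G (P.map (g : Module.End A (Fin N → A))) K₀ (act g F₀) K₁ (act g F₁) K₂ (act g F₂)
      K₃ (act g F₃) = D.G P K₀ F₀ K₁ F₁ K₂ F₂ K₃ F₃ := by
  unfold G
  refine Finset.sum_congr rfl fun t₀ h₀ => Finset.sum_congr rfl fun t₁ h₁ =>
    Finset.sum_congr rfl fun t₂ h₂ => Finset.sum_congr rfl fun t₃ h₃ => ?_
  rw [Finset.mem_range] at h₀ h₁ h₂ h₃
  simp only [act, pre_map, ← Multiset.map_add, Function.comp_apply]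
  set Q := P + pre F₀ t₀ + pre F₁ t₁ + pre F₂ t₂ + pre F₃ t₃ with hQ
  refine D.T_map g Q _ _ _ _ fun hc => ?_
  have hc' : Multiset.card P + t₀ + t₁ + t₂ + t₃ + 3 = N := by
    simpa only [hQ, Multiset.card_add, card_pre] using hc
  have c10 := Multiset.cons_swap (F₁ t₁) (F₀ t₀)
  have c20 := Multiset.cons_swap (F₂ t₂) (F₀ t₀)
  have c30 := Multiset.cons_swap (F₃ t₃) (F₀ t₀)
  have c21 := Multiset.cons_swap (F₂ t₂) (F₁ t₁)
  have c31 := Multiset.cons_swap (F₃ t₃) (F₁ t₁)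
  have c32 := Multiset.cons_swap (F₃ t₃) (F₂ t₂)
  have u0 := H t₀ h₀.le (t₁ + 1) h₁ (t₂ + 1) h₂ (t₃ + 1) h₃ (by omega)
  have u1 := H (t₀ + 1) h₀ t₁ h₁.le (t₂ + 1) h₂ (t₃ + 1) h₃ (by omega)
  have u2 := H (t₀ + 1) h₀ (t₁ + 1) h₁ t₂ h₂.le (t₃ + 1) h₃ (by omega)
  have u3 := H (t₀ + 1) h₀ (t₁ + 1) h₁ (t₂ + 1) h₂ t₃ h₃.le (by omega)
  simp only [pre_succ, Multiset.add_cons, Multiset.cons_add, ← hQ, c10, c20, c30, c21, c31,
    c32] at u0 u1 u2 u3
  exact ⟨u0, u1, u2, u3⟩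

/-- the cocycle on lists of four flags -/
def fL (r : ℕ) (P : Multiset (Fin N → A)) : List (ℕ → Fin N → A) → ZMod 5
  | [F₀, F₁, F₂, F₃] => D.G P r F₀ r F₁ r F₂ r F₃
  | _ => 0

/-- the homotopy on lists of three flags -/
def hL (r : ℕ) (P : Multiset (Fin N → A)) (e : Fin N → A) : List (ℕ → Fin N → A) → ZMod 5
  | [F₁, F₂, F₃] => D.G P 1 (fun _ => e) r F₁ r F₂ r F₃
  | _ => 0

theorem fL_of_ne (r : ℕ) (P : Multiset (Fin N → A)) (l : List (ℕ → Fin N → A))
    (h : l.length ≠ 4) : D.fL r P l = 0 := by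
  match l, h with
  | [], _ => rfl
  | [_], _ => rfl
  | [_, _], _ => rfl
  | [_, _, _], _ => rfl
  | [_, _, _, _], h => exact absurd rfl h
  | _ :: _ :: _ :: _ :: _ :: _, _ => rfl

theorem hL_of_ne (r : ℕ) (P : Multiset (Fin N → A)) (e : Fin N → A) (l : List (ℕ → Fin N → A))
    (h : l.length ≠ 3) : D.hL r P e l = 0 := by
  match l, h with
  | [], _ => rfl
  | [_], _ => rfl
  | [_, _], _ => rfl
  | [_, _, _], h => exact absurd rfl h
  | _ :: _ :: _ :: _ :: _, _ => rfl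

noncomputable def f (r : ℕ) (P : Multiset (Fin N → A)) : Ch (ℕ → Fin N → A) →+ ZMod 5 :=
  FreeAbelianGroup.lift (D.fL r P)

noncomputable def h (r : ℕ) (P : Multiset (Fin N → A)) (e : Fin N → A) :
    Ch (ℕ → Fin N → A) →+ ZMod 5 :=
  FreeAbelianGroup.lift (D.hL r P e)

theorem f_of (r : ℕ) (P : Multiset (Fin N → A)) (l : List (ℕ → Fin N → A)) :
    D.f r P (FreeAbelianGroup.of l) = D.fL r P l := by simp [f]

theorem h_of (r : ℕ) (P : Multiset (Fin N → A)) (e : Fin N → A) (l : List (ℕ → Fin N → A)) :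
    D.h r P e (FreeAbelianGroup.of l) = D.hL r P e l := by simp [h]

theorem length_five {L : Type} {l : List L} (h : l.length = 5) :
    ∃ a b c d e, l = [a, b, c, d, e] := by
  match l, h with
  | [a, b, c, d, e], _ => exact ⟨a, b, c, d, e, rfl⟩

theorem length_four {L : Type} {l : List L} (h : l.length = 4) : ∃ a b c d, l = [a, b, c, d] := by
  match l, h with
  | [a, b, c, d], _ => exact ⟨a, b, c, d, rfl⟩

theorem f_bd {r : ℕ} {P : Multiset (Fin N → A)} (hr : N < Multiset.card P + r + 3)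
    {W : Set (Multiset (Fin N → A))} (hP : P ∈ W) : ∀ z ∈ D.Cx r W, D.f r P (bd z) = 0 := by
  refine eq_on_spanL (f := (D.f r P).comp bd) (g := 0) fun l hl => ?_
  have hl := hl P hP
  simp only [AddMonoidHom.comp_apply, bd_of, AddMonoidHom.zero_apply]
  by_cases h5 : l.length = 5
  · obtain ⟨F₀, F₁, F₂, F₃, F₄, rfl⟩ := length_five h5
    have key := D.G_five P r F₀ r F₁ r F₂ r F₃ r F₄ fun t₀ h₀ t₁ h₁ t₂ h₂ t₃ h₃ t₄ h₄ hc =>
      Good.ud (hl t₀ h₀ t₁ h₁ t₂ h₂ t₃ h₃ t₄ h₄) (by simpa using hc)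
    have hz : ∀ F : ℕ → Fin N → A, N < Multiset.card (P + pre F r) + 3 := fun F => by
      simpa using hr
    simp only [D.G_of_lt (hz _), sub_zero] at key
    simp only [bdL, map_sub, cons_of, map_zero, f_of, fL]
    linear_combination key
  · exact lift_bdL_eq_zero _ _ fun l' hl' => D.fL_of_ne r P l' (by omega)

theorem f_peel {r : ℕ} {P : Multiset (Fin N → A)} {e : Fin N → A}
    (hr : N < Multiset.card P + r + 3) {W : Set (Multiset (Fin N → A))} (hP : P ∈ W)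
    (he : e ::ₘ P ∈ W) : ∀ z ∈ D.Cx r W, D.f r P z = D.f r (e ::ₘ P) z + D.h r P e (bd z) := by
  refine eq_on_spanL (f := D.f r P) (g := D.f r (e ::ₘ P) + (D.h r P e).comp bd) fun l hl => ?_
  have hl₀ := hl P hP
  have hl₁ := hl _ he
  simp only [AddMonoidHom.add_apply, AddMonoidHom.comp_apply, bd_of, f_of]
  by_cases h4 : l.length = 4
  · obtain ⟨F₁, F₂, F₃, F₄, rfl⟩ := length_four h4
    have e1 : P + pre (fun _ => e) 1 = e ::ₘ P := by
      rw [pre_succ, pre_zero, Multiset.add_cons, add_zero]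
    have key := D.G_five P 1 (fun _ => e) r F₁ r F₂ r F₃ r F₄
      fun t₀ h₀ t₁ h₁ t₂ h₂ t₃ h₃ t₄ h₄ hc => by
        rcases Nat.le_one_iff_eq_zero_or_eq_one.mp h₀ with rfl | rfl
        · rw [pre_zero, add_zero]
          exact Good.ud (hl₀ t₁ h₁ t₂ h₂ t₃ h₃ t₄ h₄) (by simpa using hc)
        · rw [e1]
          exact Good.ud (hl₁ t₁ h₁ t₂ h₂ t₃ h₃ t₄ h₄)
            (by simp only [Multiset.card_add, card_pre, Multiset.card_cons]; omega)
    have hz : ∀ F : ℕ → Fin N → A, N < Multiset.card (P + pre F r) + 3 := fun F => by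
      simpa using hr
    simp only [D.G_of_lt (hz _), sub_zero, e1] at key
    simp only [bdL, map_sub, cons_of, map_zero, h_of, hL, fL]
    linear_combination key
  · rw [D.fL_of_ne r P l h4, D.fL_of_ne r _ l h4, zero_add]
    exact (lift_bdL_eq_zero _ _ fun l' hl' => D.hL_of_ne r P e l' (by omega)).symm

theorem rho_mem_Cx {r : ℕ} {W : Set (Multiset (Fin N → A))} (g : GLN A N)
    (hg : ∀ P ∈ W, P.map (g : Module.End A (Fin N → A)) = P) :
    ∀ z ∈ D.Cx r W, rho A N g z ∈ D.Cx r W := by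
  refine map_mem_spanL (f := mapCh (act g)) fun l hl => ?_
  rw [mapCh_of]
  refine of_mem_spanL fun P hP => ?_
  have := (hl P hP).map g
  rwa [hg P hP] at this

theorem f_rho {r : ℕ} {P : Multiset (Fin N → A)} {W : Set (Multiset (Fin N → A))} (hP : P ∈ W)
    (g : GLN A N) (hg : P.map (g : Module.End A (Fin N → A)) = P) :
    ∀ z ∈ D.Cx r W, D.f r P (rho A N g z) = D.f r P z := by
  refine eq_on_spanL (f := (D.f r P).comp (rho A N g)) (g := D.f r P) fun l hl => ?_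
  have hl := hl P hP
  change D.f r P (rho A N g _) = _
  rw [rho_of, f_of, f_of]
  by_cases h4 : l.length = 4
  · obtain ⟨F₀, F₁, F₂, F₃, rfl⟩ := length_four h4
    have key := D.G_map g P r F₀ r F₁ r F₂ r F₃ fun t₀ h₀ t₁ h₁ t₂ h₂ t₃ h₃ hc =>
      Good.ud (hl t₀ h₀ t₁ h₁ t₂ h₂ t₃ h₃) (by simpa using hc)
    rw [hg] at key
    exact key
  · rw [D.fL_of_ne r P l h4, D.fL_of_ne r P _ (by simpa using h4)]

theorem h_rho {r : ℕ} {P : Multiset (Fin N → A)} {e : Fin N → A}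
    {W : Set (Multiset (Fin N → A))} (hP : P ∈ W) (he : e ::ₘ P ∈ W)
    (g : GLN A N) (hg : P.map (g : Module.End A (Fin N → A)) = P)
    (hge : (g : Module.End A (Fin N → A)) e = e) :
    ∀ z ∈ D.Cx r W, D.h r P e (rho A N g z) = D.h r P e z := by
  refine eq_on_spanL (f := (D.h r P e).comp (rho A N g)) (g := D.h r P e) fun l hl => ?_
  have hl₀ := hl P hP
  have hl₁ := hl _ he
  change D.h r P e (rho A N g _) = _
  rw [rho_of, h_of, h_of]
  by_cases h3 : l.length = 3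
  · obtain ⟨F₁, F₂, F₃, rfl⟩ := List.length_eq_three.mp h3
    have e1 : P + pre (fun _ => e) 1 = e ::ₘ P := by
      rw [pre_succ, pre_zero, Multiset.add_cons, add_zero]
    have key := D.G_map g P 1 (fun _ => e) r F₁ r F₂ r F₃ fun t₀ h₀ t₁ h₁ t₂ h₂ t₃ h₃ hc => by
      rcases Nat.le_one_iff_eq_zero_or_eq_one.mp h₀ with rfl | rfl
      · rw [pre_zero, add_zero]
        exact Good.ud (hl₀ t₁ h₁ t₂ h₂ t₃ h₃) (by simpa using hc)
      · rw [e1]
        exact Good.ud (hl₁ t₁ h₁ t₂ h₂ t₃ h₃)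
          (by simp only [Multiset.card_add, card_pre, Multiset.card_cons]; omega)
    have e2 : act g (fun _ => e) = fun _ => e := by
      funext t
      exact hge
    rw [hg, e2] at key
    exact key
  · rw [D.hL_of_ne r P e l h3, D.hL_of_ne r P e _ (by simpa using h3)]

theorem f_depth {r : ℕ} (hr : 1 ≤ r) {P : Multiset (Fin N → A)} (hP : Multiset.card P + 3 = N) :
    D.f r P = D.f 1 P := by
  have key : D.fL r P = D.fL 1 P := by
    funext l
    by_cases h4 : l.length = 4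
    · obtain ⟨F₀, F₁, F₂, F₃, rfl⟩ := length_four h4
      simp only [fL, G]
      have hs : Finset.range 1 ⊆ Finset.range r := Finset.range_mono hr
      symm
      rw [Finset.sum_subset hs, Finset.sum_congr rfl fun t₀ _ => ?_]
      · rw [Finset.sum_subset hs, Finset.sum_congr rfl fun t₁ _ => ?_]
        · rw [Finset.sum_subset hs, Finset.sum_congr rfl fun t₂ _ => ?_]
          · refine Finset.sum_subset hs fun t₃ _ h₃ => D.T_of_ne ?_ _ _ _ _
            simp only [Multiset.card_add, card_pre, Finset.mem_range] at h₃ ⊢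
            omega
          · refine fun t₂ _ h₂ => Finset.sum_eq_zero fun t₃ _ => D.T_of_ne ?_ _ _ _ _
            simp only [Multiset.card_add, card_pre, Finset.mem_range] at h₂ ⊢
            omega
        · refine fun t₁ _ h₁ => Finset.sum_eq_zero fun t₂ _ => Finset.sum_eq_zero fun t₃ _ =>
            D.T_of_ne ?_ _ _ _ _
          simp only [Multiset.card_add, card_pre, Finset.mem_range] at h₁ ⊢
          omega
      · refine fun t₀ _ h₀ => Finset.sum_eq_zero fun t₁ _ => Finset.sum_eq_zero fun t₂ _ =>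
          Finset.sum_eq_zero fun t₃ _ => D.T_of_ne ?_ _ _ _ _
        simp only [Multiset.card_add, card_pre, Finset.mem_range] at h₀ ⊢
        omega
    · rw [D.fL_of_ne r P l h4, D.fL_of_ne 1 P l h4]
  rw [f, f, key]

theorem f_of_lt (r : ℕ) {P : Multiset (Fin N → A)} (hP : N < Multiset.card P + 3) :
    D.f r P = 0 := by
  refine FreeAbelianGroup.lift_ext _ _ fun l => ?_
  rw [f_of, AddMonoidHom.zero_apply]
  by_cases h4 : l.length = 4
  · obtain ⟨F₀, F₁, F₂, F₃, rfl⟩ := length_four h4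
    exact D.G_of_lt hP _ _ _ _ _ _ _ _
  · exact D.fL_of_ne r P l h4

end DetData

end Crest.Agent.R171
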