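import Crest.Agent.R171.Defs

/-!
Row 171: Witt vectors of length two in characteristic five, and the subrings cut out by a
derivation.
-/

set_option autoImplicit false

namespace Crest.Agent.R171

/-- Witt vectors of length two -/
@[ext] structure W2 (Q : Type) where
  a0 : Q
  a1 : Q

namespace W2

variable {Q : Type} [CommRing Q]

/-- the carry -/
def cc (a b : Q) : Q := a ^ 4 * b + 2 * (a ^ 3 * b ^ 2) + 2 * (a ^ 2 * b ^ 3) + a * b ^ 4

instance : Zero (W2 Q) := ⟨⟨0, 0⟩⟩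
instance : One (W2 Q) := ⟨⟨1, 0⟩⟩
instance : Add (W2 Q) := ⟨fun a b => ⟨a.a0 + b.a0, a.a1 + b.a1 - cc a.a0 b.a0⟩⟩
instance : Neg (W2 Q) := ⟨fun a => ⟨-a.a0, -a.a1⟩⟩
instance : Mul (W2 Q) := ⟨fun a b => ⟨a.a0 * b.a0, a.a0 ^ 5 * b.a1 + b.a0 ^ 5 * a.a1⟩⟩

@[simp] theorem zero_a0 : (0 : W2 Q).a0 = 0 := rfl
@[simp] theorem zero_a1 : (0 : W2 Q).a1 = 0 := rfl
@[simp] theorem one_a0 : (1 : W2 Q).a0 = 1 := rfl
@[simp] theorem one_a1 : (1 : W2 Q).a1 = 0 := rfl
@[simp] theorem add_a0 (a b : W2 Q) : (a + b).a0 = a.a0 + b.a0 := rfl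
@[simp] theorem add_a1 (a b : W2 Q) : (a + b).a1 = a.a1 + b.a1 - cc a.a0 b.a0 := rfl
@[simp] theorem neg_a0 (a : W2 Q) : (-a).a0 = -a.a0 := rfl
@[simp] theorem neg_a1 (a : W2 Q) : (-a).a1 = -a.a1 := rfl
@[simp] theorem mul_a0 (a b : W2 Q) : (a * b).a0 = a.a0 * b.a0 := rfl
@[simp] theorem mul_a1 (a b : W2 Q) : (a * b).a1 = a.a0 ^ 5 * b.a1 + b.a0 ^ 5 * a.a1 := rfl

variable [CharP Q 5]

theorem five : (5 : Q) = 0 := CharP.cast_eq_zero Q 5

theorem add5 (a b : Q) : (a + b) ^ 5 = a ^ 5 + b ^ 5 := by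
  linear_combination (a ^ 4 * b + 2 * (a ^ 3 * b ^ 2) + 2 * (a ^ 2 * b ^ 3) + a * b ^ 4) *
    (five : (5 : Q) = 0)

theorem sub5 (a b : Q) : (a - b) ^ 5 = a ^ 5 - b ^ 5 := by
  rw [sub_eq_add_neg, add5]
  ring

instance : CommRing (W2 Q) :=
  CommRing.ofMinimalAxioms
    (fun a b c => by ext <;> simp only [add_a0, add_a1, cc] <;> ring)
    (fun a => by ext <;> simp [cc])
    (fun a => by ext <;> simp only [add_a0, add_a1, neg_a0, neg_a1, zero_a0, zero_a1, cc] <;> ring)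
    (fun a b c => by ext <;> simp only [mul_a0, mul_a1] <;> ring)
    (fun a b => by ext <;> simp only [mul_a0, mul_a1] <;> ring)
    (fun a => by ext <;> simp)
    (fun a b c => by
      ext <;> simp only [add_a0, add_a1, mul_a0, mul_a1, cc]
      · ring
      · linear_combination (a.a1 * (b.a0 ^ 4 * c.a0 + 2 * (b.a0 ^ 3 * c.a0 ^ 2) +
          2 * (b.a0 ^ 2 * c.a0 ^ 3) + b.a0 * c.a0 ^ 4)) * (five : (5 : Q) = 0))

/-- the first component -/
def fst : W2 Q →+* Q where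
  toFun := a0
  map_one' := rfl
  map_mul' _ _ := rfl
  map_zero' := rfl
  map_add' _ _ := rfl

theorem five_eq : (5 : W2 Q) = ⟨0, 1⟩ := by
  rw [show (5 : W2 Q) = 1 + 1 + 1 + 1 + 1 by norm_num]
  ext <;> simp only [add_a0, add_a1, one_a0, one_a1, cc]
  · linear_combination (five : (5 : Q) = 0)
  · linear_combination (-125) * (five : (5 : Q) = 0)

theorem teich_pow (q : Q) (n : ℕ) : (⟨q, 0⟩ : W2 Q) ^ n = ⟨q ^ n, 0⟩ := by
  induction n with
  | zero => rw [pow_zero, pow_zero]; rfl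
  | succ n ih => rw [pow_succ, ih]; ext <;> simp [pow_succ]

theorem isNilpotent {a : W2 Q} (h : a.a0 ^ 5 = 0) : IsNilpotent a := by
  have h1 : (a ^ 5).a0 = 0 := (map_pow fst a 5).trans h
  exact ⟨5 + 5, by rw [pow_add]; ext <;> simp [h1]⟩

variable {k : Type} [Field k] [Algebra k Q] (d : Derivation k Q Q)

theorem d_pow5 (q : Q) : d (q ^ 5) = 0 := by
  rw [d.leibniz_pow, nsmul_eq_mul, CharP.cast_eq_zero, zero_mul]

omit [CharP Q 5] in
theorem d_ofNat (n : ℕ) [n.AtLeastTwo] : d (no_index (OfNat.ofNat n)) = 0 := d.map_natCast n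

omit [CharP Q 5] in
theorem d_cc (a b : Q) :
    d (cc a b) = ((a + b) ^ 4 - a ^ 4) * d a + ((a + b) ^ 4 - b ^ 4) * d b := by
  simp only [cc, map_add, d.leibniz, d.leibniz_pow, d_ofNat, smul_eq_mul, nsmul_eq_mul]
  push_cast
  ring

/-- the subring cut out by a derivation -/
def sub (z : Q) : Subring (W2 Q) where
  carrier := {a | d a.a1 + a.a0 ^ 4 * d a.a0 = z * d a.a0 ^ 5}
  mul_mem' {a b} ha hb := by
    simp only [Set.mem_ofPred_eq, mul_a0, mul_a1, map_add, d.leibniz, d_pow5, smul_eq_mul] at *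
    rw [add5]
    linear_combination b.a0 ^ 5 * ha + a.a0 ^ 5 * hb
  one_mem' := by simp
  add_mem' {a b} ha hb := by
    simp only [Set.mem_ofPred_eq, add_a0, add_a1, map_add, map_sub, d_cc] at *
    rw [add5]
    linear_combination ha + hb
  zero_mem' := by simp
  neg_mem' {a} ha := by
    simp only [Set.mem_ofPred_eq, neg_a0, neg_a1, map_neg] at *
    linear_combination -ha

theorem mem_sub {z : Q} {a : W2 Q} :
    a ∈ sub d z ↔ d a.a1 + a.a0 ^ 4 * d a.a0 = z * d a.a0 ^ 5 := Iff.rfl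

end W2

end Crest.Agent.R171
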